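import Crest.Agent.R2.End717b
import Crest.Agent.R2.End717c
import Crest.Agent.R2.Spec289

-- ▼ part R2/Bias717a
section

/-!
# R2 (Gaussian moat), block B1: characters mod a split prime, light classes
-/

set_option autoImplicit false

namespace Crest.Agent.R2.B717

open Finset Crest.Agent.R2.E717

/-- `e(t) = exp (2 π i t)` -/
noncomputable def ee (t : ℝ) : ℂ := Complex.exp (2 * Real.pi * (t : ℂ) * Complex.I)

theorem chi_eq_ee (v : GaussianInt) (x : ℂ) : chi v x = ee (((v : ℂ) * x).re) := rfl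

theorem ee_add (s t : ℝ) : ee (s + t) = ee s * ee t := by
  unfold ee; rw [← Complex.exp_add]; congr 1; push_cast; ring

theorem ee_zero : ee 0 = 1 := by simp [ee]



theorem ee_neg (t : ℝ) : ee (-t) = (starRingEnd ℂ) (ee t) := by
  unfold ee
  rw [← Complex.exp_conj]
  congr 1
  simp only [map_mul, Complex.conj_ofReal, Complex.conj_I, map_ofNat, Complex.ofReal_neg]
  ring

theorem ee_sub (s t : ℝ) : ee (s - t) = ee s * (starRingEnd ℂ) (ee t) := by
  rw [sub_eq_add_neg, ee_add, ee_neg]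

theorem ee_int (n : ℤ) : ee (n : ℝ) = 1 := by
  unfold ee
  rw [Complex.exp_eq_one_iff]
  exact ⟨n, by push_cast; ring⟩

theorem ee_eq_one_iff {t : ℝ} : ee t = 1 ↔ ∃ n : ℤ, t = n := by
  constructor
  · intro h
    unfold ee at h
    rw [Complex.exp_eq_one_iff] at h
    obtain ⟨n, hn⟩ := h
    refine ⟨n, ?_⟩
    have h1 : (2 * (Real.pi : ℂ) * Complex.I) ≠ 0 := by
      simp [Real.pi_ne_zero]
    have h2 : (2 * (Real.pi : ℂ) * Complex.I) * (t : ℂ) = (2 * (Real.pi : ℂ) * Complex.I) * (n : ℂ) := by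
      linear_combination hn
    have h3 := mul_left_cancel₀ h1 h2
    exact_mod_cast h3
  · rintro ⟨n, rfl⟩; exact ee_int n

theorem ee_nat_mul (k : ℕ) (t : ℝ) : ee (k * t) = ee t ^ k := by
  induction k with
  | zero => simp [ee_zero]
  | succ k ih => rw [pow_succ, ← ih, ← ee_add]; congr 1; push_cast; ring

/-- sums of roots of unity -/
theorem sum_ee (n : ℕ) (hn : 0 < n) (a : ℤ) :
    ∑ j ∈ range n, ee (j * ((a : ℝ) / n)) = if (n : ℤ) ∣ a then (n : ℂ) else 0 := by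
  have hn' : (n : ℝ) ≠ 0 := by exact_mod_cast hn.ne'
  simp_rw [ee_nat_mul]
  split_ifs with h
  · obtain ⟨m, rfl⟩ := h
    have : ee ((((n : ℤ) * m : ℤ) : ℝ) / n) = 1 := by
      rw [ee_eq_one_iff]
      exact ⟨m, by push_cast; field_simp⟩
    rw [this]; simp
  · have h1 : ee ((a : ℝ) / n) ≠ 1 := by
      intro h1
      rw [ee_eq_one_iff] at h1
      obtain ⟨m, hm⟩ := h1
      rw [div_eq_iff hn'] at hm
      exact h ⟨m, by exact_mod_cast (by rw [hm]; ring : (a : ℝ) = (n : ℝ) * m)⟩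
    rw [geom_sum_eq h1, ← ee_nat_mul]
    have : (n : ℝ) * ((a : ℝ) / n) = a := by field_simp
    rw [this, ee_int, sub_self, zero_div]


theorem chi_add_right (v : GaussianInt) (x y : ℂ) : chi v (x + y) = chi v x * chi v y := by
  rw [chi_eq_ee, chi_eq_ee, chi_eq_ee, ← ee_add, mul_add, Complex.add_re]



theorem chi_neg_right (v : GaussianInt) (x : ℂ) : chi v (-x) = (starRingEnd ℂ) (chi v x) := by
  rw [chi_eq_ee, chi_eq_ee, ← ee_neg, mul_neg, Complex.neg_re]




theorem chi_gaussian (v g : GaussianInt) : chi v (g : ℂ) = 1 := by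
  rw [chi_eq_ee, ← GaussianInt.toComplex_mul, ← GaussianInt.intCast_re]
  exact ee_int _

theorem mhat_add_gaussian (A : Finset GaussianInt) (m : GaussianInt → ℝ) (x : ℂ)
    (g : GaussianInt) : mhat A m (x + g) = mhat A m x := by
  unfold mhat
  refine Finset.sum_congr rfl fun z _ => ?_
  rw [chi_add_right, chi_gaussian, mul_one]

theorem mhat_zero (A : Finset GaussianInt) (m : GaussianInt → ℝ) (hs : ∑ z ∈ A, m z = 1) :
    mhat A m 0 = 1 := by
  unfold mhat
  simp only [chi_eq_ee, mul_zero, Complex.zero_re, ee_zero, mul_one]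
  exact_mod_cast hs

theorem mhat_neg (A : Finset GaussianInt) (m : GaussianInt → ℝ) (x : ℂ) :
    mhat A m (-x) = (starRingEnd ℂ) (mhat A m x) := by
  unfold mhat
  rw [map_sum]
  refine Finset.sum_congr rfl fun z _ => ?_
  rw [chi_neg_right, map_mul, Complex.conj_ofReal]

/-- the additive map `z ↦ Re (z * conj π)`; it separates the classes mod `π` modulo `p = N(π)` -/
def tt (q z : GaussianInt) : ℤ := (z * star q).re

theorem tt_sub (q z w : GaussianInt) : tt q (z - w) = tt q z - tt q w := by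
  unfold tt; rw [sub_mul, Zsqrtd.re_sub]

theorem chi_div (q z : GaussianInt) (hq : q ≠ 0) (b : ℤ) :
    chi z ((b : ℂ) / q) = ee (b * ((tt q z : ℝ) / (q.norm : ℝ))) := by
  rw [chi_eq_ee]
  congr 1
  have h1 : (q : ℂ) * (starRingEnd ℂ) (q : ℂ) = ((q.norm : ℤ) : ℂ) := by
    rw [Complex.mul_conj, GaussianInt.intCast_complex_norm]
  have hq' : (q : ℂ) ≠ 0 := by rwa [Ne, GaussianInt.toComplex_eq_zero]
  have hqc : (starRingEnd ℂ) (q : ℂ) ≠ 0 := by rwa [Ne, map_eq_zero]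
  have hn : ((q.norm : ℤ) : ℂ) ≠ 0 := by rw [← h1]; exact mul_ne_zero hq' hqc
  have h2 : (z : ℂ) * ((b : ℂ) / q) = ((z * star q : GaussianInt) : ℂ) * ((b : ℝ) / ((q.norm : ℤ) : ℝ) : ℝ) := by
    rw [GaussianInt.toComplex_mul, GaussianInt.toComplex_star]
    push_cast
    rw [← h1]
    field_simp
  rw [h2, Complex.re_mul_ofReal, ← GaussianInt.intCast_re]
  unfold tt
  ring

theorem dvd_iff_tt {q : GaussianInt} {p : ℕ} (hp : p.Prime) (hq : q.norm = p) (z : GaussianInt) :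
    q ∣ z ↔ (p : ℤ) ∣ tt q z := by
  have hq0 : q ≠ 0 := by
    rintro rfl
    rw [Zsqrtd.norm_zero] at hq
    exact hp.ne_zero (by exact_mod_cast hq.symm)
  have hqq : q * star q = ((p : ℤ) : GaussianInt) := by
    rw [← Zsqrtd.norm_eq_mul_conj, hq]
  constructor
  · rintro ⟨y, rfl⟩
    unfold tt
    have : q * y * star q = ((p : ℤ) : GaussianInt) * y := by rw [← hqq]; ring
    have h2 : (((p : ℤ) : GaussianInt) * y).re = (p : ℤ) * y.re := by
      rw [Zsqrtd.re_mul]; simp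
    rw [this, h2]
    exact dvd_mul_right _ _
  · intro h
    unfold tt at h
    set u : GaussianInt := z * star q with hu
    have hnorm : u.norm = z.norm * p := by
      rw [hu, Zsqrtd.norm_mul, Zsqrtd.norm_conj, hq]
    have him : (p : ℤ) ∣ u.im := by
      have h1 : u.norm = u.re * u.re + u.im * u.im := by
        rw [Zsqrtd.norm_def]; ring
      have h2 : (p : ℤ) ∣ u.im * u.im := by
        have h3 : u.im * u.im = z.norm * p - u.re * u.re := by rw [← hnorm, h1]; ring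
        rw [h3]
        exact dvd_sub (dvd_mul_left _ _) (dvd_mul_of_dvd_left h _)
      have hp' : Prime (p : ℤ) := Nat.prime_iff_prime_int.mp hp
      rcases hp'.dvd_or_dvd h2 with h | h <;> exact h
    have h3 : ((p : ℤ) : GaussianInt) ∣ u := by
      rw [Zsqrtd.intCast_dvd]
      exact ⟨h, him⟩
    rw [← hqq, hu] at h3
    obtain ⟨y, hy⟩ := h3
    have hs0 : star q ≠ 0 := by rwa [Ne, star_eq_zero]
    refine ⟨y, mul_right_cancel₀ hs0 ?_⟩
    rw [hy]; ring

open Classical in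
/-- mass of the residue classes mod `π`, indexed by `ZMod p` -/
noncomputable def nu (A : Finset GaussianInt) (m : GaussianInt → ℝ) (q : GaussianInt) (p : ℕ)
    (k : ZMod p) : ℝ := ∑ z ∈ A with ((tt q z : ℤ) : ZMod p) = k, m z

open Classical in
theorem parseval {q : GaussianInt} {p : ℕ} (hp : p.Prime) (hq : q.norm = p)
    (A : Finset GaussianInt) (m : GaussianInt → ℝ) :
    haveI : NeZero p := ⟨hp.ne_zero⟩
    ∑ b ∈ range p, ‖mhat A m ((b : ℂ) / q)‖ ^ 2 = p * ∑ k : ZMod p, nu A m q p k ^ 2 := by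
  haveI : NeZero p := ⟨hp.ne_zero⟩
  have hq0 : q ≠ 0 := by
    rintro rfl
    rw [Zsqrtd.norm_zero] at hq
    exact hp.ne_zero (by exact_mod_cast hq.symm)
  have h1 : ∀ b : ℕ, ((‖mhat A m ((b : ℂ) / q)‖ ^ 2 : ℝ) : ℂ)
      = ∑ z ∈ A, ∑ z' ∈ A, (m z : ℂ) * (m z' : ℂ) *
          ee (b * (((tt q z - tt q z' : ℤ) : ℝ) / p)) := by
    intro b
    rw [← Complex.normSq_eq_norm_sq, ← Complex.mul_conj]
    unfold mhat
    rw [map_sum, Finset.sum_mul_sum]
    refine Finset.sum_congr rfl fun z _ => Finset.sum_congr rfl fun z' _ => ?_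
    have hb : ((b : ℕ) : ℂ) = ((b : ℤ) : ℂ) := by push_cast; rfl
    rw [hb, map_mul, Complex.conj_ofReal, chi_div q z hq0, chi_div q z' hq0, hq]
    have : ee (b * (((tt q z - tt q z' : ℤ) : ℝ) / p))
        = ee (((b : ℤ) : ℝ) * ((tt q z : ℝ) / (((p : ℕ) : ℤ) : ℝ))) *
          (starRingEnd ℂ) (ee (((b : ℤ) : ℝ) * ((tt q z' : ℝ) / (((p : ℕ) : ℤ) : ℝ)))) := by
      rw [← ee_sub]
      congr 1
      push_cast; ring
    rw [this]
    ring
  have h2 : ((∑ b ∈ range p, ‖mhat A m ((b : ℂ) / q)‖ ^ 2 : ℝ) : ℂ)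
      = ∑ z ∈ A, ∑ z' ∈ A, (m z : ℂ) * (m z' : ℂ) *
          (if (p : ℤ) ∣ tt q z - tt q z' then (p : ℂ) else 0) := by
    rw [Complex.ofReal_sum]
    simp_rw [h1]
    rw [Finset.sum_comm]
    refine Finset.sum_congr rfl fun z _ => ?_
    rw [Finset.sum_comm]
    refine Finset.sum_congr rfl fun z' _ => ?_
    rw [← Finset.mul_sum, sum_ee p hp.pos]
  have h3 : (p : ℝ) * ∑ k : ZMod p, nu A m q p k ^ 2
      = ∑ z ∈ A, ∑ z' ∈ A, m z * m z' * (if (p : ℤ) ∣ tt q z - tt q z' then (p : ℝ) else 0) := by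
    have h4 : ∀ k : ZMod p, nu A m q p k ^ 2 = ∑ z ∈ A, ∑ z' ∈ A,
        (if ((tt q z : ℤ) : ZMod p) = k then
          (if ((tt q z' : ℤ) : ZMod p) = k then m z * m z' else 0) else 0) := by
      intro k
      unfold nu
      rw [sq, Finset.sum_filter, Finset.sum_mul_sum]
      refine Finset.sum_congr rfl fun z _ => Finset.sum_congr rfl fun z' _ => ?_
      split_ifs <;> simp
    simp_rw [h4]
    rw [Finset.sum_comm, Finset.mul_sum]
    refine Finset.sum_congr rfl fun z _ => ?_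
    rw [Finset.sum_comm, Finset.mul_sum]
    refine Finset.sum_congr rfl fun z' _ => ?_
    rw [Finset.sum_ite_eq]
    simp only [Finset.mem_univ, if_true]
    have h5 : ((tt q z' : ℤ) : ZMod p) = ((tt q z : ℤ) : ZMod p) ↔ (p : ℤ) ∣ tt q z - tt q z' :=
      ZMod.intCast_eq_intCast_iff_dvd_sub _ _ _
    by_cases h6 : (p : ℤ) ∣ tt q z - tt q z'
    · rw [if_pos h6, if_pos (h5.mpr h6)]; ring
    · rw [if_neg h6, if_neg (fun h => h6 (h5.mp h))]; ring
  have h7 : ((∑ b ∈ range p, ‖mhat A m ((b : ℂ) / q)‖ ^ 2 : ℝ) : ℂ)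
      = (((p : ℝ) * ∑ k : ZMod p, nu A m q p k ^ 2 : ℝ) : ℂ) := by
    rw [h2, h3]
    push_cast
    refine Finset.sum_congr rfl fun z _ => Finset.sum_congr rfl fun z' _ => ?_
    split_ifs <;> simp
  exact_mod_cast h7

open Classical in
/-- **(3.1)** many light classes mod `π` force a large second moment of the nontrivial
characters mod `π`. -/
theorem light_classes {q : GaussianInt} {p : ℕ} (hp : p.Prime) (hq : q.norm = p)
    (A : Finset GaussianInt) (m : GaussianInt → ℝ) (hs : ∑ z ∈ A, m z = 1)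
    (C : Finset GaussianInt) (hC : ∀ c ∈ C, ∀ c' ∈ C, q ∣ c - c' → c = c')
    (hlight : ∀ c ∈ C, ∑ z ∈ A with q ∣ z - c, m z ≤ 1 / (4 * p)) :
    9 / 16 * (C.card : ℝ) / p ≤ ∑ b ∈ Ico 1 p, ‖mhat A m ((b : ℂ) / q)‖ ^ 2 := by
  haveI : NeZero p := ⟨hp.ne_zero⟩
  have hp0 : (0 : ℝ) < p := by exact_mod_cast hp.pos
  have hpars := parseval hp hq A m
  have h0 : ∑ b ∈ range p, ‖mhat A m ((b : ℂ) / q)‖ ^ 2
      = 1 + ∑ b ∈ Ico 1 p, ‖mhat A m ((b : ℂ) / q)‖ ^ 2 := by
    rw [Finset.range_eq_Ico, Finset.sum_eq_sum_Ico_succ_bot hp.pos]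
    congr 1
    simp [mhat_zero A m hs]
  have hsum1 : ∑ k : ZMod p, nu A m q p k = 1 := by
    unfold nu
    rw [Finset.sum_fiberwise]
    exact hs
  have hvar : ∑ k : ZMod p, (nu A m q p k - 1 / p) ^ 2 = ∑ k : ZMod p, nu A m q p k ^ 2 - 1 / p := by
    have : ∀ k : ZMod p, (nu A m q p k - 1 / p) ^ 2
        = nu A m q p k ^ 2 - 2 / p * nu A m q p k + 1 / p ^ 2 := by intro k; ring
    simp_rw [this]
    rw [Finset.sum_add_distrib, Finset.sum_sub_distrib, ← Finset.mul_sum, hsum1,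
      Finset.sum_const, Finset.card_univ, ZMod.card, nsmul_eq_mul]
    field_simp
    ring
  -- the light classes
  set K : Finset (ZMod p) := C.image (fun c => ((tt q c : ℤ) : ZMod p)) with hK
  have hinj : Set.InjOn (fun c => ((tt q c : ℤ) : ZMod p)) (C : Set GaussianInt) := by
    intro c hc c' hc' h
    have h1 : (p : ℤ) ∣ tt q c' - tt q c := (ZMod.intCast_eq_intCast_iff_dvd_sub _ _ _).mp h
    rw [← tt_sub, ← dvd_iff_tt hp hq] at h1
    exact (hC c' hc' c hc h1).symm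
  have hKcard : K.card = C.card := Finset.card_image_of_injOn hinj
  have hlow : (K.card : ℝ) * (9 / 16 / p ^ 2) ≤ ∑ k : ZMod p, (nu A m q p k - 1 / p) ^ 2 := by
    calc (K.card : ℝ) * (9 / 16 / p ^ 2) = ∑ k ∈ K, (9 / 16 / (p : ℝ) ^ 2) := by
          rw [Finset.sum_const, nsmul_eq_mul]
      _ ≤ ∑ k ∈ K, (nu A m q p k - 1 / p) ^ 2 := by
          refine Finset.sum_le_sum fun k hk => ?_
          rw [hK, Finset.mem_image] at hk
          obtain ⟨c, hc, rfl⟩ := hk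
          have h1 : nu A m q p ((tt q c : ℤ) : ZMod p) ≤ 1 / (4 * p) := by
            refine le_of_eq_of_le ?_ (hlight c hc)
            unfold nu
            refine Finset.sum_congr ?_ fun _ _ => rfl
            ext z
            simp only [Finset.mem_filter]
            refine and_congr_right fun _ => ?_
            rw [eq_comm, ZMod.intCast_eq_intCast_iff_dvd_sub, ← tt_sub, ← dvd_iff_tt hp hq]
          have h2 : (3 / 4 / (p : ℝ)) ≤ 1 / p - nu A m q p ((tt q c : ℤ) : ZMod p) := by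
            have : (1 : ℝ) / p - 1 / (4 * p) = 3 / 4 / p := by field_simp; ring
            linarith
          have h3 : (3 / 4 / (p : ℝ)) ^ 2 ≤ (1 / p - nu A m q p ((tt q c : ℤ) : ZMod p)) ^ 2 :=
            pow_le_pow_left₀ (by positivity) h2 2
          calc (9 / 16 / (p : ℝ) ^ 2) = (3 / 4 / (p : ℝ)) ^ 2 := by ring
            _ ≤ _ := h3
            _ = _ := by ring
      _ ≤ ∑ k : ZMod p, (nu A m q p k - 1 / p) ^ 2 :=
          Finset.sum_le_sum_of_subset_of_nonneg (Finset.subset_univ _) fun _ _ _ => sq_nonneg _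
  rw [hKcard, hvar] at hlow
  rw [h0] at hpars
  have h5 : (p : ℝ) * ((C.card : ℝ) * (9 / 16 / p ^ 2)) ≤ p * (∑ k : ZMod p, nu A m q p k ^ 2 - 1 / p) :=
    mul_le_mul_of_nonneg_left hlow hp0.le
  have h6 : (p : ℝ) * (∑ k : ZMod p, nu A m q p k ^ 2 - 1 / p)
      = ∑ b ∈ Ico 1 p, ‖mhat A m ((b : ℂ) / q)‖ ^ 2 := by
    rw [mul_sub, ← hpars]
    field_simp
    ring
  rw [h6] at h5
  calc 9 / 16 * (C.card : ℝ) / p = (p : ℝ) * ((C.card : ℝ) * (9 / 16 / p ^ 2)) := by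
        field_simp
    _ ≤ _ := h5

end Crest.Agent.R2.B717
end

-- ▼ part R2/Bias717b
section

/-!
# R2 (Gaussian moat), block B2: arithmetic of the frequencies `b / π`, cells, abstract inequality
-/

set_option autoImplicit false

namespace Crest.Agent.R2.B717

open Finset Crest.Agent.R2.E717

/-! ### Nonzero fractions are not small -/

theorem toC_ne {z : GaussianInt} (h : z ≠ 0) : (z : ℂ) ≠ 0 := by
  rwa [Ne, GaussianInt.toComplex_eq_zero]

theorem frac_lower {x : ℂ} {D n : GaussianInt} (hD : D ≠ 0) (hx : x = (n : ℂ) / D) (hx0 : x ≠ 0) :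
    1 / N D ≤ ‖x‖ := by
  have hn : n ≠ 0 := by
    rintro rfl
    apply hx0; rw [hx]; simp
  have h1 := one_le_N hn
  have h2 : 0 < N D := lt_of_lt_of_le one_pos (one_le_N hD)
  rw [hx, norm_div]
  exact div_le_div_of_nonneg_right h1 h2.le

theorem not_gaussian {q M n g : GaussianInt} (hq : Prime q) {b : GaussianInt} (hb : ¬ q ∣ b)
    (hM : ¬ q ∣ M) : (b : ℂ) / q + (n : ℂ) / M ≠ (g : ℂ) := by
  intro h
  have hM0 : M ≠ 0 := by rintro rfl; exact hM (dvd_zero _)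
  have h1 := toC_ne hq.ne_zero
  have h2 := toC_ne hM0
  field_simp at h
  have h3 : b * M + q * n = q * M * g := by
    have : ((b * M + q * n : GaussianInt) : ℂ) = ((q * M * g : GaussianInt) : ℂ) := by
      simp only [map_mul, map_add]
      linear_combination h
    exact GaussianInt.toComplex_injective this
  have h4 : q ∣ b * M := ⟨M * g - n, by linear_combination h3⟩
  rcases hq.dvd_or_dvd h4 with h | h
  · exact hb h
  · exact hM h

/-- a Gaussian prime of norm `p` does not divide `b` for `0 < b < p` -/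
theorem not_dvd_nat {q : GaussianInt} {p : ℕ} (hp : p.Prime) (hq : q.norm = p) {b : ℤ}
    (hb : ¬ (p : ℤ) ∣ b) : ¬ q ∣ (b : GaussianInt) := by
  rintro ⟨y, hy⟩
  have h1 : ((b : GaussianInt)).norm = q.norm * y.norm := by rw [hy, Zsqrtd.norm_mul]
  rw [hq, Zsqrtd.norm_intCast] at h1
  have h2 : (p : ℤ) ∣ b * b := ⟨y.norm, h1⟩
  have hp' : Prime (p : ℤ) := Nat.prime_iff_prime_int.mp hp
  rcases hp'.dvd_or_dvd h2 with h | h <;> exact hb h

/-- the standing hypotheses on a set of split primes -/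
structure PrimeSet (G : Finset GaussianInt) (w : ℝ) : Prop where
  prime : ∀ q ∈ G, Prime q
  ass : ∀ q ∈ G, ∀ q' ∈ G, Associated q q' → q = q'
  split : ∀ q ∈ G, (q.norm.natAbs).Prime
  lower : ∀ q ∈ G, w < (q.norm : ℝ)
  upper : ∀ q ∈ G, (q.norm : ℝ) ≤ 4 * w

namespace PrimeSet

variable {G : Finset GaussianInt} {w : ℝ}

theorem norm_eq (_hG : PrimeSet G w) {q : GaussianInt} (_hq : q ∈ G) :
    q.norm = ((q.norm.natAbs : ℕ) : ℤ) := by
  rw [Int.natCast_natAbs, abs_of_nonneg (GaussianInt.norm_nonneg q)]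

theorem not_dvd (hG : PrimeSet G w) {q q' : GaussianInt} (hq : q ∈ G) (hq' : q' ∈ G)
    (hne : q ≠ q') : ¬ q ∣ q' := by
  intro h
  exact hne (hG.ass q hq q' hq' (((hG.prime q hq).irreducible.dvd_irreducible_iff_associated
    (hG.prime q' hq').irreducible).mp h))

theorem not_dvd_b (hG : PrimeSet G w) {q : GaussianInt} (hq : q ∈ G) {b : ℕ}
    (hb : b ∈ Ico 1 q.norm.natAbs) : ¬ q ∣ (b : GaussianInt) := by
  have h1 := not_dvd_nat (hG.split q hq) (hG.norm_eq hq) (b := (b : ℤ)) (by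
    rw [Finset.mem_Ico] at hb
    intro h
    have := Nat.le_of_dvd (by omega) (Int.natCast_dvd_natCast.mp h)
    omega)
  simpa using h1

theorem not_dvd_sub (hG : PrimeSet G w) {q : GaussianInt} (hq : q ∈ G) {b b' : ℕ}
    (hb : b ∈ Ico 1 q.norm.natAbs) (hb' : b' ∈ Ico 1 q.norm.natAbs) (hne : b ≠ b') :
    ¬ q ∣ ((b : GaussianInt) - (b' : GaussianInt)) := by
  have h1 := not_dvd_nat (hG.split q hq) (hG.norm_eq hq) (b := (b : ℤ) - (b' : ℤ)) (by
    rw [Finset.mem_Ico] at hb hb'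
    intro h
    have h2 : (b : ℤ) - (b' : ℤ) ≠ 0 := by omega
    have h3 := Int.natAbs_dvd_natAbs.mpr h
    have h4 := Nat.le_of_dvd (by omega) h3
    omega)
  simpa using h1

theorem N_le (hG : PrimeSet G w) {q : GaussianInt} (hq : q ∈ G) : N q ^ 2 ≤ 4 * w := by
  have h1 : N q ^ 2 = (q.norm : ℝ) := by
    rw [N_sq]
    rw [Zsqrtd.norm_def]; push_cast; ring
  rw [h1]; exact hG.upper q hq

theorem N_pos (hG : PrimeSet G w) {q : GaussianInt} (hq : q ∈ G) : 0 < N q :=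
  lt_of_lt_of_le one_pos (one_le_N (hG.prime q hq).ne_zero)

theorem w_pos (hG : PrimeSet G w) {q : GaussianInt} (hq : q ∈ G) : 0 < w := by
  have := hG.N_le hq
  have h2 := hG.N_pos hq
  nlinarith

/-- the frequencies -/
noncomputable def freq (i : GaussianInt × ℕ) : ℂ := (i.2 : ℂ) / (i.1 : ℂ)

/-- frequencies of two different primes -/
theorem two_primes (hG : PrimeSet G w) {i j : GaussianInt × ℕ} (hi : i.1 ∈ G) (hj : j.1 ∈ G)
    (hib : i.2 ∈ Ico 1 i.1.norm.natAbs) (hne : i.1 ≠ j.1) (g : GaussianInt) :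
    1 / (4 * w) ≤ ‖PrimeSet.freq i - PrimeSet.freq j - (g : ℂ)‖ := by
  have hw := hG.w_pos hi
  have h1 := toC_ne (hG.prime _ hi).ne_zero
  have h2 := toC_ne (hG.prime _ hj).ne_zero
  have hx : freq i - freq j - (g : ℂ)
      = (((i.2 : GaussianInt) * j.1 - (j.2 : GaussianInt) * i.1 - g * i.1 * j.1 : GaussianInt) : ℂ)
        / ((i.1 * j.1 : GaussianInt) : ℂ) := by
    unfold freq
    simp only [GaussianInt.toComplex_sub, map_mul, map_natCast]
    field_simp
  have hx0 : freq i - freq j - (g : ℂ) ≠ 0 := by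
    intro h
    refine not_gaussian (hG.prime _ hi) (hG.not_dvd_b hi hib) (hG.not_dvd hi hj hne)
      (n := -(j.2 : GaussianInt)) (g := g) ?_
    unfold freq at h
    simp only [map_natCast, GaussianInt.toComplex_neg]
    linear_combination h
  have hD : i.1 * j.1 ≠ 0 := mul_ne_zero (hG.prime _ hi).ne_zero (hG.prime _ hj).ne_zero
  refine le_trans ?_ (frac_lower hD hx hx0)
  have h3 := hG.N_le hi
  have h4 := hG.N_le hj
  have h5 := hG.N_pos hi
  have h6 := hG.N_pos hj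
  rw [N_mul]
  apply one_div_le_one_div_of_le (by positivity)
  nlinarith [sq_nonneg (N i.1 - N j.1)]

/-- frequencies of the same prime -/
theorem same_prime (hG : PrimeSet G w) {q : GaussianInt} (hq : q ∈ G) {b b' : ℕ}
    (hb : b ∈ Ico 1 q.norm.natAbs) (hb' : b' ∈ Ico 1 q.norm.natAbs) (hne : b ≠ b')
    (g : GaussianInt) :
    1 / N q ≤ ‖PrimeSet.freq (q, b) - PrimeSet.freq (q, b') - (g : ℂ)‖ := by
  have h1 := toC_ne (hG.prime _ hq).ne_zero
  have hx : freq (q, b) - freq (q, b') - (g : ℂ)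
      = (((b : GaussianInt) - (b' : GaussianInt) - g * q : GaussianInt) : ℂ) / (q : ℂ) := by
    unfold freq
    simp only [GaussianInt.toComplex_sub, map_mul, map_natCast]
    field_simp
  refine frac_lower (hG.prime _ hq).ne_zero hx ?_
  rw [hx]
  intro h
  rw [div_eq_zero_iff] at h
  rcases h with h | h
  · rw [GaussianInt.toComplex_eq_zero] at h
    exact hG.not_dvd_sub hq hb hb' hne ⟨g, by linear_combination h⟩
  · exact h1 h

/-- a linear order on Gaussian integers (used only to choose one of the two orders of a pair) -/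
def lt' (q q' : GaussianInt) : Prop := toLex (q.re, q.im) < toLex (q'.re, q'.im)

theorem lt'_irrefl (q : GaussianInt) : ¬ lt' q q := lt_irrefl _

theorem lt'_trans {a b c : GaussianInt} (h : lt' a b) (h' : lt' b c) : lt' a c := lt_trans h h'

theorem lt'_or {q q' : GaussianInt} (h : q ≠ q') : lt' q q' ∨ lt' q' q := by
  unfold lt'
  rcases lt_trichotomy (toLex (q.re, q.im)) (toLex (q'.re, q'.im)) with h1 | h1 | h1
  · exact Or.inl h1
  · exfalso
    apply h
    have h2 : (q.re, q.im) = (q'.re, q'.im) := by simpa using h1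
    rw [Prod.mk.injEq] at h2
    exact Zsqrtd.ext h2.1 h2.2
  · exact Or.inr h1

theorem ne_of_lt' {a b : GaussianInt} (h : lt' a b) : a ≠ b := by
  rintro rfl; exact lt'_irrefl a h

set_option maxHeartbeats 800000 in
/-- differences of two frequencies are distinct and separated -/
theorem four_primes (hG : PrimeSet G w) {i i' j j' : GaussianInt × ℕ}
    (hi : i.1 ∈ G) (hi' : i'.1 ∈ G) (hj : j.1 ∈ G) (hj' : j'.1 ∈ G)
    (hib : i.2 ∈ Ico 1 i.1.norm.natAbs) (hib' : i'.2 ∈ Ico 1 i'.1.norm.natAbs)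
    (hjb : j.2 ∈ Ico 1 j.1.norm.natAbs) (hjb' : j'.2 ∈ Ico 1 j'.1.norm.natAbs)
    (hlt : lt' i.1 i'.1) (hlt' : lt' j.1 j'.1) (hne : (i, i') ≠ (j, j')) (g : GaussianInt) :
    1 / (16 * w ^ 2) ≤
      ‖(PrimeSet.freq i - PrimeSet.freq i') - (PrimeSet.freq j - PrimeSet.freq j') - (g : ℂ)‖ := by
  have hw := hG.w_pos hi
  have h1 := toC_ne (hG.prime _ hi).ne_zero
  have h2 := toC_ne (hG.prime _ hi').ne_zero
  have h3 := toC_ne (hG.prime _ hj).ne_zero
  have h4 := toC_ne (hG.prime _ hj').ne_zero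
  have hii := ne_of_lt' hlt
  have hjj := ne_of_lt' hlt'
  set V : ℂ := (freq i - freq i') - (freq j - freq j') - (g : ℂ) with hV
  set num : GaussianInt := (i.2 : GaussianInt) * i'.1 * j.1 * j'.1
    - (i'.2 : GaussianInt) * i.1 * j.1 * j'.1 - (j.2 : GaussianInt) * i.1 * i'.1 * j'.1
    + (j'.2 : GaussianInt) * i.1 * i'.1 * j.1 - g * (i.1 * i'.1 * j.1 * j'.1) with hnum
  have hx : V = (num : ℂ) / ((i.1 * i'.1 * j.1 * j'.1 : GaussianInt) : ℂ) := by
    rw [hV, hnum]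
    unfold freq
    simp only [GaussianInt.toComplex_sub, GaussianInt.toComplex_add, map_mul, map_natCast]
    field_simp
    ring
  have hnum0 : num ≠ 0 := by
    intro h0
    -- a prime which occurs once divides its numerator
    have key : ∀ (q a r s t x y z : GaussianInt), Prime q → ¬ q ∣ a → ¬ q ∣ r → ¬ q ∣ s → ¬ q ∣ t →
        a * r * s * t = q * x → False := by
      intro q a r s t x y z hq ha hr hs ht h
      have h5 : q ∣ a * r * s * t := ⟨x, h⟩
      rcases hq.dvd_or_dvd h5 with h5 | h5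
      · rcases hq.dvd_or_dvd h5 with h5 | h5
        · rcases hq.dvd_or_dvd h5 with h5 | h5
          · exact ha h5
          · exact hr h5
        · exact hs h5
      · exact ht h5
    by_cases c1 : i.1 = j.1
    · by_cases c2 : i'.1 = j'.1
      · -- same primes
        have h5 : i.1 * i'.1 * (((i.2 : GaussianInt) - (j.2 : GaussianInt)) * i'.1
            - ((i'.2 : GaussianInt) - (j'.2 : GaussianInt)) * i.1 - g * (i.1 * i'.1)) = 0 := by
          rw [hnum, ← c1, ← c2] at h0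
          linear_combination h0
        have h6 : ((i.2 : GaussianInt) - (j.2 : GaussianInt)) * i'.1
            - ((i'.2 : GaussianInt) - (j'.2 : GaussianInt)) * i.1 - g * (i.1 * i'.1) = 0 := by
          rcases mul_eq_zero.mp h5 with h | h
          · exact absurd h (mul_ne_zero (hG.prime _ hi).ne_zero (hG.prime _ hi').ne_zero)
          · exact h
        have h7 : i.2 = j.2 := by
          by_contra hb
          have hnd := hG.not_dvd_sub hi hib (by rw [c1]; exact hjb) hb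
          have h8 : i.1 ∣ ((i.2 : GaussianInt) - (j.2 : GaussianInt)) * i'.1 :=
            ⟨((i'.2 : GaussianInt) - (j'.2 : GaussianInt)) + g * i'.1, by linear_combination h6⟩
          rcases (hG.prime _ hi).dvd_or_dvd h8 with h | h
          · exact hnd h
          · exact hG.not_dvd hi hi' hii h
        have h8 : i'.2 = j'.2 := by
          by_contra hb
          have hnd := hG.not_dvd_sub hi' hib' (by rw [c2]; exact hjb') hb
          have h9 : i'.1 ∣ ((i'.2 : GaussianInt) - (j'.2 : GaussianInt)) * i.1 :=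
            ⟨((i.2 : GaussianInt) - (j.2 : GaussianInt)) - g * i.1, by linear_combination -h6⟩
          rcases (hG.prime _ hi').dvd_or_dvd h9 with h | h
          · exact hnd h
          · exact hG.not_dvd hi' hi hii.symm h
        exact hne (by rw [Prod.mk.injEq]; exact ⟨Prod.ext c1 h7, Prod.ext c2 h8⟩)
      · -- `i'` occurs once
        have d2 : i'.1 ≠ j.1 := by rw [← c1]; exact hii.symm
        refine key i'.1 (i'.2 : GaussianInt) i.1 j.1 j'.1
          ((i.2 : GaussianInt) * j.1 * j'.1 - (j.2 : GaussianInt) * i.1 * j'.1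
            + (j'.2 : GaussianInt) * i.1 * j.1 - g * (i.1 * j.1 * j'.1)) 0 0
          (hG.prime _ hi') (hG.not_dvd_b hi' hib') (hG.not_dvd hi' hi hii.symm)
          (hG.not_dvd hi' hj d2) (hG.not_dvd hi' hj' c2) ?_
        rw [hnum] at h0
        linear_combination -h0
    · by_cases c3 : i.1 = j'.1
      · -- `j` occurs once
        have d1 : j.1 ≠ i'.1 := by
          have : lt' j.1 i'.1 := lt'_trans (by rw [c3]; exact hlt') hlt
          exact ne_of_lt' this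
        refine key j.1 (j.2 : GaussianInt) i.1 i'.1 j'.1
          ((i.2 : GaussianInt) * i'.1 * j'.1 - (i'.2 : GaussianInt) * i.1 * j'.1
            + (j'.2 : GaussianInt) * i.1 * i'.1 - g * (i.1 * i'.1 * j'.1)) 0 0
          (hG.prime _ hj) (hG.not_dvd_b hj hjb) (hG.not_dvd hj hi (Ne.symm c1))
          (hG.not_dvd hj hi' d1) (hG.not_dvd hj hj' hjj) ?_
        rw [hnum] at h0
        linear_combination -h0
      · -- `i` occurs once
        refine key i.1 (i.2 : GaussianInt) i'.1 j.1 j'.1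
          ((i'.2 : GaussianInt) * j.1 * j'.1 + (j.2 : GaussianInt) * i'.1 * j'.1
            - (j'.2 : GaussianInt) * i'.1 * j.1 + g * (i'.1 * j.1 * j'.1)) 0 0
          (hG.prime _ hi) (hG.not_dvd_b hi hib) (hG.not_dvd hi hi' hii)
          (hG.not_dvd hi hj c1) (hG.not_dvd hi hj' c3) ?_
        rw [hnum] at h0
        linear_combination h0
  have hD : i.1 * i'.1 * j.1 * j'.1 ≠ 0 :=
    mul_ne_zero (mul_ne_zero (mul_ne_zero (hG.prime _ hi).ne_zero (hG.prime _ hi').ne_zero)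
      (hG.prime _ hj).ne_zero) (hG.prime _ hj').ne_zero
  have hx0 : V ≠ 0 := by
    rw [hx]
    exact div_ne_zero (toC_ne hnum0) (toC_ne hD)
  refine le_trans ?_ (frac_lower hD hx hx0)
  have e1 := hG.N_le hi
  have e2 := hG.N_le hi'
  have e3 := hG.N_le hj
  have e4 := hG.N_le hj'
  have p1 := hG.N_pos hi
  have p2 := hG.N_pos hi'
  have p3 := hG.N_pos hj
  have p4 := hG.N_pos hj'
  rw [N_mul, N_mul, N_mul]
  apply one_div_le_one_div_of_le (by positivity)
  have f1 : N i.1 * N i'.1 ≤ 4 * w := by nlinarith [sq_nonneg (N i.1 - N i'.1)]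
  have f2 : N j.1 * N j'.1 ≤ 4 * w := by nlinarith [sq_nonneg (N j.1 - N j'.1)]
  calc N i.1 * N i'.1 * N j.1 * N j'.1 = (N i.1 * N i'.1) * (N j.1 * N j'.1) := by ring
    _ ≤ (4 * w) * (4 * w) := mul_le_mul f1 f2 (by positivity) (by positivity)
    _ = 16 * w ^ 2 := by ring

end PrimeSet

/-! ### The abstract inequality -/

/-- cells with small / large `A` -/
theorem cell_sum {ι κ : Type*} [DecidableEq κ] (I : Finset ι) (K : Finset κ) (c : ι → κ)
    (hc : ∀ i ∈ I, c i ∈ K) (f : ι → ℝ) (AQ HS : κ → ℝ) (X1 X2 Y θ σ : ℝ)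
    (hA : ∀ k ∈ K, 0 ≤ AQ k) (hHS : ∀ k ∈ K, 0 ≤ HS k)
    (hcell : ∀ k ∈ K, ∑ i ∈ I with c i = k, f i ≤ 4 * AQ k * (1 + Real.sqrt (HS k)))
    (hX1 : ∑ k ∈ K, AQ k ≤ X1) (hX2 : ∑ k ∈ K, HS k ≤ X2)
    (hY : ∀ k ∈ K, ((I.filter fun i => c i = k).card : ℝ) ≤ Y) (hf : ∀ i ∈ I, f i ≤ θ)
    (hθ : 0 ≤ θ) (hY0 : 0 ≤ Y) (hσ : 0 < σ) :
    ∑ i ∈ I, f i ≤ 4 * X1 + 4 * Real.sqrt (σ * X1 * X2) + X1 / σ * (Y * θ) := by
  classical
  have hX1' : 0 ≤ X1 := (Finset.sum_nonneg hA).trans hX1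
  have hX2' : 0 ≤ X2 := (Finset.sum_nonneg hHS).trans hX2
  rw [← Finset.sum_fiberwise_of_maps_to hc]
  have h1 : ∀ k ∈ K, ∑ i ∈ I with c i = k, f i ≤
      4 * AQ k + 4 * (if AQ k < σ then AQ k * Real.sqrt (HS k) else 0)
        + (if AQ k < σ then 0 else Y * θ) := by
    intro k hk
    by_cases h : AQ k < σ
    · rw [if_pos h, if_pos h]
      refine (hcell k hk).trans (le_of_eq (by ring))
    · rw [if_neg h, if_neg h]
      have h2 : ∑ i ∈ I with c i = k, f i ≤ Y * θ := by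
        calc ∑ i ∈ I with c i = k, f i ≤ ∑ i ∈ I with c i = k, θ :=
              Finset.sum_le_sum fun i hi => hf i (Finset.mem_filter.mp hi).1
          _ = ((I.filter fun i => c i = k).card : ℝ) * θ := by rw [Finset.sum_const, nsmul_eq_mul]
          _ ≤ Y * θ := mul_le_mul_of_nonneg_right (hY k hk) hθ
      have h3 := hA k hk
      linarith
  refine (Finset.sum_le_sum h1).trans ?_
  rw [Finset.sum_add_distrib, Finset.sum_add_distrib, ← Finset.mul_sum, ← Finset.mul_sum]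
  have h4 : ∑ k ∈ K, (if AQ k < σ then AQ k * Real.sqrt (HS k) else 0)
      ≤ Real.sqrt (σ * X1 * X2) := by
    have h5 : ∑ k ∈ K, (if AQ k < σ then AQ k * Real.sqrt (HS k) else 0)
        = ∑ k ∈ K, (if AQ k < σ then AQ k else 0) * Real.sqrt (HS k) := by
      refine Finset.sum_congr rfl fun k _ => ?_
      split_ifs <;> simp
    rw [h5]
    refine (Real.sum_mul_le_sqrt_mul_sqrt _ _ _).trans ?_
    rw [← Real.sqrt_mul' _ (Finset.sum_nonneg fun k _ => sq_nonneg _)]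
    apply Real.sqrt_le_sqrt
    have h6 : ∑ k ∈ K, (if AQ k < σ then AQ k else 0) ^ 2 ≤ σ * X1 := by
      calc ∑ k ∈ K, (if AQ k < σ then AQ k else 0) ^ 2 ≤ ∑ k ∈ K, σ * AQ k := by
            refine Finset.sum_le_sum fun k hk => ?_
            have h3 := hA k hk
            split_ifs with h
            · nlinarith
            · rw [zero_pow (by norm_num)]; positivity
        _ = σ * ∑ k ∈ K, AQ k := by rw [Finset.mul_sum]
        _ ≤ σ * X1 := mul_le_mul_of_nonneg_left hX1 hσ.le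
    have h7 : ∑ k ∈ K, Real.sqrt (HS k) ^ 2 ≤ X2 := by
      refine le_trans (le_of_eq ?_) hX2
      exact Finset.sum_congr rfl fun k hk => Real.sq_sqrt (hHS k hk)
    exact mul_le_mul h6 h7 (Finset.sum_nonneg fun k _ => sq_nonneg _) (by positivity)
  have h8 : ∑ k ∈ K, (if AQ k < σ then 0 else Y * θ) ≤ X1 / σ * (Y * θ) := by
    have h9 : ∀ k ∈ K, (if AQ k < σ then 0 else Y * θ) ≤ AQ k / σ * (Y * θ) := by
      intro k hk
      have h3 := hA k hk
      have h10 : 0 ≤ Y * θ := mul_nonneg hY0 hθ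
      split_ifs with h
      · positivity
      · push Not at h
        have : 1 ≤ AQ k / σ := by rw [le_div_iff₀ hσ]; linarith
        nlinarith
    refine (Finset.sum_le_sum h9).trans ?_
    rw [← Finset.sum_mul, ← Finset.sum_div]
    exact mul_le_mul_of_nonneg_right (div_le_div_of_nonneg_right hX1 hσ.le) (mul_nonneg hY0 hθ)
  linarith

end Crest.Agent.R2.B717
end

-- ▼ part R2/Bias717c
section

/-!
# R2 (Gaussian moat), block B2: the cells
-/

set_option autoImplicit false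

namespace Crest.Agent.R2.B717

open Finset Crest.Agent.R2.E717

/-- index of the cell of `x` on the grid `(1/n) ℤ[i] / ℤ[i]` -/
noncomputable def cidx (n : ℕ) (x : ℂ) : ℕ × ℕ :=
  ((round ((n : ℝ) * x.re) % (n : ℤ)).toNat, (round ((n : ℝ) * x.im) % (n : ℤ)).toNat)

/-- centre of a cell -/
noncomputable def ctr (n : ℕ) (k : ℕ × ℕ) : ℂ := ⟨(k.1 : ℝ) / n, (k.2 : ℝ) / n⟩

/-- the Gaussian integer moving `x` next to the centre of its cell -/
noncomputable def gsh (n : ℕ) (x : ℂ) : GaussianInt :=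
  ⟨round ((n : ℝ) * x.re) / (n : ℤ), round ((n : ℝ) * x.im) / (n : ℤ)⟩

noncomputable def rep (n : ℕ) (x : ℂ) : ℂ := x - (gsh n x : ℂ)

theorem cidx_mem {n : ℕ} (hn : 0 < n) (x : ℂ) : cidx n x ∈ range n ×ˢ range n := by
  have hn' : (0 : ℤ) < n := by exact_mod_cast hn
  unfold cidx
  rw [Finset.mem_product, Finset.mem_range, Finset.mem_range]
  constructor
  · have h1 := Int.emod_nonneg (round ((n : ℝ) * x.re)) hn'.ne'
    have h2 := Int.emod_lt_of_pos (round ((n : ℝ) * x.re)) hn'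
    simp only
    omega
  · have h1 := Int.emod_nonneg (round ((n : ℝ) * x.im)) hn'.ne'
    have h2 := Int.emod_lt_of_pos (round ((n : ℝ) * x.im)) hn'
    simp only
    omega

theorem rep_sub_ctr_re {n : ℕ} (hn : 0 < n) (x : ℂ) :
    |(rep n x - ctr n (cidx n x)).re| ≤ 1 / (2 * n) := by
  have hn' : (0 : ℤ) < n := by exact_mod_cast hn
  have hnr : (0 : ℝ) < n := by exact_mod_cast hn
  set j : ℤ := round ((n : ℝ) * x.re) with hj
  have h1 : (((j % (n : ℤ)).toNat : ℕ) : ℝ) = ((j % (n : ℤ) : ℤ) : ℝ) := by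
    have := Int.toNat_of_nonneg (Int.emod_nonneg j hn'.ne')
    exact_mod_cast this
  have h2 : ((j % (n : ℤ) : ℤ) : ℝ) = (j : ℝ) - n * ((j / (n : ℤ) : ℤ) : ℝ) := by
    have := Int.emod_def j (n : ℤ)
    rw [this]; push_cast; ring
  have h3 : (rep n x - ctr n (cidx n x)).re = ((n : ℝ) * x.re - j) / n := by
    unfold rep ctr cidx gsh
    rw [Complex.sub_re, Complex.sub_re, ← GaussianInt.intCast_re]
    simp only
    rw [← hj, h1, h2]
    field_simp
    ring
  rw [h3, abs_div, abs_of_pos hnr, div_le_div_iff₀ hnr (by positivity)]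
  have h4 := abs_sub_round ((n : ℝ) * x.re)
  rw [← hj] at h4
  nlinarith

theorem rep_sub_ctr_im {n : ℕ} (hn : 0 < n) (x : ℂ) :
    |(rep n x - ctr n (cidx n x)).im| ≤ 1 / (2 * n) := by
  have hn' : (0 : ℤ) < n := by exact_mod_cast hn
  have hnr : (0 : ℝ) < n := by exact_mod_cast hn
  set j : ℤ := round ((n : ℝ) * x.im) with hj
  have h1 : (((j % (n : ℤ)).toNat : ℕ) : ℝ) = ((j % (n : ℤ) : ℤ) : ℝ) := by
    have := Int.toNat_of_nonneg (Int.emod_nonneg j hn'.ne')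
    exact_mod_cast this
  have h2 : ((j % (n : ℤ) : ℤ) : ℝ) = (j : ℝ) - n * ((j / (n : ℤ) : ℤ) : ℝ) := by
    have := Int.emod_def j (n : ℤ)
    rw [this]; push_cast; ring
  have h3 : (rep n x - ctr n (cidx n x)).im = ((n : ℝ) * x.im - j) / n := by
    unfold rep ctr cidx gsh
    rw [Complex.sub_im, Complex.sub_im, ← GaussianInt.intCast_im]
    simp only
    rw [← hj, h1, h2]
    field_simp
    ring
  rw [h3, abs_div, abs_of_pos hnr, div_le_div_iff₀ hnr (by positivity)]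
  have h4 := abs_sub_round ((n : ℝ) * x.im)
  rw [← hj] at h4
  nlinarith

theorem mhat_rep (A : Finset GaussianInt) (m : GaussianInt → ℝ) (n : ℕ) (x : ℂ) :
    mhat A m (rep n x) = mhat A m x := by
  have := mhat_add_gaussian A m (rep n x) (gsh n x)
  rw [← this]
  unfold rep
  rw [sub_add_cancel]

/-- the frequency index set -/
noncomputable def Fr (G : Finset GaussianInt) : Finset (GaussianInt × ℕ) :=
  (G.sigma fun q => Ico 1 q.norm.natAbs).map
    ⟨fun s => (s.1, s.2), by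
      rintro ⟨a, b⟩ ⟨c, d⟩ h
      simp only [Prod.mk.injEq] at h
      obtain ⟨rfl, rfl⟩ := h
      rfl⟩

theorem mem_Fr {G : Finset GaussianInt} {i : GaussianInt × ℕ} :
    i ∈ Fr G ↔ i.1 ∈ G ∧ i.2 ∈ Ico 1 i.1.norm.natAbs := by
  unfold Fr
  rw [Finset.mem_map]
  constructor
  · rintro ⟨⟨a, b⟩, h, rfl⟩
    rw [Finset.mem_sigma] at h
    exact h
  · intro h
    exact ⟨⟨i.1, i.2⟩, by rw [Finset.mem_sigma]; exact h, rfl⟩

theorem sum_Fr (G : Finset GaussianInt) (f : GaussianInt × ℕ → ℝ) :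
    ∑ i ∈ Fr G, f i = ∑ q ∈ G, ∑ b ∈ Ico 1 q.norm.natAbs, f (q, b) := by
  unfold Fr
  rw [Finset.sum_map, Finset.sum_sigma]
  rfl

/-- number of separated points in a small square -/
theorem card_separated_le {ι : Type*} (I : Finset ι) (y : ι → ℂ) (ξ : ℂ) (a δ : ℝ) (ha : 0 ≤ a)
    (hδ : 0 < δ) (h1 : ∀ i ∈ I, |(y i - ξ).re| ≤ a) (h2 : ∀ i ∈ I, |(y i - ξ).im| ≤ a)
    (hsep : ∀ i ∈ I, ∀ j ∈ I, i ≠ j → δ ≤ ‖y i - y j‖) :
    (I.card : ℝ) ≤ (4 * a / δ + 2) ^ 2 := by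
  classical
  set F : ι → ℤ × ℤ := fun i => (⌊(y i - ξ).re * (2 / δ)⌋, ⌊(y i - ξ).im * (2 / δ)⌋) with hF
  have hmap : ∀ i ∈ I, F i ∈ Finset.Icc ⌊-(a * (2 / δ))⌋ ⌊a * (2 / δ)⌋ ×ˢ
      Finset.Icc ⌊-(a * (2 / δ))⌋ ⌊a * (2 / δ)⌋ := by
    intro i hi
    have g1 := abs_le.mp (h1 i hi)
    have g2 := abs_le.mp (h2 i hi)
    have hd : 0 < 2 / δ := by positivity
    rw [hF, Finset.mem_product, Finset.mem_Icc, Finset.mem_Icc]
    refine ⟨⟨Int.floor_le_floor ?_, Int.floor_le_floor ?_⟩,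
      ⟨Int.floor_le_floor ?_, Int.floor_le_floor ?_⟩⟩ <;> nlinarith
  have hinj : Set.InjOn F (I : Set ι) := by
    intro i hi j hj hij
    by_contra hne
    have h3 := hsep i hi j hj hne
    rw [hF] at hij
    simp only [Prod.mk.injEq] at hij
    have e1 := Int.abs_sub_lt_one_of_floor_eq_floor hij.1
    have e2 := Int.abs_sub_lt_one_of_floor_eq_floor hij.2
    have hd : 0 < 2 / δ := by positivity
    have e3 : |(y i - y j).re| < δ / 2 := by
      have : (y i - ξ).re * (2 / δ) - (y j - ξ).re * (2 / δ) = (y i - y j).re * (2 / δ) := by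
        simp only [Complex.sub_re]; ring
      rw [this, abs_mul, abs_of_pos hd] at e1
      have h5 : |(y i - y j).re| * (2 / δ) * (δ / 2) < 1 * (δ / 2) :=
        mul_lt_mul_of_pos_right e1 (by positivity)
      have h6 : |(y i - y j).re| * (2 / δ) * (δ / 2) = |(y i - y j).re| := by field_simp
      linarith
    have e4 : |(y i - y j).im| < δ / 2 := by
      have : (y i - ξ).im * (2 / δ) - (y j - ξ).im * (2 / δ) = (y i - y j).im * (2 / δ) := by
        simp only [Complex.sub_im]; ring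
      rw [this, abs_mul, abs_of_pos hd] at e2
      have h5 : |(y i - y j).im| * (2 / δ) * (δ / 2) < 1 * (δ / 2) :=
        mul_lt_mul_of_pos_right e2 (by positivity)
      have h6 : |(y i - y j).im| * (2 / δ) * (δ / 2) = |(y i - y j).im| := by field_simp
      linarith
    have h7 := Complex.norm_le_abs_re_add_abs_im (y i - y j)
    linarith
  have hcard : I.card ≤ (Finset.Icc ⌊-(a * (2 / δ))⌋ ⌊a * (2 / δ)⌋ ×ˢ
      Finset.Icc ⌊-(a * (2 / δ))⌋ ⌊a * (2 / δ)⌋).card :=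
    Finset.card_le_card_of_injOn F hmap hinj
  have hb : 0 ≤ a * (2 / δ) := by positivity
  have h8 : ((Finset.Icc ⌊-(a * (2 / δ))⌋ ⌊a * (2 / δ)⌋).card : ℝ) ≤ 4 * a / δ + 2 := by
    rw [Int.card_Icc]
    have h9 : ⌊-(a * (2 / δ))⌋ ≤ ⌊a * (2 / δ)⌋ := Int.floor_le_floor (by linarith)
    have h10 : (((⌊a * (2 / δ)⌋ + 1 - ⌊-(a * (2 / δ))⌋).toNat : ℕ) : ℝ)
        = (⌊a * (2 / δ)⌋ : ℝ) + 1 - (⌊-(a * (2 / δ))⌋ : ℝ) := by
      have h11 : (((⌊a * (2 / δ)⌋ + 1 - ⌊-(a * (2 / δ))⌋).toNat : ℕ) : ℤ)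
          = ⌊a * (2 / δ)⌋ + 1 - ⌊-(a * (2 / δ))⌋ := Int.toNat_of_nonneg (by omega)
      have h12 : ((((⌊a * (2 / δ)⌋ + 1 - ⌊-(a * (2 / δ))⌋).toNat : ℕ) : ℤ) : ℝ)
          = ((⌊a * (2 / δ)⌋ + 1 - ⌊-(a * (2 / δ))⌋ : ℤ) : ℝ) := by rw [h11]
      push_cast at h12
      exact h12
    rw [h10]
    have h13 := Int.floor_le (a * (2 / δ))
    have h14 := Int.sub_one_lt_floor (-(a * (2 / δ)))
    have h15 : 4 * a / δ = a * (2 / δ) + a * (2 / δ) := by field_simp; ring
    linarith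
  rw [Finset.card_product] at hcard
  calc (I.card : ℝ) ≤ ((Finset.Icc ⌊-(a * (2 / δ))⌋ ⌊a * (2 / δ)⌋).card : ℝ) *
        ((Finset.Icc ⌊-(a * (2 / δ))⌋ ⌊a * (2 / δ)⌋).card : ℝ) := by exact_mod_cast hcard
    _ ≤ (4 * a / δ + 2) * (4 * a / δ + 2) := mul_le_mul h8 h8 (Nat.cast_nonneg _) (by positivity)
    _ = _ := by ring

/-- not within `r` of a Gaussian integer, from a lower bound of all the distances -/
theorem not_inR {ζ : ℂ} {δ r : ℝ} (hr : 2 * r ≤ δ) (h : ∀ g : GaussianInt, δ ≤ ‖ζ - (g : ℂ)‖) :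
    ¬ inR r ζ := by
  rintro ⟨g, h1, h2⟩
  have h3 := Complex.norm_le_abs_re_add_abs_im (ζ - (g : ℂ))
  have := h g
  linarith

/-- **(3.4)**, main inequality with free parameters; the analytic inputs are hypotheses:
`hcell` = cell inequality, `hX1` = Parseval over the cells, `hLS` = localised large sieve. -/
theorem bias_ineq {G : Finset GaussianInt} {w : ℝ} (hG : PrimeSet G w)
    (A : Finset GaussianInt) (m : GaussianInt → ℝ) (n : ℕ) (hn : 0 < n) (hn8 : 8 * w < (n : ℝ) ^ 2)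
    (hw1 : 1 ≤ w)
    (AQ : ℕ × ℕ → ℝ) (hAQ : ∀ k, 0 ≤ AQ k)
    (hcell : ∀ k : ℕ × ℕ, ∀ (I : Finset (GaussianInt × ℕ)) (y : GaussianInt × ℕ → ℂ),
      (∀ i ∈ I, |(y i - ctr n k).re| ≤ 1 / (2 * n) ∧ |(y i - ctr n k).im| ≤ 1 / (2 * n)) →
      ∑ i ∈ I, ‖mhat A m (y i)‖ ^ 2 ≤ 4 * AQ k *
        (1 + Real.sqrt (∑ i ∈ I, ∑ j ∈ I with j ≠ i, ‖mhat A m (y i - y j)‖ ^ 2)))
    (X1 X2 : ℝ) (hX1 : ∑ k ∈ range n ×ˢ range n, AQ k ≤ X1)
    (hLS : ∀ (P : Finset ((GaussianInt × ℕ) × (GaussianInt × ℕ)))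
      (z : (GaussianInt × ℕ) × (GaussianInt × ℕ) → ℂ),
      (∀ i ∈ P, ∀ j ∈ P, i ≠ j → ¬ inR (1 / (32 * w ^ 2)) (z i - z j)) →
      (∀ i ∈ P, |(z i).re| ≤ 1 / n ∧ |(z i).im| ≤ 1 / n) →
      ∑ i ∈ P, ‖mhat A m (z i)‖ ^ 2 ≤ X2)
    (θ σ : ℝ) (hθ : 0 ≤ θ) (hσ : 0 < σ)
    (hsmall : ∀ q ∈ G, ∀ b ∈ Ico 1 q.norm.natAbs, ‖mhat A m ((b : ℂ) / q)‖ ^ 2 ≤ θ) :
    ∑ q ∈ G, ∑ b ∈ Ico 1 q.norm.natAbs, ‖mhat A m ((b : ℂ) / q)‖ ^ 2 ≤
      4 * X1 + 4 * Real.sqrt (σ * X1 * (2 * X2)) + X1 / σ * ((8 * w / n + 2) ^ 2 * θ) := by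
  classical
  have hnr : (0 : ℝ) < n := by exact_mod_cast hn
  have hw0 : 0 < w := by linarith
  set fr : GaussianInt × ℕ → ℂ := PrimeSet.freq with hfr
  set y : GaussianInt × ℕ → ℂ := fun i => rep n (fr i) with hy
  set c : GaussianInt × ℕ → ℕ × ℕ := fun i => cidx n (fr i) with hc
  have hsum : ∑ q ∈ G, ∑ b ∈ Ico 1 q.norm.natAbs, ‖mhat A m ((b : ℂ) / q)‖ ^ 2
      = ∑ i ∈ Fr G, ‖mhat A m (y i)‖ ^ 2 := by
    rw [sum_Fr]
    refine Finset.sum_congr rfl fun q _ => Finset.sum_congr rfl fun b _ => ?_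
    rw [hy]
    simp only
    rw [mhat_rep]
    rfl
  -- two frequencies in the same cell
  have hyc : ∀ i k, c i = k → |(y i - ctr n k).re| ≤ 1 / (2 * n) ∧ |(y i - ctr n k).im| ≤ 1 / (2 * n) := by
    rintro i k rfl
    exact ⟨rep_sub_ctr_re hn _, rep_sub_ctr_im hn _⟩
  have hyy : ∀ i j, c i = c j → |(y i - y j).re| ≤ 1 / n ∧ |(y i - y j).im| ≤ 1 / n := by
    intro i j hij
    have h1 := hyc i (c j) hij
    have h2 := hyc j (c j) rfl
    have e : (1 : ℝ) / n = 1 / (2 * n) + 1 / (2 * n) := by field_simp; ring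
    constructor
    · have h3 : (y i - y j).re = (y i - ctr n (c j)).re - (y j - ctr n (c j)).re := by
        simp only [Complex.sub_re]; ring
      rw [h3, e]
      exact (abs_sub _ _).trans (add_le_add h1.1 h2.1)
    · have h3 : (y i - y j).im = (y i - ctr n (c j)).im - (y j - ctr n (c j)).im := by
        simp only [Complex.sub_im]; ring
      rw [h3, e]
      exact (abs_sub _ _).trans (add_le_add h1.2 h2.2)
  have hyfr : ∀ i j, ∃ g : GaussianInt, y i - y j = fr i - fr j - (g : ℂ) := by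
    intro i j
    refine ⟨gsh n (fr i) - gsh n (fr j), ?_⟩
    rw [hy, GaussianInt.toComplex_sub]
    simp only [rep]
    ring
  have hdiff : ∀ i ∈ Fr G, ∀ j ∈ Fr G, i ≠ j → c i = c j → i.1 ≠ j.1 := by
    intro i hi j hj hne hij h1
    rw [mem_Fr] at hi hj
    obtain ⟨g, hg⟩ := hyfr i j
    have h2 := hyy i j hij
    have hi2 : i = (i.1, i.2) := rfl
    have hj2 : j = (i.1, j.2) := Prod.ext h1.symm rfl
    have hb : i.2 ≠ j.2 := fun h => hne (Prod.ext h1 h)
    have h3 := hG.same_prime hi.1 hi.2 (by rw [h1]; exact hj.2) hb g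
    rw [← hi2, ← hj2, ← hfr, ← hg] at h3
    -- |y i - y j| ≤ 2 / n < 1 / N q
    have h4 : ‖y i - y j‖ ^ 2 ≤ 2 / (n : ℝ) ^ 2 := by
      rw [← Complex.normSq_eq_norm_sq, Complex.normSq_apply]
      have a1 := abs_le.mp h2.1
      have a2 := abs_le.mp h2.2
      have e1 : (y i - y j).re * (y i - y j).re ≤ (1 / (n : ℝ)) * (1 / n) := by nlinarith
      have e2 : (y i - y j).im * (y i - y j).im ≤ (1 / (n : ℝ)) * (1 / n) := by nlinarith
      have e3 : (2 : ℝ) / (n : ℝ) ^ 2 = (1 / (n : ℝ)) * (1 / n) + (1 / (n : ℝ)) * (1 / n) := by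
        field_simp; ring
      linarith
    have h5 := hG.N_pos hi.1
    have h6 := hG.N_le hi.1
    have h7 : (1 / N i.1) ^ 2 ≤ ‖y i - y j‖ ^ 2 := pow_le_pow_left₀ (by positivity) h3 2
    have h8 : (1 / N i.1) ^ 2 = 1 / N i.1 ^ 2 := by rw [div_pow, one_pow]
    have h9 : 1 / (4 * w) ≤ 1 / N i.1 ^ 2 := one_div_le_one_div_of_le (by positivity) h6
    have h10 : 2 / (n : ℝ) ^ 2 < 1 / (4 * w) := by
      rw [div_lt_div_iff₀ (by positivity) (by positivity)]
      linarith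
    linarith
  rw [hsum]
  -- the sum of all `HS`
  set HS : ℕ × ℕ → ℝ := fun k => ∑ i ∈ (Fr G).filter (fun i => c i = k),
    ∑ j ∈ ((Fr G).filter (fun i => c i = k)).filter (fun j => j ≠ i),
      ‖mhat A m (y i - y j)‖ ^ 2 with hHS
  have hHSsum : ∑ k ∈ range n ×ˢ range n, HS k ≤ 2 * X2 := by
    set P : Finset ((GaussianInt × ℕ) × (GaussianInt × ℕ)) :=
      (Fr G ×ˢ Fr G).filter (fun p => c p.1 = c p.2 ∧ PrimeSet.lt' p.1.1 p.2.1) with hP
    set P' : Finset ((GaussianInt × ℕ) × (GaussianInt × ℕ)) :=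
      (Fr G ×ˢ Fr G).filter (fun p => c p.1 = c p.2 ∧ PrimeSet.lt' p.2.1 p.1.1) with hP'
    set F : (GaussianInt × ℕ) × (GaussianInt × ℕ) → ℝ :=
      fun p => ‖mhat A m (y p.1 - y p.2)‖ ^ 2 with hF
    have e1 : ∑ k ∈ range n ×ˢ range n, HS k
        = ∑ p ∈ (Fr G ×ˢ Fr G).filter (fun p => c p.1 = c p.2 ∧ p.2 ≠ p.1), F p := by
      have e2 : ∀ k, HS k = ∑ p ∈ ((Fr G ×ˢ Fr G).filter
          (fun p => c p.1 = c p.2 ∧ p.2 ≠ p.1)).filter (fun p => c p.1 = k), F p := by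
        intro k
        rw [hHS]
        simp only
        rw [Finset.sum_filter, Finset.filter_filter, Finset.sum_filter, Finset.sum_product]
        refine Finset.sum_congr rfl fun i hi => ?_
        split_ifs with h
        · rw [Finset.filter_filter, Finset.sum_filter]
          refine Finset.sum_congr rfl fun j hj => ?_
          simp only [hF]
          by_cases h2 : c j = k
          · by_cases h3 : j ≠ i
            · rw [if_pos ⟨h2, h3⟩, if_pos ⟨⟨h.trans h2.symm, h3⟩, h⟩]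
            · rw [if_neg (fun h4 => h3 h4.2), if_neg (fun h4 => h3 h4.1.2)]
          · rw [if_neg (fun h4 => h2 h4.1), if_neg (fun h4 => h2 (h4.1.1.symm.trans h4.2))]
        · symm
          refine Finset.sum_eq_zero fun j hj => ?_
          rw [if_neg (fun h4 => h h4.2)]
      simp_rw [e2]
      refine Finset.sum_fiberwise_of_maps_to (fun p _ => cidx_mem hn _) _
    have e3 : (Fr G ×ˢ Fr G).filter (fun p => c p.1 = c p.2 ∧ p.2 ≠ p.1) = P ∪ P' := by
      ext p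
      rw [hP, hP', Finset.mem_union, Finset.mem_filter, Finset.mem_filter, Finset.mem_filter,
        Finset.mem_product]
      constructor
      · rintro ⟨⟨hp1, hp2⟩, hc1, hne⟩
        have h1 := hdiff p.1 hp1 p.2 hp2 (Ne.symm hne) hc1
        rcases PrimeSet.lt'_or h1 with h | h
        · exact Or.inl ⟨⟨hp1, hp2⟩, hc1, h⟩
        · exact Or.inr ⟨⟨hp1, hp2⟩, hc1, h⟩
      · rintro (⟨h1, h2, h3⟩ | ⟨h1, h2, h3⟩)
        · exact ⟨h1, h2, fun h => PrimeSet.ne_of_lt' h3 (by rw [h])⟩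
        · exact ⟨h1, h2, fun h => PrimeSet.ne_of_lt' h3 (by rw [h])⟩
    have e4 : ∑ p ∈ P', F p = ∑ p ∈ P, F p := by
      refine Finset.sum_bij' (fun p _ => (p.2, p.1)) (fun p _ => (p.2, p.1)) ?_ ?_ ?_ ?_ ?_
      · intro p hp
        rw [hP', Finset.mem_filter, Finset.mem_product] at hp
        rw [hP, Finset.mem_filter, Finset.mem_product]
        exact ⟨⟨hp.1.2, hp.1.1⟩, hp.2.1.symm, hp.2.2⟩
      · intro p hp
        rw [hP, Finset.mem_filter, Finset.mem_product] at hp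
        rw [hP', Finset.mem_filter, Finset.mem_product]
        exact ⟨⟨hp.1.2, hp.1.1⟩, hp.2.1.symm, hp.2.2⟩
      · intro p _; rfl
      · intro p _; rfl
      · intro p _
        rw [hF]
        simp only
        have : y p.1 - y p.2 = -(y p.2 - y p.1) := by ring
        rw [this, mhat_neg, RCLike.norm_conj]
    have e5 : ∑ p ∈ P, F p ≤ X2 := by
      refine hLS P (fun p => y p.1 - y p.2) ?_ ?_
      · intro p hp p' hp' hne
        rw [hP, Finset.mem_filter, Finset.mem_product] at hp hp'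
        rw [mem_Fr, mem_Fr] at hp hp'
        refine not_inR (δ := 1 / (16 * w ^ 2)) (le_of_eq (by field_simp; norm_num)) ?_
        intro g
        obtain ⟨g1, hg1⟩ := hyfr p.1 p.2
        obtain ⟨g2, hg2⟩ := hyfr p'.1 p'.2
        have h1 := hG.four_primes hp.1.1.1 hp.1.2.1 hp'.1.1.1 hp'.1.2.1 hp.1.1.2 hp.1.2.2
          hp'.1.1.2 hp'.1.2.2 hp.2.2 hp'.2.2 hne (g1 - g2 + g)
        refine h1.trans (le_of_eq ?_)
        rw [hg1, hg2, GaussianInt.toComplex_add, GaussianInt.toComplex_sub]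
        congr 1
        ring
      · intro p hp
        rw [hP, Finset.mem_filter] at hp
        exact hyy _ _ hp.2.1
    rw [e1, e3]
    have e6 := Finset.sum_union_inter (s₁ := P) (s₂ := P') (f := F)
    have e7 : 0 ≤ ∑ p ∈ P ∩ P', F p := Finset.sum_nonneg fun p _ => sq_nonneg _
    rw [e4] at e6
    linarith
  refine (cell_sum (Fr G) (range n ×ˢ range n) c (fun i _ => cidx_mem hn _)
    (fun i => ‖mhat A m (y i)‖ ^ 2) AQ HS X1 (2 * X2) ((8 * w / n + 2) ^ 2) θ σ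
    (fun k _ => hAQ k) (fun k _ => Finset.sum_nonneg fun i _ => Finset.sum_nonneg fun j _ =>
      sq_nonneg _) ?_ hX1 hHSsum ?_ ?_ hθ (by positivity) hσ)
  · intro k _
    exact hcell k _ y (fun i hi => hyc i k (Finset.mem_filter.mp hi).2)
  · intro k _
    have h1 := card_separated_le ((Fr G).filter fun i => c i = k) y (ctr n k) (1 / (2 * n))
      (1 / (4 * w)) (by positivity) (by positivity)
      (fun i hi => (hyc i k (Finset.mem_filter.mp hi).2).1)
      (fun i hi => (hyc i k (Finset.mem_filter.mp hi).2).2) ?_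
    · refine h1.trans (le_of_eq ?_)
      congr 2
      field_simp
      ring
    · intro i hi j hj hne
      rw [Finset.mem_filter] at hi hj
      have h2 := hdiff i hi.1 j hj.1 hne (hi.2.trans hj.2.symm)
      obtain ⟨g, hg⟩ := hyfr i j
      rw [hg]
      exact hG.two_primes (mem_Fr.mp hi.1).1 (mem_Fr.mp hj.1).1 (mem_Fr.mp hi.1).2 h2 g
  · intro i hi
    rw [mem_Fr] at hi
    have := hsmall i.1 hi.1 i.2 hi.2
    simp only [hy]
    rw [mhat_rep]
    exact this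

end Crest.Agent.R2.B717
end

-- ▼ part R2/Cell937a
section

/-!
# R2 (Gaussian moat), block B2 of #11312: the cell inequality and Parseval over the cells
(helper937)
-/

set_option autoImplicit false

namespace Crest.Agent.R2.B937

open Crest.Agent.R2.Tri Finset

/-- the box `{0 ≤ re, im < ρ}`, indexed by pairs of naturals. -/
def bx (ρ : ℕ) : Finset (ℕ × ℕ) := Finset.range ρ ×ˢ Finset.range ρ

/-- the Gaussian integer attached to a pair. -/
def hh (p : ℕ × ℕ) : GaussianInt := ⟨p.1, p.2⟩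

theorem card_bx (ρ : ℕ) : (bx ρ).card = ρ ^ 2 := by
  unfold bx
  rw [Finset.card_product, Finset.card_range, sq]

/-- extension by zero. -/
noncomputable def me (A : Finset GaussianInt) (m : GaussianInt → ℝ) (z : GaussianInt) : ℝ :=
  open Classical in if z ∈ A then m z else 0

/-- box average of the weight. -/
noncomputable def om (A : Finset GaussianInt) (m : GaussianInt → ℝ) (ρ : ℕ) (v : GaussianInt) : ℝ :=
  (∑ p ∈ bx ρ, me A m (v + hh p)) / (ρ : ℝ) ^ 2

/-- twisted box average of the weight. -/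
noncomputable def mQ (A : Finset GaussianInt) (m : GaussianInt → ℝ) (ρ : ℕ) (ξ : ℂ)
    (v : GaussianInt) : ℂ :=
  (∑ p ∈ bx ρ, (me A m (v + hh p) : ℂ) * chi (v + hh p) ξ) / (ρ : ℂ) ^ 2

/-- box kernel. -/
noncomputable def kap (ρ : ℕ) (η : ℂ) : ℂ := (∑ p ∈ bx ρ, chi (-hh p) η) / (ρ : ℂ) ^ 2

/-- the energy of a cell with centre `ξ`. -/
noncomputable def AQ (A : Finset GaussianInt) (m : GaussianInt → ℝ) (ρ : ℕ)
    (V : Finset GaussianInt) (ξ : ℂ) : ℝ :=
  ∑ v ∈ V, ‖mQ A m ρ ξ v‖ ^ 2 / om A m ρ v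

section basic

variable {A : Finset GaussianInt} {m : GaussianInt → ℝ}

theorem me_nonneg (hm : ∀ z ∈ A, 0 ≤ m z) (z : GaussianInt) : 0 ≤ me A m z := by
  classical
  unfold me
  split_ifs with h
  · exact hm z h
  · exact le_refl _

theorem om_nonneg (hm : ∀ z ∈ A, 0 ≤ m z) (ρ : ℕ) (v : GaussianInt) : 0 ≤ om A m ρ v := by
  unfold om
  apply div_nonneg
  · exact Finset.sum_nonneg fun p _ => me_nonneg hm _
  · positivity

theorem norm_mQ_le (hm : ∀ z ∈ A, 0 ≤ m z) (ρ : ℕ) (ξ : ℂ) (v : GaussianInt) :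
    ‖mQ A m ρ ξ v‖ ≤ om A m ρ v := by
  unfold mQ om
  rw [norm_div, norm_pow, Complex.norm_natCast]
  gcongr
  refine le_trans (norm_sum_le _ _) ?_
  apply Finset.sum_le_sum
  intro p _
  rw [norm_mul, norm_chi, mul_one, Complex.norm_real, Real.norm_eq_abs,
    abs_of_nonneg (me_nonneg hm _)]

/-- the shift identity. -/
theorem sum_shift (V : Finset GaussianInt) (h : GaussianInt)
    (hV : ∀ z ∈ A, z - h ∈ V) (g : GaussianInt → ℂ) :
    ∑ v ∈ V, (me A m (v + h) : ℂ) * g v = ∑ z ∈ A, (m z : ℂ) * g (z - h) := by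
  classical
  have h1 : ∑ z ∈ A, (m z : ℂ) * g (z - h)
      = ∑ v ∈ A.image (fun z => z - h), (me A m (v + h) : ℂ) * g v := by
    rw [Finset.sum_image]
    · apply Finset.sum_congr rfl
      intro z hz
      unfold me
      rw [sub_add_cancel, if_pos hz]
    · intro a _ b _ hab
      simpa using hab
  rw [h1]
  symm
  apply Finset.sum_subset
  · intro v hv
    rw [Finset.mem_image] at hv
    obtain ⟨z, hz, rfl⟩ := hv
    exact hV z hz
  · intro v _ hv
    have : v + h ∉ A := by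
      intro hvA
      apply hv
      rw [Finset.mem_image]
      exact ⟨v + h, hvA, by ring⟩
    unfold me
    rw [if_neg this]
    simp

theorem sum_om_chi (ρ : ℕ) (V : Finset GaussianInt)
    (hV : ∀ z ∈ A, ∀ p ∈ bx ρ, z - hh p ∈ V) (η : ℂ) :
    ∑ v ∈ V, (om A m ρ v : ℂ) * chi v η = kap ρ η * ft A m η := by
  unfold om kap ft
  have h1 : ∀ v ∈ V, (((∑ p ∈ bx ρ, me A m (v + hh p)) / (ρ : ℝ) ^ 2 : ℝ) : ℂ) * chi v η
      = ∑ p ∈ bx ρ, ((me A m (v + hh p) : ℂ) * chi v η) / (ρ : ℂ) ^ 2 := by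
    intro v _
    push_cast
    rw [div_mul_eq_mul_div, Finset.sum_mul, Finset.sum_div]
  rw [Finset.sum_congr rfl h1, Finset.sum_comm, Finset.sum_div, Finset.sum_mul]
  apply Finset.sum_congr rfl
  intro p hp
  rw [← Finset.sum_div, sum_shift V (hh p) (fun z hz => hV z hz p hp), div_mul_eq_mul_div,
    Finset.mul_sum]
  congr 1
  apply Finset.sum_congr rfl
  intro z _
  rw [sub_eq_add_neg, chi_add_left]
  ring

theorem sum_chi_mQ (ρ : ℕ) (V : Finset GaussianInt)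
    (hV : ∀ z ∈ A, ∀ p ∈ bx ρ, z - hh p ∈ V) (ξ x : ℂ) :
    ∑ v ∈ V, chi v (x - ξ) * mQ A m ρ ξ v = kap ρ (x - ξ) * ft A m x := by
  unfold mQ kap ft
  have h1 : ∀ v ∈ V, chi v (x - ξ) *
      ((∑ p ∈ bx ρ, (me A m (v + hh p) : ℂ) * chi (v + hh p) ξ) / (ρ : ℂ) ^ 2)
      = ∑ p ∈ bx ρ, ((me A m (v + hh p) : ℂ) * (chi (v + hh p) ξ * chi v (x - ξ))) / (ρ : ℂ) ^ 2 := by
    intro v _
    rw [mul_div_assoc', Finset.mul_sum, Finset.sum_div]
    apply Finset.sum_congr rfl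
    intro p _
    ring
  rw [Finset.sum_congr rfl h1, Finset.sum_comm, Finset.sum_div, Finset.sum_mul]
  apply Finset.sum_congr rfl
  intro p hp
  rw [← Finset.sum_div,
    sum_shift V (hh p) (fun z hz => hV z hz p hp) (fun v => chi (v + hh p) ξ * chi v (x - ξ)),
    div_mul_eq_mul_div, Finset.mul_sum]
  congr 1
  apply Finset.sum_congr rfl
  intro z _
  rw [sub_add_cancel, sub_eq_add_neg z, chi_add_left]
  have : chi z x = chi z ξ * chi z (x - ξ) := by rw [← chi_add_right]; congr 1; ring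
  rw [this]
  ring

theorem norm_kap_le (ρ : ℕ) (hρ : 0 < ρ) (η : ℂ) : ‖kap ρ η‖ ≤ 1 := by
  unfold kap
  rw [norm_div, norm_pow, Complex.norm_natCast, div_le_one (by positivity)]
  refine le_trans (norm_sum_le _ _) ?_
  simp only [norm_chi, Finset.sum_const, card_bx, nsmul_eq_mul, mul_one]
  push_cast
  exact le_refl _

theorem half_le_norm_kap (ρ : ℕ) (hρ : 0 < ρ) (η : ℂ) (h1 : |η.re| ≤ 1 / (16 * ρ))
    (h2 : |η.im| ≤ 1 / (16 * ρ)) : 1 / 2 ≤ ‖kap ρ η‖ := by
  have hρ' : (0 : ℝ) < ρ := by exact_mod_cast hρ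
  refine le_trans ?_ (Complex.re_le_norm _)
  unfold kap
  have e : (∑ p ∈ bx ρ, chi (-hh p) η) / (ρ : ℂ) ^ 2
      = (((1 / (ρ : ℝ) ^ 2 : ℝ)) : ℂ) * (∑ p ∈ bx ρ, chi (-hh p) η) := by
    push_cast
    ring
  rw [e, Complex.re_ofReal_mul, Complex.re_sum]
  have key : ∀ p ∈ bx ρ, (1 : ℝ) / 2 ≤ (chi (-hh p) η).re := by
    intro p hp
    unfold bx at hp
    rw [Finset.mem_product, Finset.mem_range, Finset.mem_range] at hp
    unfold chi
    rw [ee_re]
    have hp1 : (p.1 : ℝ) ≤ ρ := by exact_mod_cast hp.1.le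
    have hp2 : (p.2 : ℝ) ≤ ρ := by exact_mod_cast hp.2.le
    have hre : (((-hh p).re : ℤ) : ℝ) = -(p.1 : ℝ) := by simp [hh]
    have him : (((-hh p).im : ℤ) : ℝ) = -(p.2 : ℝ) := by simp [hh]
    rw [hre, him]
    have b1 : |(p.1 : ℝ) * η.re| ≤ 1 / 16 := by
      rw [abs_mul, abs_of_nonneg (by positivity : (0 : ℝ) ≤ p.1)]
      calc (p.1 : ℝ) * |η.re| ≤ ρ * (1 / (16 * ρ)) := by gcongr
        _ = 1 / 16 := by field_simp
    have b2 : |(p.2 : ℝ) * η.im| ≤ 1 / 16 := by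
      rw [abs_mul, abs_of_nonneg (by positivity : (0 : ℝ) ≤ p.2)]
      calc (p.2 : ℝ) * |η.im| ≤ ρ * (1 / (16 * ρ)) := by gcongr
        _ = 1 / 16 := by field_simp
    rw [abs_le] at b1 b2
    have hb : |2 * Real.pi * (-(p.1 : ℝ) * η.re - -(p.2 : ℝ) * η.im)| ≤ Real.pi / 3 := by
      rw [abs_le]
      have hpi := Real.pi_pos
      constructor
      · nlinarith
      · nlinarith
    have := Real.cos_abs (2 * Real.pi * (-(p.1 : ℝ) * η.re - -(p.2 : ℝ) * η.im))
    rw [← this, ← Real.cos_pi_div_three]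
    apply Real.cos_le_cos_of_nonneg_of_le_pi (abs_nonneg _) _ hb
    linarith [Real.pi_pos]
  have hs : ((bx ρ).card : ℝ) * (1 / 2) ≤ ∑ p ∈ bx ρ, (chi (-hh p) η).re := by
    rw [← nsmul_eq_mul]
    exact Finset.card_nsmul_le_sum _ _ _ key
  rw [card_bx] at hs
  push_cast at hs
  calc (1 : ℝ) / 2 = 1 / (ρ : ℝ) ^ 2 * ((ρ : ℝ) ^ 2 * (1 / 2)) := by field_simp
    _ ≤ _ := by gcongr

end basic

end Crest.Agent.R2.B937
end

-- ▼ part R2/Cell937b
section

/-!
# R2 (Gaussian moat), block B2 of #11312: the cell inequality (CELL)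
(helper937)
-/

set_option autoImplicit false

namespace Crest.Agent.R2.B937

open Crest.Agent.R2.Tri Finset

section cell

variable {A : Finset GaussianInt} {m : GaussianInt → ℝ}

theorem sum_om_sq {ι : Type*} (ρ : ℕ) (V : Finset GaussianInt)
    (hV : ∀ z ∈ A, ∀ p ∈ bx ρ, z - hh p ∈ V) (I : Finset ι) (c y : ι → ℂ) :
    ((∑ v ∈ V, om A m ρ v * ‖∑ i ∈ I, c i * chi v (y i)‖ ^ 2 : ℝ) : ℂ)
      = ∑ i ∈ I, ∑ j ∈ I, c i * (starRingEnd ℂ) (c j) *
          (kap ρ (y i - y j) * ft A m (y i - y j)) := by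
  push_cast
  have h1 : ∀ v ∈ V, (om A m ρ v : ℂ) * (‖∑ i ∈ I, c i * chi v (y i)‖ : ℂ) ^ 2
      = ∑ i ∈ I, ∑ j ∈ I, c i * (starRingEnd ℂ) (c j) * ((om A m ρ v : ℂ) * chi v (y i - y j)) := by
    intro v _
    rw [← Complex.mul_conj', map_sum, Finset.sum_mul_sum, Finset.mul_sum]
    apply Finset.sum_congr rfl
    intro a _
    rw [Finset.mul_sum]
    apply Finset.sum_congr rfl
    intro b _
    rw [chi_sub_right, map_mul]
    ring
  rw [Finset.sum_congr rfl h1, Finset.sum_comm]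
  apply Finset.sum_congr rfl
  intro i _
  rw [Finset.sum_comm]
  apply Finset.sum_congr rfl
  intro j _
  rw [← Finset.mul_sum, sum_om_chi ρ V hV]

/-- quadratic form bound. -/
theorem sum_om_sq_le {ι : Type*} [DecidableEq ι]
    (hs : ∑ z ∈ A, m z = 1) (ρ : ℕ) (hρ : 0 < ρ) (V : Finset GaussianInt)
    (hV : ∀ z ∈ A, ∀ p ∈ bx ρ, z - hh p ∈ V) (I : Finset ι) (c y : ι → ℂ) :
    ∑ v ∈ V, om A m ρ v * ‖∑ i ∈ I, c i * chi v (y i)‖ ^ 2
      ≤ (∑ i ∈ I, ‖c i‖ ^ 2) *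
        (1 + Real.sqrt (∑ i ∈ I, ∑ j ∈ I.erase i, ‖ft A m (y i - y j)‖ ^ 2)) := by
  have h0 : ft A m 0 = 1 := by
    unfold ft
    simp only [chi_zero_right, mul_one]
    exact_mod_cast hs
  have e := sum_om_sq (m := m) ρ V hV I c y
  have e2 : ∑ v ∈ V, om A m ρ v * ‖∑ i ∈ I, c i * chi v (y i)‖ ^ 2
      = (∑ i ∈ I, ∑ j ∈ I, c i * (starRingEnd ℂ) (c j) *
          (kap ρ (y i - y j) * ft A m (y i - y j))).re := by
    rw [← e, Complex.ofReal_re]
  rw [e2]
  refine le_trans (Complex.re_le_norm _) ?_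
  refine le_trans (norm_sum_le _ _) ?_
  have h1 : ∀ i ∈ I, ‖∑ j ∈ I, c i * (starRingEnd ℂ) (c j) *
          (kap ρ (y i - y j) * ft A m (y i - y j))‖
      ≤ ‖c i‖ ^ 2 + ∑ j ∈ I.erase i, (‖c i‖ * ‖c j‖) * ‖ft A m (y i - y j)‖ := by
    intro i hi
    refine le_trans (norm_sum_le _ _) ?_
    rw [← Finset.add_sum_erase _ _ hi]
    have hterm : ∀ j, ‖c i * (starRingEnd ℂ) (c j) * (kap ρ (y i - y j) * ft A m (y i - y j))‖
        ≤ (‖c i‖ * ‖c j‖) * ‖ft A m (y i - y j)‖ := by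
      intro j
      rw [norm_mul, norm_mul, norm_mul, RCLike.norm_conj]
      have := norm_kap_le ρ hρ (y i - y j)
      calc ‖c i‖ * ‖c j‖ * (‖kap ρ (y i - y j)‖ * ‖ft A m (y i - y j)‖)
          ≤ ‖c i‖ * ‖c j‖ * (1 * ‖ft A m (y i - y j)‖) := by gcongr
        _ = _ := by ring
    apply add_le_add
    · refine le_trans (hterm i) ?_
      rw [sub_self, h0, norm_one, mul_one, sq]
    · apply Finset.sum_le_sum
      intro j _
      exact hterm j
  refine le_trans (Finset.sum_le_sum h1) ?_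
  rw [Finset.sum_add_distrib, mul_add, mul_one]
  gcongr
  -- Cauchy-Schwarz on pairs
  rw [Finset.sum_sigma', Finset.sum_sigma']
  have hcs := Finset.sum_mul_sq_le_sq_mul_sq (I.sigma fun i => I.erase i)
    (fun p => ‖c p.1‖ * ‖c p.2‖) (fun p => ‖ft A m (y p.1 - y p.2)‖)
  have hT : ∑ p ∈ I.sigma (fun i => I.erase i), (‖c p.1‖ * ‖c p.2‖) ^ 2
      ≤ (∑ i ∈ I, ‖c i‖ ^ 2) ^ 2 := by
    rw [Finset.sum_sigma, sq, Finset.sum_mul_sum]
    apply Finset.sum_le_sum
    intro i _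
    simp only [mul_pow]
    apply Finset.sum_le_sum_of_subset_of_nonneg (Finset.erase_subset _ _)
    intro j _ _
    positivity
  have hT0 : 0 ≤ ∑ i ∈ I, ‖c i‖ ^ 2 := Finset.sum_nonneg fun i _ => by positivity
  set H := ∑ p ∈ I.sigma (fun i => I.erase i), ‖ft A m (y p.1 - y p.2)‖ ^ 2 with hH
  have hH0 : 0 ≤ H := Finset.sum_nonneg fun i _ => by positivity
  have hle : (∑ p ∈ I.sigma (fun i => I.erase i), (‖c p.1‖ * ‖c p.2‖) * ‖ft A m (y p.1 - y p.2)‖) ^ 2
      ≤ ((∑ i ∈ I, ‖c i‖ ^ 2) * Real.sqrt H) ^ 2 := by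
    rw [mul_pow, Real.sq_sqrt hH0]
    refine le_trans hcs ?_
    gcongr
  exact (abs_le_of_sq_le_sq' hle (by positivity)).2

theorem fin_aux {S Q R : ℝ} (hS : 0 ≤ S) (hQ : 0 ≤ Q) (hR : 0 ≤ R)
    (h : S ^ 2 ≤ (4 * S) * (1 + R) * Q) : S ≤ 4 * Q * (1 + R) := by
  rcases hS.eq_or_lt with h0 | h0
  · rw [← h0]
    positivity
  · have : S * S ≤ S * (4 * Q * (1 + R)) := by nlinarith
    exact le_of_mul_le_mul_left this h0

/-- **Cell inequality** (3.4) of #11312. -/
theorem cell {ι : Type*} [DecidableEq ι] (hm : ∀ z ∈ A, 0 ≤ m z)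
    (hs : ∑ z ∈ A, m z = 1) (ρ : ℕ) (hρ : 0 < ρ) (V : Finset GaussianInt)
    (hV : ∀ z ∈ A, ∀ p ∈ bx ρ, z - hh p ∈ V) (ξ : ℂ) (I : Finset ι) (x : ι → ℂ)
    (hre : ∀ i ∈ I, |(x i - ξ).re| ≤ 1 / (16 * ρ)) (him : ∀ i ∈ I, |(x i - ξ).im| ≤ 1 / (16 * ρ)) :
    ∑ i ∈ I, ‖ft A m (x i)‖ ^ 2 ≤ 4 * AQ A m ρ V ξ *
      (1 + Real.sqrt (∑ i ∈ I, ∑ j ∈ I.erase i, ‖ft A m (x i - x j)‖ ^ 2)) := by
  set S := ∑ i ∈ I, ‖ft A m (x i)‖ ^ 2 with hS
  set R := Real.sqrt (∑ i ∈ I, ∑ j ∈ I.erase i, ‖ft A m (x i - x j)‖ ^ 2) with hR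
  have hR0 : 0 ≤ R := Real.sqrt_nonneg _
  have hS0 : 0 ≤ S := Finset.sum_nonneg fun i _ => by positivity
  have hAQ0 : 0 ≤ AQ A m ρ V ξ := by
    unfold AQ
    exact Finset.sum_nonneg fun v _ => div_nonneg (by positivity) (om_nonneg hm ρ v)
  set c : ι → ℂ := fun i => (starRingEnd ℂ) (ft A m (x i)) / kap ρ (x i - ξ) with hc
  have hk : ∀ i ∈ I, 1 / 2 ≤ ‖kap ρ (x i - ξ)‖ := fun i hi =>
    half_le_norm_kap ρ hρ _ (hre i hi) (him i hi)
  have hk0 : ∀ i ∈ I, kap ρ (x i - ξ) ≠ 0 := by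
    intro i hi h0
    have := hk i hi
    rw [h0, norm_zero] at this
    norm_num at this
  -- total
  have htot : ∑ v ∈ V, (∑ i ∈ I, c i * chi v (x i - ξ)) * mQ A m ρ ξ v = (S : ℂ) := by
    have h1 : ∀ v ∈ V, (∑ i ∈ I, c i * chi v (x i - ξ)) * mQ A m ρ ξ v
        = ∑ i ∈ I, c i * (chi v (x i - ξ) * mQ A m ρ ξ v) := by
      intro v _
      rw [Finset.sum_mul]
      apply Finset.sum_congr rfl
      intro i _
      ring
    rw [Finset.sum_congr rfl h1, Finset.sum_comm, hS]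
    push_cast
    apply Finset.sum_congr rfl
    intro i hi
    rw [← Finset.mul_sum, sum_chi_mQ ρ V hV, hc]
    simp only
    rw [← Complex.conj_mul']
    have := hk0 i hi
    field_simp
  have hCS : S ^ 2 ≤ (∑ v ∈ V, om A m ρ v * ‖∑ i ∈ I, c i * chi v (x i - ξ)‖ ^ 2)
      * AQ A m ρ V ξ := by
    have h1 : S ≤ ∑ v ∈ V, (Real.sqrt (om A m ρ v) * ‖∑ i ∈ I, c i * chi v (x i - ξ)‖) *
        (‖mQ A m ρ ξ v‖ / Real.sqrt (om A m ρ v)) := by
      have h2 : S = ‖∑ v ∈ V, (∑ i ∈ I, c i * chi v (x i - ξ)) * mQ A m ρ ξ v‖ := by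
        rw [htot, Complex.norm_real, Real.norm_eq_abs, abs_of_nonneg hS0]
      rw [h2]
      refine le_trans (norm_sum_le _ _) ?_
      apply Finset.sum_le_sum
      intro v _
      rw [norm_mul]
      rcases (om_nonneg hm ρ v).eq_or_lt with h0 | h0
      · have hz : ‖mQ A m ρ ξ v‖ = 0 :=
          le_antisymm (by rw [h0]; exact norm_mQ_le hm ρ ξ v) (norm_nonneg _)
        rw [hz]
        simp
      · have : Real.sqrt (om A m ρ v) ≠ 0 := (Real.sqrt_pos.mpr h0).ne'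
        apply le_of_eq
        field_simp
    have h3 := Finset.sum_mul_sq_le_sq_mul_sq V
      (fun v => Real.sqrt (om A m ρ v) * ‖∑ i ∈ I, c i * chi v (x i - ξ)‖)
      (fun v => ‖mQ A m ρ ξ v‖ / Real.sqrt (om A m ρ v))
    refine le_trans (pow_le_pow_left₀ hS0 h1 2) (le_trans h3 (le_of_eq ?_))
    unfold AQ
    congr 1
    · apply Finset.sum_congr rfl
      intro v _
      rw [mul_pow, Real.sq_sqrt (om_nonneg hm ρ v)]
    · apply Finset.sum_congr rfl
      intro v _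
      rw [div_pow, Real.sq_sqrt (om_nonneg hm ρ v)]
  have hq := sum_om_sq_le hs ρ hρ V hV I c (fun i => x i - ξ)
  have hdiff : ∀ i j, (x i - ξ) - (x j - ξ) = x i - x j := fun i j => by ring
  simp only [hdiff] at hq
  rw [← hR] at hq
  have hT : ∑ i ∈ I, ‖c i‖ ^ 2 ≤ 4 * S := by
    rw [hS, Finset.mul_sum]
    apply Finset.sum_le_sum
    intro i hi
    rw [hc]
    simp only
    rw [norm_div, RCLike.norm_conj, div_pow, div_le_iff₀ (by
      have := hk i hi
      positivity)]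
    have := hk i hi
    have h4 : 1 ≤ 4 * ‖kap ρ (x i - ξ)‖ ^ 2 := by nlinarith
    nlinarith [sq_nonneg ‖ft A m (x i)‖]
  have hfin : S ^ 2 ≤ (4 * S) * (1 + R) * AQ A m ρ V ξ := by
    refine le_trans hCS ?_
    refine mul_le_mul_of_nonneg_right (le_trans hq ?_) hAQ0
    exact mul_le_mul_of_nonneg_right hT (by linarith)
  exact fin_aux hS0 hAQ0 hR0 hfin

end cell

end Crest.Agent.R2.B937
end

-- ▼ part R2/Cell937c

/-!
# R2 (Gaussian moat), block B2 of #11312: Parseval over the cells (PARS)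
(helper937)
-/

set_option autoImplicit false

namespace Crest.Agent.R2.B937

open Crest.Agent.R2.Tri Finset

theorem ee_nat_mul (x : ℝ) (n : ℕ) : ee ((n : ℝ) * x) = ee x ^ n := by
  induction n with
  | zero => simp
  | succ n ih =>
    rw [pow_succ, ← ih, ← ee_add]
    congr 1
    push_cast
    ring

theorem ee_eq_one_iff (x : ℝ) : ee x = 1 ↔ ∃ n : ℤ, x = n := by
  unfold ee
  rw [Complex.exp_eq_one_iff]
  constructor
  · rintro ⟨n, hn⟩
    refine ⟨n, ?_⟩
    have h2 : (2 * (Real.pi : ℂ) * Complex.I) ≠ 0 := by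
      simp [Real.pi_ne_zero, Complex.I_ne_zero]
    have : (x : ℂ) * (2 * (Real.pi : ℂ) * Complex.I) = (n : ℂ) * (2 * (Real.pi : ℂ) * Complex.I) := by
      rw [← hn]; ring
    have := mul_right_cancel₀ h2 this
    exact_mod_cast this
  · rintro ⟨n, rfl⟩
    exact ⟨n, by push_cast; ring⟩

/-- orthogonality on `ℤ / N`. -/
theorem geom_zero (N : ℕ) (hN : 0 < N) (k : ℤ) (hk : k ≠ 0) (hkN : |k| < N) :
    ∑ a ∈ Finset.range N, ee ((k : ℝ) * ((a : ℝ) / N)) = 0 := by
  have hN' : (N : ℝ) ≠ 0 := by exact_mod_cast hN.ne'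
  set ζ := ee ((k : ℝ) / N) with hζ
  have h1 : ∀ a ∈ Finset.range N, ee ((k : ℝ) * ((a : ℝ) / N)) = ζ ^ a := by
    intro a _
    rw [hζ, ← ee_nat_mul]
    congr 1
    ring
  rw [Finset.sum_congr rfl h1]
  have hz1 : ζ ≠ 1 := by
    rw [hζ, Ne, ee_eq_one_iff]
    rintro ⟨n, hn⟩
    have h2 : (k : ℝ) = n * N := by
      rw [← hn]; field_simp
    have h3 : k = n * N := by exact_mod_cast h2
    have hn0 : n ≠ 0 := by
      rintro rfl
      exact hk (by simpa using h3)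
    have h4 : |k| = |n| * N := by
      rw [h3, abs_mul]
      congr 1
      exact abs_of_nonneg (by positivity)
    have h5 : 1 ≤ |n| := Int.one_le_abs hn0
    nlinarith
  have hzN : ζ ^ N = 1 := by
    rw [hζ, ← ee_nat_mul]
    have : (N : ℝ) * ((k : ℝ) / N) = k := by field_simp
    rw [this, ee_int]
  have := mul_geom_sum ζ N
  rw [hzN, sub_self] at this
  exact (mul_eq_zero.mp this).resolve_left (sub_ne_zero.mpr hz1)

/-- centre of a cell. -/
noncomputable def ctr (N a b : ℕ) : ℂ := ⟨(a : ℝ) / N, (b : ℝ) / N⟩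

theorem chi_sub_left (v w : GaussianInt) (x : ℂ) :
    chi (v - w) x = chi v x * (starRingEnd ℂ) (chi w x) := by
  rw [sub_eq_add_neg, chi_add_left, chi_neg_left]

theorem sum_ctr (ρ N : ℕ) (hN : 0 < N) (hρ : ρ ≤ N) (p q : ℕ × ℕ) (hp : p ∈ bx ρ) (hq : q ∈ bx ρ) :
    ∑ a ∈ Finset.range N, ∑ b ∈ Finset.range N, chi (hh p - hh q) (ctr N a b)
      = if p = q then (N : ℂ) ^ 2 else 0 := by
  unfold bx at hp hq
  rw [Finset.mem_product, Finset.mem_range, Finset.mem_range] at hp hq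
  have h1 : ∀ a ∈ Finset.range N, ∀ b ∈ Finset.range N, chi (hh p - hh q) (ctr N a b)
      = ee ((((p.1 : ℤ) - q.1 : ℤ) : ℝ) * ((a : ℝ) / N)) *
        ee ((((q.2 : ℤ) - p.2 : ℤ) : ℝ) * ((b : ℝ) / N)) := by
    intro a _ b _
    unfold chi
    rw [← ee_add]
    congr 1
    have e1 : (((hh p - hh q).re : ℤ) : ℝ) = (((p.1 : ℤ) - q.1 : ℤ) : ℝ) := by simp [hh]
    have e2 : (((hh p - hh q).im : ℤ) : ℝ) = -(((q.2 : ℤ) - p.2 : ℤ) : ℝ) := by simp [hh]
    rw [e1, e2]
    simp only [ctr]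
    ring
  have h2 : ∑ a ∈ Finset.range N, ∑ b ∈ Finset.range N, chi (hh p - hh q) (ctr N a b)
      = (∑ a ∈ Finset.range N, ee ((((p.1 : ℤ) - q.1 : ℤ) : ℝ) * ((a : ℝ) / N))) *
        (∑ b ∈ Finset.range N, ee ((((q.2 : ℤ) - p.2 : ℤ) : ℝ) * ((b : ℝ) / N))) := by
    rw [Finset.sum_mul_sum]
    apply Finset.sum_congr rfl
    intro a ha
    apply Finset.sum_congr rfl
    intro b hb
    exact h1 a ha b hb
  rw [h2]
  split_ifs with hpq
  · subst hpq
    simp [sq]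
  · by_cases h3 : p.1 = q.1
    · have h4 : p.2 ≠ q.2 := fun h => hpq (Prod.ext h3 h)
      have : ∑ b ∈ Finset.range N, ee ((((q.2 : ℤ) - p.2 : ℤ) : ℝ) * ((b : ℝ) / N)) = 0 := by
        apply geom_zero N hN
        · omega
        · rw [abs_lt]; omega
      rw [this, mul_zero]
    · have : ∑ a ∈ Finset.range N, ee ((((p.1 : ℤ) - q.1 : ℤ) : ℝ) * ((a : ℝ) / N)) = 0 := by
        apply geom_zero N hN
        · omega
        · rw [abs_lt]; omega
      rw [this, zero_mul]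

/-- Parseval on a box. -/
theorem parseval_box (ρ N : ℕ) (hN : 0 < N) (hρ : ρ ≤ N) (c : ℕ × ℕ → ℂ) :
    ∑ a ∈ Finset.range N, ∑ b ∈ Finset.range N,
      ‖∑ p ∈ bx ρ, c p * chi (hh p) (ctr N a b)‖ ^ 2 = (N : ℝ) ^ 2 * ∑ p ∈ bx ρ, ‖c p‖ ^ 2 := by
  have key : ((∑ a ∈ Finset.range N, ∑ b ∈ Finset.range N,
      ‖∑ p ∈ bx ρ, c p * chi (hh p) (ctr N a b)‖ ^ 2 : ℝ) : ℂ)
      = (((N : ℝ) ^ 2 * ∑ p ∈ bx ρ, ‖c p‖ ^ 2 : ℝ) : ℂ) := by
    push_cast
    have h1 : ∀ a ∈ Finset.range N, ∀ b ∈ Finset.range N,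
        ((‖∑ p ∈ bx ρ, c p * chi (hh p) (ctr N a b)‖ : ℝ) : ℂ) ^ 2
        = ∑ p ∈ bx ρ, ∑ q ∈ bx ρ, c p * (starRingEnd ℂ) (c q) * chi (hh p - hh q) (ctr N a b) := by
      intro a _ b _
      rw [← Complex.mul_conj', map_sum, Finset.sum_mul_sum]
      apply Finset.sum_congr rfl
      intro p _
      apply Finset.sum_congr rfl
      intro q _
      rw [chi_sub_left, map_mul]
      ring
    rw [Finset.sum_congr rfl fun a ha => Finset.sum_congr rfl fun b hb => h1 a ha b hb]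
    have h2 : ∑ a ∈ Finset.range N, ∑ b ∈ Finset.range N, ∑ p ∈ bx ρ, ∑ q ∈ bx ρ,
        c p * (starRingEnd ℂ) (c q) * chi (hh p - hh q) (ctr N a b)
        = ∑ p ∈ bx ρ, ∑ q ∈ bx ρ, c p * (starRingEnd ℂ) (c q) *
          ∑ a ∈ Finset.range N, ∑ b ∈ Finset.range N, chi (hh p - hh q) (ctr N a b) := by
      simp only [Finset.mul_sum]
      rw [← Finset.sum_product', Finset.sum_comm]
      apply Finset.sum_congr rfl
      intro p _
      rw [Finset.sum_comm]
      apply Finset.sum_congr rfl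
      intro q _
      rw [← Finset.sum_product']
    rw [h2, Finset.mul_sum]
    apply Finset.sum_congr rfl
    intro p hp
    have h3 : ∀ q ∈ bx ρ, c p * (starRingEnd ℂ) (c q) *
          ∑ a ∈ Finset.range N, ∑ b ∈ Finset.range N, chi (hh p - hh q) (ctr N a b)
        = if p = q then c p * (starRingEnd ℂ) (c q) * (N : ℂ) ^ 2 else 0 := by
      intro q hq
      rw [sum_ctr ρ N hN hρ p q hp hq]
      split_ifs <;> simp
    rw [Finset.sum_congr rfl h3, Finset.sum_ite_eq, if_pos hp, Complex.mul_conj']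
    ring
  exact_mod_cast key

variable {A : Finset GaussianInt} {m : GaussianInt → ℝ}

/-- **Parseval over the cells** (3.4) of #11312. -/
theorem sum_AQ_le (hm : ∀ z ∈ A, 0 ≤ m z) (M : ℝ) (hM : ∀ z ∈ A, m z ≤ M) (ρ N : ℕ) (hρ : 0 < ρ)
    (hρN : ρ ≤ N) (V : Finset GaussianInt) :
    ∑ a ∈ Finset.range N, ∑ b ∈ Finset.range N, AQ A m ρ V (ctr N a b)
      ≤ ((N : ℝ) / ρ) ^ 2 * M * ((V.filter fun v => om A m ρ v ≠ 0).card : ℝ) := by
  classical
  have hN : 0 < N := lt_of_lt_of_le hρ hρN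
  have hρ' : (0 : ℝ) < ρ := by exact_mod_cast hρ
  have hN' : (0 : ℝ) < N := by exact_mod_cast hN
  unfold AQ
  have h1 : ∑ a ∈ Finset.range N, ∑ b ∈ Finset.range N, ∑ v ∈ V,
      ‖mQ A m ρ (ctr N a b) v‖ ^ 2 / om A m ρ v
      = ∑ v ∈ V, (∑ a ∈ Finset.range N, ∑ b ∈ Finset.range N,
        ‖mQ A m ρ (ctr N a b) v‖ ^ 2) / om A m ρ v := by
    rw [← Finset.sum_product', Finset.sum_comm]
    apply Finset.sum_congr rfl
    intro v _
    rw [← Finset.sum_div, Finset.sum_product]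
  rw [h1]
  have h2 : ∀ v ∈ V, (∑ a ∈ Finset.range N, ∑ b ∈ Finset.range N,
        ‖mQ A m ρ (ctr N a b) v‖ ^ 2) / om A m ρ v
      ≤ if om A m ρ v ≠ 0 then ((N : ℝ) / ρ) ^ 2 * M else 0 := by
    intro v _
    split_ifs with h0
    · have hpos : 0 < om A m ρ v := lt_of_le_of_ne (om_nonneg hm ρ v) (Ne.symm h0)
      rw [div_le_iff₀ hpos]
      have h3 : ∀ a ∈ Finset.range N, ∀ b ∈ Finset.range N, ‖mQ A m ρ (ctr N a b) v‖ ^ 2
          = (1 / (ρ : ℝ) ^ 4) *
            ‖∑ p ∈ bx ρ, (me A m (v + hh p) : ℂ) * chi (hh p) (ctr N a b)‖ ^ 2 := by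
        intro a _ b _
        unfold mQ
        have e1 : ∑ p ∈ bx ρ, (me A m (v + hh p) : ℂ) * chi (v + hh p) (ctr N a b)
            = chi v (ctr N a b) * ∑ p ∈ bx ρ, (me A m (v + hh p) : ℂ) * chi (hh p) (ctr N a b) := by
          rw [Finset.mul_sum]
          apply Finset.sum_congr rfl
          intro p _
          rw [chi_add_left]
          ring
        rw [e1, norm_div, norm_mul, norm_chi, one_mul, norm_pow, Complex.norm_natCast, div_pow,
          ← pow_mul]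
        ring
      rw [Finset.sum_congr rfl fun a ha => Finset.sum_congr rfl fun b hb => h3 a ha b hb]
      simp only [← Finset.mul_sum]
      rw [parseval_box ρ N hN hρN]
      have h4 : ∑ p ∈ bx ρ, ‖(me A m (v + hh p) : ℂ)‖ ^ 2
          ≤ M * ∑ p ∈ bx ρ, me A m (v + hh p) := by
        rw [Finset.mul_sum]
        apply Finset.sum_le_sum
        intro p _
        rw [Complex.norm_real, Real.norm_eq_abs, sq_abs, sq]
        have hn := me_nonneg hm (v + hh p)
        have hle : me A m (v + hh p) ≤ M ∨ me A m (v + hh p) = 0 := by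
          unfold me
          split_ifs with hA
          · exact Or.inl (hM _ hA)
          · exact Or.inr rfl
        rcases hle with hle | hle
        · exact mul_le_mul_of_nonneg_right hle hn
        · rw [hle]; simp
      have h5 : ∑ p ∈ bx ρ, me A m (v + hh p) = om A m ρ v * (ρ : ℝ) ^ 2 := by
        unfold om
        field_simp
      rw [h5] at h4
      calc 1 / (ρ : ℝ) ^ 4 * ((N : ℝ) ^ 2 * ∑ p ∈ bx ρ, ‖(me A m (v + hh p) : ℂ)‖ ^ 2)
          ≤ 1 / (ρ : ℝ) ^ 4 * ((N : ℝ) ^ 2 * (M * (om A m ρ v * (ρ : ℝ) ^ 2))) := by gcongr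
        _ = ((N : ℝ) / ρ) ^ 2 * M * om A m ρ v := by
          field_simp
    · push Not at h0
      rw [h0]
      simp
  refine le_trans (Finset.sum_le_sum h2) ?_
  rw [← Finset.sum_filter, Finset.sum_const, nsmul_eq_mul]
  exact le_of_eq (by ring)


theorem AQ_nonneg (hm : ∀ z ∈ A, 0 ≤ m z) (ρ : ℕ) (V : Finset GaussianInt) (ξ : ℂ) :
    0 ≤ AQ A m ρ V ξ :=
  Finset.sum_nonneg fun v _ => div_nonneg (by positivity) (om_nonneg hm ρ v)

end Crest.Agent.R2.B937
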