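import Crest.Agent.R2.End717c
import Crest.Agent.R2.Spec289
import Crest.Agent.R2.End717d
import Mathlib
import Crest.Agent.R2.Gcd62
import Crest.Agent.R2.Front507g

-- ▼ part R2/End717s
section

/-!
# R2 (Gaussian moat), Theorem S, end game: the spectral lemmas `Spec1`, `Spec2`
(bridge to helper289's `Spec289.lean`)
-/

set_option autoImplicit false

namespace Crest.Agent.R2.E717

open Finset

theorem chi_eq_tri (v : GaussianInt) (x : ℂ) : chi v x = Tri.chi v x := by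
  rw [Tri.chi_eq_re]
  rfl

theorem mhat_eq_ft (A : Finset GaussianInt) (m : GaussianInt → ℝ) (x : ℂ) :
    mhat A m x = Tri.ft A m x := by
  unfold mhat Tri.ft
  exact Finset.sum_congr rfl fun z _ => by rw [chi_eq_tri]

theorem inR_of_tri {r : ℝ} {x : ℂ} (h : Tri.inR r x) : inR r x := by
  obtain ⟨z, h1, h2⟩ := h
  refine ⟨z, ?_, ?_⟩
  · rw [Complex.sub_re, ← GaussianInt.intCast_re]; exact h1
  · rw [Complex.sub_im, ← GaussianInt.intCast_im]; exact h2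

theorem spec_general (A : Finset GaussianInt) (m : GaussianInt → ℝ) (hm : ∀ z ∈ A, 0 ≤ m z)
    (hsum : ∑ z ∈ A, m z = 1) (I : Finset GaussianInt) (x : GaussianInt → ℂ)
    (t r0 G g ρ : ℝ) (ht : 0 < t) (hG : 0 < G) (hr0 : 20 * r0 * G ≤ 1) (hρ : 1 ≤ ρ)
    (hx : ∀ i ∈ I, ‖x i‖ ≤ r0) (hbig : ∀ i ∈ I, t ≤ ‖mhat A m (x i)‖)
    (hg : ∀ v : GaussianInt, ∀ B ⊆ A, (∀ z ∈ B, N (z - v) ≤ G) → ∑ z ∈ B, m z ≤ g)
    (hA : ∀ z ∈ A, N z + G ≤ ρ) (j : ℕ) (C : ℝ)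
    (hC : ∀ P : Finset ((Fin j → GaussianInt) × (Fin j → GaussianInt)),
      (∀ p ∈ P, ((∀ i, p.1 i ∈ I) ∧ (∀ i, p.2 i ∈ I)) ∧
        inR (1 / (2 * ρ)) (∑ i, x (p.1 i) - ∑ i, x (p.2 i))) → (P.card : ℝ) ≤ C) :
    (t / 2) ^ (2 * j) * (I.card : ℝ) ^ (2 * j) * (disc G).card ≤ g * (40 * ρ ^ 2) * C := by
  classical
  have hV : ∀ z ∈ A, ∀ y ∈ disc G, z + y ∈ disc ρ := by
    intro z hz y hy
    rw [mem_disc] at hy ⊢
    have h1 := hA z hz
    have h2 : N (z + y) ≤ N z + N y := by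
      unfold N; rw [GaussianInt.toComplex_add]; exact norm_add_le _ _
    linarith
  have hg0 : 0 ≤ g := by
    have := hg 0 ∅ (Finset.empty_subset _) (by simp)
    simpa using this
  obtain ⟨s, hs1, hs2⟩ := Tri.lower_pow A m hm hsum I x ht.le
    (fun q hq => by rw [← mhat_eq_ft]; exact hbig q hq) (disc G)
    (by
      intro y hy q hq
      rw [mem_disc] at hy
      refine (Complex.abs_re_le_norm _).trans ?_
      rw [norm_mul]
      have h1 := hx q hq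
      have h2 : N y * ‖x q‖ ≤ G * r0 := mul_le_mul hy h1 (norm_nonneg _) hG.le
      change N y * ‖x q‖ ≤ 1 / 20
      linarith)
    (g := g)
    (by
      intro v
      refine hg v _ (Finset.filter_subset _ _) ?_
      intro z hz
      rw [Finset.mem_filter, mem_disc] at hz
      rw [N_sub_comm]
      exact hz.2)
    (disc ρ) hV
  have h1 := hs2 j
  have h2 := Tri.upper_pow hρ I s x (fun q _ => (hs1 q).le) j (disc ρ)
    (by
      intro v hv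
      rw [mem_disc] at hv
      exact ⟨(abs_re_le v).trans hv, (abs_im_le v).trans hv⟩)
  refine h1.trans ?_
  rw [mul_assoc]
  refine mul_le_mul_of_nonneg_left (h2.trans ?_) hg0
  refine mul_le_mul_of_nonneg_left ?_ (by positivity)
  refine hC _ ?_
  intro p hp
  rw [Finset.mem_filter, Finset.mem_product, Fintype.mem_piFinset, Fintype.mem_piFinset] at hp
  exact ⟨hp.1, inR_of_tri hp.2⟩

theorem spec1 (A : Finset GaussianInt) (m : GaussianInt → ℝ) (hm : ∀ z ∈ A, 0 ≤ m z)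
    (hsum : ∑ z ∈ A, m z = 1) : Spec1 A m := by
  intro I x t r0 G g ρ C ht hG hr0 hρ hx hbig hg hA hC
  have := spec_general A m hm hsum I x t r0 G g ρ ht hG hr0 hρ hx hbig hg hA 1 C ?_
  · simpa using this
  · intro P hP
    have hinj : Set.InjOn (fun p : (Fin 1 → GaussianInt) × (Fin 1 → GaussianInt) =>
        (p.1 0, p.2 0)) (P : Set ((Fin 1 → GaussianInt) × (Fin 1 → GaussianInt))) := by
      intro p _ q _ h
      simp only [Prod.mk.injEq] at h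
      refine Prod.ext ?_ ?_
      · funext i; rw [Subsingleton.elim i 0]; exact h.1
      · funext i; rw [Subsingleton.elim i 0]; exact h.2
    rw [← Finset.card_image_of_injOn hinj]
    refine hC _ ?_
    intro p hp
    rw [Finset.mem_image] at hp
    obtain ⟨q, hq, rfl⟩ := hp
    obtain ⟨⟨a1, a2⟩, a3⟩ := hP q hq
    refine ⟨⟨a1 0, a2 0⟩, ?_⟩
    simpa using a3

theorem spec2 (A : Finset GaussianInt) (m : GaussianInt → ℝ) (hm : ∀ z ∈ A, 0 ≤ m z)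
    (hsum : ∑ z ∈ A, m z = 1) : Spec2 A m := by
  intro I x t r0 G g ρ C ht hG hr0 hρ hx hbig hg hA hC
  have := spec_general A m hm hsum I x t r0 G g ρ ht hG hr0 hρ hx hbig hg hA 2 C ?_
  · simpa using this
  · intro P hP
    have hinj : Set.InjOn (fun p : (Fin 2 → GaussianInt) × (Fin 2 → GaussianInt) =>
        ((p.1 0, p.1 1), (p.2 0, p.2 1)))
        (P : Set ((Fin 2 → GaussianInt) × (Fin 2 → GaussianInt))) := by
      intro p _ q _ h
      simp only [Prod.mk.injEq] at h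
      refine Prod.ext ?_ ?_
      · funext i; fin_cases i
        · exact h.1.1
        · exact h.1.2
      · funext i; fin_cases i
        · exact h.2.1
        · exact h.2.2
    rw [← Finset.card_image_of_injOn hinj]
    refine hC _ ?_
    intro p hp
    rw [Finset.mem_image] at hp
    obtain ⟨q, hq, rfl⟩ := hp
    obtain ⟨⟨a1, a2⟩, a3⟩ := hP q hq
    refine ⟨⟨a1 0, a1 1, a2 0, a2 1⟩, ?_⟩
    rw [Fin.sum_univ_two, Fin.sum_univ_two, ← sub_sub] at a3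
    exact a3

end Crest.Agent.R2.E717
end

-- ▼ part R2/End717e
section

/-!
# R2 (Gaussian moat), Theorem S, end game: the contradiction

`ℓ = e^{U/4}`, `E = e^{O(ε) U}`.
-/

set_option autoImplicit false

namespace Crest.Agent.R2.E717

open Finset

/-- (END) -/
theorem end_contradiction (ℓ E : ℝ) (hE : 10 ^ 4 ≤ E) (hℓ : E ^ 130 ≤ ℓ)
    (X : Finset GaussianInt) (x : GaussianInt → ℂ) (ζ : ℂ)
    (hX1 : ∀ u ∈ X, N u ≤ ℓ) 
    (A : Finset GaussianInt) (m : GaussianInt → ℝ)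
    (hX2 : ∀ u ∈ X, 1 / (2 * E ^ 2) ≤ ‖mhat A m (x u)‖)
    (hX3 : ∀ u ∈ X, ‖x u‖ ≤ 1 / (20 * ℓ ^ 6))
    (hX4 : ∀ u ∈ X, ‖x u - ζ * (u : ℂ) ^ 2‖ ≤ 1 / (8 * ℓ ^ 8))
    (hζ : 1 / (ℓ ^ 8 * E ^ 2) ≤ ‖ζ‖) (hX : ℓ ^ 2 / E ^ 120 ≤ (X.card : ℝ))
    (hA : ∀ z ∈ A, N z ≤ ℓ ^ 8)
    (hP1 : ∀ v : GaussianInt, ∀ B ⊆ A, (∀ z ∈ B, N (z - v) ≤ ℓ ^ 6) → ∑ z ∈ B, m z ≤ E / ℓ ^ 2)
    (hspec : Spec2 A m)
    (hEn : ∀ X : Finset GaussianInt, (∀ u ∈ X, N u ≤ ℓ) →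
      ∀ P : Finset ((GaussianInt × GaussianInt) × (GaussianInt × GaussianInt)),
      (∀ p ∈ P, (p.1.1 ∈ X ∧ p.1.2 ∈ X ∧ p.2.1 ∈ X ∧ p.2.2 ∈ X) ∧
        N (p.1.1 ^ 2 + p.1.2 ^ 2 - p.2.1 ^ 2 - p.2.2 ^ 2) ≤ E ^ 2) →
      (P.card : ℝ) ≤ E ^ 6 * (X.card : ℝ) ^ 2) : False := by
  have hE0 : 0 < E := by linarith
  have hE1 : 1 ≤ E := by linarith
  have hℓE : E ≤ ℓ := by
    have : E ^ 1 ≤ E ^ 130 := pow_le_pow_right₀ hE1 (by norm_num)
    linarith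
  have hℓ0 : 0 < ℓ := by linarith
  have hℓ1 : 1 ≤ ℓ := by linarith
  have h61 : 1 ≤ ℓ ^ 6 := one_le_pow₀ hℓ1
  have h81 : 1 ≤ ℓ ^ 8 := one_le_pow₀ hℓ1
  have h68 : ℓ ^ 6 ≤ ℓ ^ 8 := pow_le_pow_right₀ hℓ1 (by norm_num)
  have hsmall : 1 / (20 * ℓ ^ 6) ≤ 1 / 8 := by
    rw [div_le_div_iff₀ (by positivity) (by norm_num)]
    linarith
  have key := hspec X x (1 / (2 * E ^ 2)) (1 / (20 * ℓ ^ 6)) (ℓ ^ 6) (E / ℓ ^ 2) (2 * ℓ ^ 8)
    (E ^ 6 * (X.card : ℝ) ^ 2) (by positivity) (by positivity)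
    (le_of_eq (by field_simp)) (by linarith) hX3 hX2 hP1
    (by intro z hz; have := hA z hz; linarith) ?_
  · have hd : (ℓ ^ 6) ^ 2 / 4 ≤ ((disc (ℓ ^ 6)).card : ℝ) := by
      refine le_card_disc ?_
      have : ℓ ^ 1 ≤ ℓ ^ 6 := pow_le_pow_right₀ hℓ1 (by norm_num)
      linarith
    have h1 : (1 / (2 * E ^ 2) / 2) ^ 4 * (X.card : ℝ) ^ 4 * ((ℓ ^ 6) ^ 2 / 4)
        ≤ E / ℓ ^ 2 * (40 * (2 * ℓ ^ 8) ^ 2) * (E ^ 6 * (X.card : ℝ) ^ 2) :=
      le_trans (mul_le_mul_of_nonneg_left hd (by positivity)) key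
    have hXpos : (0 : ℝ) < X.card := lt_of_lt_of_le (by positivity) hX
    have h2 : (1 / (2 * E ^ 2) / 2) ^ 4 * (X.card : ℝ) ^ 4 * ((ℓ ^ 6) ^ 2 / 4)
        = (X.card : ℝ) ^ 2 * ((X.card : ℝ) ^ 2 * ℓ ^ 12 / (1024 * E ^ 8)) := by
      field_simp
      ring
    have h3 : E / ℓ ^ 2 * (40 * (2 * ℓ ^ 8) ^ 2) * (E ^ 6 * (X.card : ℝ) ^ 2)
        = (X.card : ℝ) ^ 2 * (160 * E ^ 7 * ℓ ^ 14) := by
      field_simp
      ring
    rw [h2, h3] at h1
    have h4 := le_of_mul_le_mul_left h1 (by positivity)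
    rw [div_le_iff₀ (by positivity)] at h4
    have h5 : (ℓ ^ 2 / E ^ 120) ^ 2 ≤ (X.card : ℝ) ^ 2 :=
      pow_le_pow_left₀ (by positivity) hX 2
    have h6 : (ℓ ^ 2 / E ^ 120) ^ 2 * ℓ ^ 12 ≤ 160 * E ^ 7 * ℓ ^ 14 * (1024 * E ^ 8) :=
      (mul_le_mul_of_nonneg_right h5 (by positivity)).trans h4
    have h7 : (ℓ ^ 2 / E ^ 120) ^ 2 * ℓ ^ 12 = ℓ ^ 16 / E ^ 240 := by
      field_simp
    rw [h7, div_le_iff₀ (by positivity)] at h6
    have h8 : ℓ ^ 14 * ℓ ^ 2 ≤ ℓ ^ 14 * (163840 * E ^ 255) := by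
      calc ℓ ^ 14 * ℓ ^ 2 = ℓ ^ 16 := by ring
        _ ≤ _ := h6
        _ = ℓ ^ 14 * (163840 * E ^ 255) := by ring
    have h9 := le_of_mul_le_mul_left h8 (by positivity)
    have h10 : (E ^ 130) ^ 2 ≤ ℓ ^ 2 := pow_le_pow_left₀ (by positivity) hℓ 2
    have h11 : E ^ 255 * E ^ 5 ≤ E ^ 255 * 163840 := by
      calc E ^ 255 * E ^ 5 = (E ^ 130) ^ 2 := by ring
        _ ≤ ℓ ^ 2 := h10
        _ ≤ 163840 * E ^ 255 := h9
        _ = E ^ 255 * 163840 := by ring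
    have h12 := le_of_mul_le_mul_left h11 (by positivity)
    have h13 : (10 ^ 4 : ℝ) ^ 5 ≤ E ^ 5 := pow_le_pow_left₀ (by norm_num) hE 5
    norm_num at h13
    linarith
  · intro P hP
    refine hEn X hX1 P ?_
    intro p hp
    obtain ⟨⟨a1, a2, a3, a4⟩, hin⟩ := hP p hp
    refine ⟨⟨a1, a2, a3, a4⟩, ?_⟩
    have n1 := hX3 _ a1
    have n2 := hX3 _ a2
    have n3 := hX3 _ a3
    have n4 := hX3 _ a4
    have h1 : ‖x p.1.1 + x p.1.2 - x p.2.1 - x p.2.2‖ < 2 * (1 / (2 * (2 * ℓ ^ 8))) := by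
      refine norm_le_of_inR ?_ ?_ hin
      · rw [div_le_div_iff₀ (by positivity) (by norm_num)]
        linarith
      · refine (norm_sub_le _ _).trans ?_
        have e1 := norm_sub_le (x p.1.1 + x p.1.2) (x p.2.1)
        have e2 := norm_add_le (x p.1.1) (x p.1.2)
        linarith
    have m1 := hX4 _ a1
    have m2 := hX4 _ a2
    have m3 := hX4 _ a3
    have m4 := hX4 _ a4
    have hid : ζ * ((p.1.1 ^ 2 + p.1.2 ^ 2 - p.2.1 ^ 2 - p.2.2 ^ 2 : GaussianInt) : ℂ)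
        = (x p.1.1 + x p.1.2 - x p.2.1 - x p.2.2)
          - (((x p.1.1 - ζ * (p.1.1 : ℂ) ^ 2) + (x p.1.2 - ζ * (p.1.2 : ℂ) ^ 2))
            - (x p.2.1 - ζ * (p.2.1 : ℂ) ^ 2) - (x p.2.2 - ζ * (p.2.2 : ℂ) ^ 2)) := by
      simp only [GaussianInt.toComplex_sub, GaussianInt.toComplex_add, map_pow]
      ring
    have h2 : ‖ζ * ((p.1.1 ^ 2 + p.1.2 ^ 2 - p.2.1 ^ 2 - p.2.2 ^ 2 : GaussianInt) : ℂ)‖
        ≤ 1 / ℓ ^ 8 := by
      rw [hid]
      refine (norm_sub_le _ _).trans ?_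
      have e1 := norm_sub_le (((x p.1.1 - ζ * (p.1.1 : ℂ) ^ 2) + (x p.1.2 - ζ * (p.1.2 : ℂ) ^ 2))
            - (x p.2.1 - ζ * (p.2.1 : ℂ) ^ 2)) (x p.2.2 - ζ * (p.2.2 : ℂ) ^ 2)
      have e2 := norm_sub_le ((x p.1.1 - ζ * (p.1.1 : ℂ) ^ 2) + (x p.1.2 - ζ * (p.1.2 : ℂ) ^ 2))
            (x p.2.1 - ζ * (p.2.1 : ℂ) ^ 2)
      have e3 := norm_add_le (x p.1.1 - ζ * (p.1.1 : ℂ) ^ 2) (x p.1.2 - ζ * (p.1.2 : ℂ) ^ 2)
      have e4 : 2 * (1 / (2 * (2 * ℓ ^ 8))) = 1 / (2 * ℓ ^ 8) := by field_simp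
      have e5 : 1 / (2 * ℓ ^ 8) + 4 * (1 / (8 * ℓ ^ 8)) = 1 / ℓ ^ 8 := by field_simp; ring
      linarith
    rw [norm_mul] at h2
    change ‖ζ‖ * N (p.1.1 ^ 2 + p.1.2 ^ 2 - p.2.1 ^ 2 - p.2.2 ^ 2) ≤ 1 / ℓ ^ 8 at h2
    have h3 : 1 / (ℓ ^ 8 * E ^ 2) * N (p.1.1 ^ 2 + p.1.2 ^ 2 - p.2.1 ^ 2 - p.2.2 ^ 2)
        ≤ 1 / ℓ ^ 8 :=
      (mul_le_mul_of_nonneg_right hζ (N_nonneg _)).trans h2
    have h4 : 1 / (ℓ ^ 8 * E ^ 2) * E ^ 2 = 1 / ℓ ^ 8 := by field_simp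
    rw [← h4] at h3
    exact le_of_mul_le_mul_left h3 (by positivity)

/-- **End game of Theorem S**: everything after the set `MM` exists. -/
theorem endgame (ℓ E : ℝ) (hE : 10 ^ 4 ≤ E) (hℓ : E ^ 130 ≤ ℓ)
    (MM : Finset GaussianInt) (c : GaussianInt) (hc0 : c ≠ 0) (hc : N c ≤ E)
    (hlow : ∀ M ∈ MM, ℓ ^ 4 / E ≤ N M) (hup : ∀ M ∈ MM, N M ≤ ℓ ^ 4 * E)
    (hcard : ℓ ^ 4 / E ≤ (MM.card : ℝ))
    (Dv : GaussianInt → GaussianInt → Prop)
    (hdiv : ∀ M ∈ MM, ∀ Q : ℝ, 1 ≤ Q → Q ≤ ℓ → ∃ q, Dv q M ∧ Q ≤ N q ∧ N q ≤ E * Q)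
    (hgcd : ∀ M ∈ MM, ∀ M' ∈ MM, ∀ q, Dv q M → Dv q M' → q ^ 2 ∣ M - M')
    (A3 : Finset GaussianInt) (m3 : GaussianInt → ℝ)
    (hm3 : ∀ z ∈ A3, 0 ≤ m3 z) (hsum3 : ∑ z ∈ A3, m3 z = 1) (hA3 : ∀ z ∈ A3, N z ≤ ℓ ^ 6)
    (hP3 : ∀ v : GaussianInt, ∀ B ⊆ A3, (∀ z ∈ B, N (z - v) ≤ ℓ ^ 4) →
      ∑ z ∈ B, m3 z ≤ E / ℓ ^ 2)
    (hbig3 : ∀ M ∈ MM, 1 / E ≤ ‖mhat A3 m3 ((c : ℂ) / M)‖)
    (A2 : Finset GaussianInt) (m2 : GaussianInt → ℝ)
    (hm2 : ∀ z ∈ A2, 0 ≤ m2 z) (hsum2 : ∑ z ∈ A2, m2 z = 1) (hA2 : ∀ z ∈ A2, N z ≤ ℓ ^ 8)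
    (hP2 : ∀ v : GaussianInt, ∀ B ⊆ A2, (∀ z ∈ B, N (z - v) ≤ ℓ ^ 6) →
      ∑ z ∈ B, m2 z ≤ E / ℓ ^ 2)
    (hbig2 : ∀ M ∈ MM, 1 / E ≤ ‖mhat A2 m2 ((c : ℂ) / M)‖)
    (hEn : ∀ X : Finset GaussianInt, (∀ u ∈ X, N u ≤ ℓ) →
      ∀ P : Finset ((GaussianInt × GaussianInt) × (GaussianInt × GaussianInt)),
      (∀ p ∈ P, (p.1.1 ∈ X ∧ p.1.2 ∈ X ∧ p.2.1 ∈ X ∧ p.2.2 ∈ X) ∧
        N (p.1.1 ^ 2 + p.1.2 ^ 2 - p.2.1 ^ 2 - p.2.2 ^ 2) ≤ E ^ 2) →
      (P.card : ℝ) ≤ E ^ 6 * (X.card : ℝ) ^ 2) : False := by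
  have hE0 : 0 < E := by linarith
  have hE1 : 1 ≤ E := by linarith
  have hℓ10 : E ^ 10 ≤ ℓ := (pow_le_pow_right₀ hE1 (by norm_num)).trans hℓ
  have hℓ20 : E ^ 20 ≤ ℓ := (pow_le_pow_right₀ hE1 (by norm_num)).trans hℓ
  have hℓ0 : 0 < ℓ := lt_of_lt_of_le (by positivity) hℓ
  obtain ⟨M0, hM0, T, hTM, hTball, hT⟩ := exists_ball ℓ E hE hℓ10 MM c hc0 hc hlow hup hcard
    A3 m3 hA3 hP3 hbig3 (spec1 A3 m3 hm3 hsum3)
  have hQ1 : 1 ≤ ℓ / E ^ 14 := by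
    rw [le_div_iff₀ (by positivity), one_mul]
    exact le_trans (pow_le_pow_right₀ hE1 (by norm_num)) hℓ
  have hQ2 : ℓ / E ^ 14 ≤ ℓ := div_le_self hℓ0.le (one_le_pow₀ hE1)
  have hex : ∀ M ∈ T, ∃ q, Dv q M ∧ ℓ / E ^ 14 ≤ N q ∧ N q ≤ E * (ℓ / E ^ 14) :=
    fun M hM => hdiv M (hTM hM) _ hQ1 hQ2
  choose! q hqD hq1 hq2 using hex
  obtain ⟨X, x, ζ, h1, h2, h3, h4, h5, h6⟩ := squares_appear ℓ E hE hℓ20 T M0 c hc0 hc
    (fun M hM => hlow M (hTM hM)) (hlow M0 hM0) (hup M0 hM0) hTball hT q hq1 hq2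
    (fun M hM M' hM' hqq => hgcd M' (hTM hM') M (hTM hM) _ (by rw [hqq]; exact hqD M' hM')
      (hqD M hM)) A2 m2 hm2 hsum2 (fun M hM => hbig2 M (hTM hM))
  exact end_contradiction ℓ E hE hℓ X x ζ h1 A2 m2 h2 h3 h4 h5 h6 hA2 hP2
    (spec2 A2 m2 hm2 hsum2) hEn

end Crest.Agent.R2.E717
end

-- ▼ part R2/Div701
section

/-!
Divisor bound in the Gaussian integers.
-/

set_option autoImplicit false

namespace Crest.Agent.R2.Div701

open Zsqrtd GaussianInt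

local notation "ℤi" => GaussianInt

/-- norm as a real number -/
noncomputable def nr (z : ℤi) : ℝ := (Zsqrtd.norm z : ℝ)

theorem nr_eq (z : ℤi) : nr z = (z.re : ℝ) ^ 2 + (z.im : ℝ) ^ 2 := by
  unfold nr; rw [Zsqrtd.norm]; push_cast; ring

theorem nr_nonneg (z : ℤi) : 0 ≤ nr z := by rw [nr_eq]; positivity

theorem nr_mul (x y : ℤi) : nr (x * y) = nr x * nr y := by
  unfold nr; rw [Zsqrtd.norm_mul]; push_cast; ring

theorem nr_one : nr 1 = 1 := by unfold nr; simp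

theorem nr_pow (x : ℤi) (i : ℕ) : nr (x ^ i) = nr x ^ i := by
  induction i with
  | zero => simp [nr_one]
  | succ n ih => rw [pow_succ, nr_mul, ih, pow_succ]

theorem one_le_nr {z : ℤi} (hz : z ≠ 0) : 1 ≤ nr z := by
  have : 0 < Zsqrtd.norm z := GaussianInt.norm_pos.2 hz
  unfold nr; exact_mod_cast this

theorem nr_eq_normSq (z : ℤi) : nr z = Complex.normSq (z : ℂ) := by
  unfold nr; simp

theorem nr_eq_norm_sq (z : ℤi) : nr z = ‖(z : ℂ)‖ ^ 2 := by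
  rw [nr_eq_normSq, Complex.normSq_eq_norm_sq]

theorem isUnit_of_nr_eq_one {z : ℤi} (h : nr z = 1) : IsUnit z := by
  rw [← Zsqrtd.norm_eq_one_iff]
  unfold nr at h
  have : Zsqrtd.norm z = 1 := by exact_mod_cast h
  rw [this]; rfl

theorem nr_unit {z : ℤi} (h : IsUnit z) : nr z = 1 := by
  rw [← Zsqrtd.norm_eq_one_iff] at h
  unfold nr
  have h2 : ((Zsqrtd.norm z).natAbs : ℤ) = Zsqrtd.norm z := GaussianInt.abs_natCast_norm z
  rw [h] at h2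
  rw [← h2]; simp

theorem two_le_nr_prime {p : ℤi} (hp : Prime p) : 2 ≤ nr p := by
  have h1 : 1 ≤ nr p := one_le_nr hp.ne_zero
  have h2 : nr p ≠ 1 := fun h => hp.not_isUnit (isUnit_of_nr_eq_one h)
  unfold nr at *
  have h3 : (1:ℤ) ≤ Zsqrtd.norm p := by exact_mod_cast h1
  have h4 : Zsqrtd.norm p ≠ 1 := by intro h; apply h2; rw [h]; simp
  have : (2:ℤ) ≤ Zsqrtd.norm p := by omega
  exact_mod_cast this

/-- ball of Gaussian integers as a finset -/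
noncomputable def box (B : ℕ) : Finset ℤi :=
  ((Finset.Icc (-(B:ℤ)) B) ×ˢ (Finset.Icc (-(B:ℤ)) B)).image (fun p => (⟨p.1, p.2⟩ : ℤi))

theorem mem_box {B : ℕ} {z : ℤi} (h : nr z ≤ (B:ℝ) ^ 2) : z ∈ box B := by
  unfold box
  rw [Finset.mem_image]
  refine ⟨(z.re, z.im), ?_, rfl⟩
  rw [nr_eq] at h
  have hB : (0:ℝ) ≤ B := Nat.cast_nonneg _
  have h1 : |(z.re : ℝ)| ≤ B := abs_le_of_sq_le_sq (by nlinarith [sq_nonneg (z.im : ℝ)]) hB
  have h2 : |(z.im : ℝ)| ≤ B := abs_le_of_sq_le_sq (by nlinarith [sq_nonneg (z.re : ℝ)]) hB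
  rw [abs_le] at h1 h2
  simp only [Finset.mem_product, Finset.mem_Icc]
  refine ⟨⟨?_, ?_⟩, ?_, ?_⟩
  · exact_mod_cast h1.1
  · exact_mod_cast h1.2
  · exact_mod_cast h2.1
  · exact_mod_cast h2.2

theorem card_box (B : ℕ) : (box B).card ≤ (2 * B + 1) ^ 2 := by
  unfold box
  refine (Finset.card_image_le).trans ?_
  rw [Finset.card_product]
  have : (Finset.Icc (-(B:ℤ)) B).card = 2 * B + 1 := by
    rw [Int.card_Icc]; omega
  rw [this, sq]

theorem finite_nr_le (T : ℝ) : {z : ℤi | nr z ≤ T}.Finite := by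
  obtain ⟨B, hB⟩ := exists_nat_ge (max T 1)
  refine (Finset.finite_toSet (box B)).subset ?_
  intro z hz
  apply mem_box
  have h1 : T ≤ B := le_trans (le_max_left _ _) hB
  have h2 : (1:ℝ) ≤ B := le_trans (le_max_right _ _) hB
  have hz' : nr z ≤ T := hz
  nlinarith

theorem nr_le_of_dvd {d N : ℤi} (hN : N ≠ 0) (h : d ∣ N) : nr d ≤ nr N := by
  obtain ⟨c, rfl⟩ := h
  rw [nr_mul]
  have hc : c ≠ 0 := fun h => hN (by rw [h, mul_zero])
  have := one_le_nr hc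
  nlinarith [nr_nonneg d]

theorem finite_divisors {N : ℤi} (hN : N ≠ 0) : {d : ℤi | d ∣ N}.Finite :=
  (finite_nr_le (nr N)).subset (fun _ h => nr_le_of_dvd hN h)

/-- the divisors up to units -/
def dv (N : ℤi) : Set (Associates ℤi) := {a | a ∣ Associates.mk N}

theorem dv_eq_image (N : ℤi) : dv N = Associates.mk '' {d : ℤi | d ∣ N} := by
  ext a
  constructor
  · intro h
    obtain ⟨d, rfl⟩ := Associates.mk_surjective a
    exact ⟨d, Associates.mk_dvd_mk.1 h, rfl⟩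
  · rintro ⟨d, hd, rfl⟩
    exact Associates.mk_dvd_mk.2 hd

theorem finite_dv {N : ℤi} (hN : N ≠ 0) : (dv N).Finite := by
  rw [dv_eq_image]; exact (finite_divisors hN).image _

theorem ncard_dv_unit {N : ℤi} (h : IsUnit N) : (dv N).ncard ≤ 1 := by
  have : dv N ⊆ {1} := by
    intro a ha
    have h1 : Associates.mk N = 1 := Associates.mk_eq_one.2 h
    unfold dv at ha
    rw [Set.mem_ofPred_eq, h1] at ha
    rw [Set.mem_singleton_iff]
    exact Associates.isUnit_iff_eq_one _ |>.1 (isUnit_of_dvd_one ha)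
  exact (Set.ncard_le_ncard this (Set.finite_singleton _)).trans (by simp)

theorem ncard_dv_prime_pow {p : ℤi} (hp : Prime p) (i : ℕ) : (dv (p ^ i)).ncard ≤ i + 1 := by
  classical
  have : dv (p ^ i) ⊆ ((Finset.range (i+1)).image (fun j => Associates.mk (p ^ j)) : Finset _) := by
    intro a ha
    obtain ⟨d, rfl⟩ := Associates.mk_surjective a
    have hd : d ∣ p ^ i := Associates.mk_dvd_mk.1 ha
    obtain ⟨j, hj, hjd⟩ := (dvd_prime_pow hp i).1 hd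
    rw [Finset.coe_image]
    refine ⟨j, ?_, ?_⟩
    · simp; omega
    · exact (Associates.mk_eq_mk_iff_associated.2 hjd).symm
  refine (Set.ncard_le_ncard this (Finset.finite_toSet _)).trans ?_
  rw [Set.ncard_coe_finset]
  exact (Finset.card_image_le).trans (by simp)

theorem ncard_dv_mul {x y : ℤi} (hx : x ≠ 0) (hy : y ≠ 0) :
    (dv (x * y)).ncard ≤ (dv x).ncard * (dv y).ncard := by
  have : dv (x * y) ⊆ (fun p : Associates ℤi × Associates ℤi => p.1 * p.2) '' (dv x ×ˢ dv y) := by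
    intro a ha
    obtain ⟨d, rfl⟩ := Associates.mk_surjective a
    have hd : d ∣ x * y := Associates.mk_dvd_mk.1 ha
    obtain ⟨d1, d2, h1, h2, rfl⟩ := exists_dvd_and_dvd_of_dvd_mul hd
    refine ⟨(Associates.mk d1, Associates.mk d2), ⟨Associates.mk_dvd_mk.2 h1, Associates.mk_dvd_mk.2 h2⟩, ?_⟩
    exact Associates.mk_mul_mk
  have hf : (dv x ×ˢ dv y).Finite := (finite_dv hx).prod (finite_dv hy)
  refine (Set.ncard_le_ncard this (hf.image _)).trans ?_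
  refine (Set.ncard_image_le hf).trans ?_
  rw [Set.ncard_prod]

/-- small primes dividing `N` -/
noncomputable def sp (B : ℕ) (N : ℤi) : Finset ℤi := by
  classical
  exact (box B).filter (fun p => Prime p ∧ nr p < B ∧ p ∣ N)

theorem mem_sp {B : ℕ} {N p : ℤi} (hB : 1 ≤ B) : p ∈ sp B N ↔ Prime p ∧ nr p < B ∧ p ∣ N := by
  classical
  unfold sp
  rw [Finset.mem_filter]
  constructor
  · exact fun h => h.2
  · intro h
    refine ⟨mem_box ?_, h⟩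
    have h1 : (1:ℝ) ≤ B := by exact_mod_cast hB
    nlinarith [h.2.1]

theorem card_sp_le (B : ℕ) (N : ℤi) : (sp B N).card ≤ (2 * B + 1) ^ 2 := by
  classical
  unfold sp
  exact (Finset.card_filter_le _ _).trans (card_box B)

theorem sp_mul {B : ℕ} (hB : 1 ≤ B) {x y : ℤi} (h : IsRelPrime x y) :
    (sp B (x * y)).card = (sp B x).card + (sp B y).card := by
  classical
  have hd : Disjoint (sp B x) (sp B y) := by
    rw [Finset.disjoint_left]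
    intro p h1 h2
    rw [mem_sp hB] at h1 h2
    exact h1.1.not_isUnit (h h1.2.2 h2.2.2)
  rw [← Finset.card_union_of_disjoint hd]
  congr 1
  ext p
  rw [Finset.mem_union, mem_sp hB, mem_sp hB, mem_sp hB]
  constructor
  · rintro ⟨h1, h2, h3⟩
    rcases h1.dvd_or_dvd h3 with h4 | h4
    · exact Or.inl ⟨h1, h2, h4⟩
    · exact Or.inr ⟨h1, h2, h4⟩
  · rintro (⟨h1, h2, h3⟩ | ⟨h1, h2, h3⟩)
    · exact ⟨h1, h2, Dvd.dvd.mul_right h3 _⟩
    · exact ⟨h1, h2, Dvd.dvd.mul_left h3 _⟩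

theorem main_ind {ε : ℝ} (hε : 0 < ε) {B : ℕ} (hB : 1 ≤ B) (hBε : 2 ≤ (B:ℝ) ^ ε) {C : ℝ} (hC : 1 ≤ C)
    (hC2 : ∀ i : ℕ, (i:ℝ) + 1 ≤ C * ((2:ℝ) ^ ε) ^ i) (N : ℤi) (hN : N ≠ 0) :
    ((dv N).ncard : ℝ) ≤ C ^ (sp B N).card * nr N ^ ε := by
  revert hN
  refine UniqueFactorizationMonoid.induction_on_coprime (P := fun N => N ≠ 0 →
    ((dv N).ncard : ℝ) ≤ C ^ (sp B N).card * nr N ^ ε) N ?_ ?_ ?_ ?_
  · intro h; exact absurd rfl h
  · intro x hx _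
    rw [nr_unit hx, Real.one_rpow, mul_one]
    have h1 : ((dv x).ncard : ℝ) ≤ 1 := by exact_mod_cast ncard_dv_unit hx
    exact h1.trans (one_le_pow₀ hC)
  · intro p i hp _
    have h1 : ((dv (p ^ i)).ncard : ℝ) ≤ i + 1 := by exact_mod_cast ncard_dv_prime_pow hp i
    refine h1.trans ?_
    rcases Nat.eq_zero_or_pos i with h0 | h0
    · subst h0
      simp only [Nat.cast_zero, zero_add, pow_zero, nr_one, Real.one_rpow, mul_one]
      exact one_le_pow₀ hC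
    have h2 := two_le_nr_prime hp
    have hswap : (nr p ^ i) ^ ε = (nr p ^ ε) ^ i := by
      rw [← Real.rpow_natCast, ← Real.rpow_natCast, ← Real.rpow_mul (nr_nonneg p),
        ← Real.rpow_mul (nr_nonneg p), mul_comm]
    rw [nr_pow, hswap]
    by_cases hpB : nr p < B
    · have hmem : p ∈ sp B (p ^ i) := by
        rw [mem_sp hB]; exact ⟨hp, hpB, dvd_pow_self _ (by omega)⟩
      have hcard : 1 ≤ (sp B (p ^ i)).card := Finset.card_pos.2 ⟨p, hmem⟩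
      have hCp : C ≤ C ^ (sp B (p ^ i)).card := le_self_pow₀ hC (by omega)
      have h3 : ((2:ℝ) ^ ε) ^ i ≤ (nr p ^ ε) ^ i := by
        apply pow_le_pow_left₀ (by positivity)
        exact Real.rpow_le_rpow (by norm_num) h2 hε.le
      calc (i:ℝ) + 1 ≤ C * ((2:ℝ) ^ ε) ^ i := hC2 i
        _ ≤ C ^ (sp B (p ^ i)).card * (nr p ^ ε) ^ i := by
          apply mul_le_mul hCp h3 (by positivity) (by positivity)
    · push Not at hpB
      have h3 : (2:ℝ) ≤ nr p ^ ε := hBε.trans (Real.rpow_le_rpow (by positivity) hpB hε.le)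
      have h4 : (2:ℝ) ^ i ≤ (nr p ^ ε) ^ i := pow_le_pow_left₀ (by norm_num) h3 i
      have h5 : (i:ℝ) + 1 ≤ 2 ^ i := by
        have : i + 1 ≤ 2 ^ i := Nat.succ_le_of_lt Nat.lt_two_pow_self
        exact_mod_cast this
      have h6 : 1 ≤ C ^ (sp B (p ^ i)).card := one_le_pow₀ hC
      calc (i:ℝ) + 1 ≤ 2 ^ i := h5
        _ ≤ (nr p ^ ε) ^ i := h4
        _ ≤ C ^ (sp B (p ^ i)).card * (nr p ^ ε) ^ i := le_mul_of_one_le_left (by positivity) h6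
  · intro x y hxy hx hy h0
    have hx0 : x ≠ 0 := left_ne_zero_of_mul h0
    have hy0 : y ≠ 0 := right_ne_zero_of_mul h0
    have h1 := hx hx0
    have h2 := hy hy0
    have h3 : ((dv (x * y)).ncard : ℝ) ≤ (dv x).ncard * (dv y).ncard := by
      exact_mod_cast ncard_dv_mul hx0 hy0
    rw [sp_mul hB hxy, pow_add, nr_mul, Real.mul_rpow (nr_nonneg x) (nr_nonneg y)]
    calc ((dv (x * y)).ncard : ℝ) ≤ (dv x).ncard * (dv y).ncard := h3
      _ ≤ (C ^ (sp B x).card * nr x ^ ε) * (C ^ (sp B y).card * nr y ^ ε) := by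
        apply mul_le_mul h1 h2 (by positivity)
        have := Real.rpow_nonneg (nr_nonneg x) ε
        positivity
      _ = _ := by ring

theorem dv_bound {ε : ℝ} (hε : 0 < ε) : ∃ C : ℝ, 1 ≤ C ∧ ∀ N : ℤi, N ≠ 0 →
    ((dv N).ncard : ℝ) ≤ C * nr N ^ ε := by
  obtain ⟨B, hB⟩ := exists_nat_ge ((2:ℝ) ^ (1/ε))
  have h2 : (1:ℝ) ≤ (2:ℝ) ^ (1/ε) := Real.one_le_rpow (by norm_num) (by positivity)
  have hB1 : 1 ≤ B := by
    have : (1:ℝ) ≤ B := h2.trans hB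
    exact_mod_cast this
  have hBε : (2:ℝ) ≤ (B:ℝ) ^ ε := by
    calc (2:ℝ) = ((2:ℝ) ^ (1/ε)) ^ ε := by
          rw [← Real.rpow_mul (by norm_num)]; rw [one_div, inv_mul_cancel₀ hε.ne']; simp
      _ ≤ (B:ℝ) ^ ε := Real.rpow_le_rpow (by positivity) hB hε.le
  set l : ℝ := Real.log 2 with hl
  have hlpos : 0 < l := Real.log_pos (by norm_num)
  set C : ℝ := 1 + 1 / (ε * l) with hCdef
  have hC : 1 ≤ C := by rw [hCdef]; have : 0 < 1 / (ε * l) := by positivity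
                        linarith
  have hC2 : ∀ i : ℕ, (i:ℝ) + 1 ≤ C * ((2:ℝ) ^ ε) ^ i := by
    intro i
    have h3 : ((2:ℝ) ^ ε) ^ i = Real.exp (ε * l * i) := by
      rw [← Real.rpow_natCast, ← Real.rpow_mul (by norm_num), Real.rpow_def_of_pos (by norm_num)]
      congr 1; rw [hl]; ring
    have h4 : ε * l * i + 1 ≤ Real.exp (ε * l * i) := Real.add_one_le_exp _
    have hi : (0:ℝ) ≤ i := Nat.cast_nonneg _
    have h5 : (i:ℝ) = 1 / (ε * l) * (ε * l * i) := by field_simp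
    have hpos : 0 < 1 / (ε * l) := by positivity
    rw [h3]
    have h6 : (1:ℝ) ≤ Real.exp (ε * l * i) := by
      have : 0 ≤ ε * l * i := by positivity
      linarith
    calc (i:ℝ) + 1 = 1 / (ε * l) * (ε * l * i) + 1 := by rw [← h5]
      _ ≤ 1 / (ε * l) * Real.exp (ε * l * i) + Real.exp (ε * l * i) := by
          have : 1 / (ε * l) * (ε * l * i) ≤ 1 / (ε * l) * Real.exp (ε * l * i) :=
            mul_le_mul_of_nonneg_left (by linarith) hpos.le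
          linarith
      _ = C * Real.exp (ε * l * i) := by rw [hCdef]; ring
  refine ⟨C ^ ((2 * B + 1) ^ 2), one_le_pow₀ hC, ?_⟩
  intro N hN
  refine (main_ind hε hB1 hBε hC hC2 N hN).trans ?_
  apply mul_le_mul_of_nonneg_right _ (Real.rpow_nonneg (nr_nonneg N) ε)
  exact pow_le_pow_right₀ hC (card_sp_le B N)

/-- number of divisors (units counted) is at most `9` times the number of divisors up to units -/
theorem ncard_divisors_le {N : ℤi} (hN : N ≠ 0) :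
    ({d : ℤi | d ∣ N}.ncard : ℝ) ≤ 9 * (dv N).ncard := by
  classical
  have hsub : {d : ℤi | d ∣ N} ⊆
      (fun p : ℤi × Associates ℤi => p.1 * Quot.out p.2) '' (((box 1 : Finset ℤi) : Set ℤi) ×ˢ dv N) := by
    intro d hd
    have h1 : Associated (Quot.out (Associates.mk d)) d := Associates.mk_quot_out (a := d) |> fun h => by
      exact Associates.mk_eq_mk_iff_associated.1 (by
        have := Associates.quot_out (Associates.mk d)
        exact this)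
    obtain ⟨u, hu⟩ := h1
    refine ⟨((u : ℤi), Associates.mk d), ⟨?_, ?_⟩, ?_⟩
    · apply Finset.mem_coe.2
      apply mem_box
      rw [nr_unit u.isUnit]; norm_num
    · exact Associates.mk_dvd_mk.2 hd
    · show (u : ℤi) * Quot.out (Associates.mk d) = d
      rw [mul_comm]; exact hu
  have hf : (((box 1 : Finset ℤi) : Set ℤi) ×ˢ dv N).Finite := (Finset.finite_toSet _).prod (finite_dv hN)
  have h1 : {d : ℤi | d ∣ N}.ncard ≤ 9 * (dv N).ncard := by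
    refine (Set.ncard_le_ncard hsub (hf.image _)).trans ?_
    refine (Set.ncard_image_le hf).trans ?_
    rw [Set.ncard_prod, Set.ncard_coe_finset]
    have := card_box 1
    exact Nat.mul_le_mul_right _ (by simpa using this)
  exact_mod_cast h1

/-- **Divisor bound in `ℤ[i]`.** -/
theorem divisor_bound {ε : ℝ} (hε : 0 < ε) : ∃ C : ℝ, 1 ≤ C ∧ ∀ N : ℤi, N ≠ 0 →
    ({d : ℤi | d ∣ N}.ncard : ℝ) ≤ C * nr N ^ ε := by
  obtain ⟨C, hC, h⟩ := dv_bound hε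
  refine ⟨9 * C, by linarith, fun N hN => ?_⟩
  have h1 := h N hN
  have h2 := ncard_divisors_le hN
  nlinarith

end Crest.Agent.R2.Div701
end

-- ▼ part R2/En701
section

/-!
Energy of squares in the Gaussian integers.
-/

set_option autoImplicit false

namespace Crest.Agent.R2.Div701

open Zsqrtd GaussianInt

local notation "ℤi" => GaussianInt

/-- divisor bound with the complex norm -/
theorem divisor_bound_norm {ε : ℝ} (hε : 0 < ε) : ∃ C : ℝ, 1 ≤ C ∧ ∀ N : ℤi, N ≠ 0 →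
    ({d : ℤi | d ∣ N}.ncard : ℝ) ≤ C * ‖(N : ℂ)‖ ^ ε := by
  obtain ⟨C, hC, h⟩ := divisor_bound (ε := ε / 2) (by positivity)
  refine ⟨C, hC, fun N hN => ?_⟩
  have h1 := h N hN
  rw [nr_eq_norm_sq, ← Real.rpow_natCast, ← Real.rpow_mul (_root_.norm_nonneg _)] at h1
  have h2 : ((2:ℕ):ℝ) * (ε / 2) = ε := by push_cast; ring
  rwa [h2] at h1

theorem two_mul_inj {a b : ℤi} (h : 2 * a = 2 * b) : a = b := by
  have : (2:ℤi) ≠ 0 := by
    intro h
    have := congrArg Zsqrtd.re h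
    simp at this
  exact mul_left_cancel₀ this h

/-- pairs in a finset with prescribed nonzero product -/
theorem card_prod_le (P : Finset (ℤi × ℤi)) {N : ℤi} (hN : N ≠ 0) (h : ∀ p ∈ P, p.1 * p.2 = N) :
    P.card ≤ {d : ℤi | d ∣ N}.ncard := by
  classical
  rw [← Set.ncard_coe_finset]
  refine Set.ncard_le_ncard_of_injOn (fun p => p.1) ?_ ?_ (finite_divisors hN)
  · intro p hp
    exact ⟨p.2, (h p hp).symm⟩
  · intro p hp q hq hpq
    have h1 := h p hp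
    have h2 := h q hq
    simp only at hpq
    have hp1 : p.1 ≠ 0 := by
      intro h0; apply hN; rw [← h1, h0, zero_mul]
    have : p.1 * p.2 = p.1 * q.2 := by rw [h1, ← h2, hpq]
    exact Prod.ext hpq (mul_left_cancel₀ hp1 this)

/-- pairs in a finset with prescribed nonzero difference of squares -/
theorem card_diffsq_le (P : Finset (ℤi × ℤi)) {N : ℤi} (hN : N ≠ 0)
    (h : ∀ p ∈ P, p.1 ^ 2 - p.2 ^ 2 = N) :
    P.card ≤ {d : ℤi | d ∣ N}.ncard := by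
  classical
  have hinj : Set.InjOn (fun p : ℤi × ℤi => (p.1 - p.2, p.1 + p.2)) (P : Set (ℤi × ℤi)) := by
    intro p _ q _ hpq
    simp only [Prod.mk.injEq] at hpq
    obtain ⟨h1, h2⟩ := hpq
    have ha : p.1 = q.1 := two_mul_inj (by linear_combination h1 + h2)
    have hb : p.2 = q.2 := two_mul_inj (by linear_combination h2 - h1)
    exact Prod.ext ha hb
  rw [← Finset.card_image_of_injOn hinj]
  apply card_prod_le _ hN
  intro p hp
  rw [Finset.mem_image] at hp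
  obtain ⟨q, hq, rfl⟩ := hp
  rw [← h q hq]; ring

/-- pairs with equal squares -/
theorem card_sqeq_le (Q : Finset ℤi) (P : Finset (ℤi × ℤi)) (hP : P ⊆ Q ×ˢ Q)
    (h : ∀ p ∈ P, p.1 ^ 2 - p.2 ^ 2 = 0) : P.card ≤ 2 * Q.card := by
  classical
  have hsub : P ⊆ (Q.image (fun q => (q, q))) ∪ (Q.image (fun q => (q, -q))) := by
    intro p hp
    have h1 := h p hp
    have h2 := hP hp
    rw [Finset.mem_product] at h2
    have h3 : (p.1 - p.2) * (p.1 + p.2) = 0 := by rw [← h1]; ring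
    rw [Finset.mem_union, Finset.mem_image, Finset.mem_image]
    rcases mul_eq_zero.1 h3 with h4 | h4
    · left
      exact ⟨p.1, h2.1, Prod.ext rfl (sub_eq_zero.1 h4)⟩
    · right
      refine ⟨p.1, h2.1, Prod.ext rfl ?_⟩
      exact (eq_neg_of_add_eq_zero_right h4).symm
  refine (Finset.card_le_card hsub).trans ((Finset.card_union_le _ _).trans ?_)
  have h1 : (Q.image (fun q => (q, q))).card ≤ Q.card := Finset.card_image_le
  have h2 : (Q.image (fun q => (q, -q))).card ≤ Q.card := Finset.card_image_le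
  omega

theorem norm_sq_sub_le {R : ℝ} {a b : ℤi} (ha : ‖(a : ℂ)‖ ≤ R) (hb : ‖(b : ℂ)‖ ≤ R) :
    ‖((a ^ 2 - b ^ 2 : ℤi) : ℂ)‖ ≤ 2 * R ^ 2 := by
  have h1 : ((a ^ 2 - b ^ 2 : ℤi) : ℂ) = (a:ℂ) ^ 2 - (b : ℂ) ^ 2 := by
    rw [map_sub, map_pow, map_pow]
  rw [h1]
  refine (norm_sub_le _ _).trans ?_
  rw [norm_pow, norm_pow]
  have h2 : ‖(a:ℂ)‖ ^ 2 ≤ R ^ 2 := pow_le_pow_left₀ (_root_.norm_nonneg _) ha 2
  have h3 : ‖(b:ℂ)‖ ^ 2 ≤ R ^ 2 := pow_le_pow_left₀ (_root_.norm_nonneg _) hb 2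
  linarith

/-- counting with an abstract divisor bound `D` -/
theorem energy_abs (Q : Finset ℤi) {R : ℝ} (hQ : ∀ q ∈ Q, ‖(q : ℂ)‖ ≤ R) {D : ℕ} (hD1 : 1 ≤ D)
    (hD : ∀ N : ℤi, N ≠ 0 → ‖(N : ℂ)‖ ≤ 2 * R ^ 2 → {d : ℤi | d ∣ N}.ncard ≤ D) (n : ℤi)
    (T : Finset ((ℤi × ℤi) × (ℤi × ℤi))) (hT : T ⊆ (Q ×ˢ Q) ×ˢ (Q ×ˢ Q))
    (hTn : ∀ t ∈ T, t.1.1 ^ 2 - t.1.2 ^ 2 = n + (t.2.1 ^ 2 - t.2.2 ^ 2)) :
    T.card ≤ 5 * D * Q.card ^ 2 := by
  classical
  -- split T according to whether `t.1.1 ^ 2 - t.1.2 ^ 2 = n`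
  set T0 := T.filter (fun t => t.1.1 ^ 2 - t.1.2 ^ 2 = n) with hT0
  set T1 := T.filter (fun t => ¬ t.1.1 ^ 2 - t.1.2 ^ 2 = n) with hT1
  have hsplit : T.card = T0.card + T1.card := (Finset.card_filter_add_card_filter_not _).symm
  -- T1: fibre over the first pair
  have hfib1 : T1.card ≤ D * (Q ×ˢ Q).card := by
    refine Finset.card_le_mul_card_image_of_maps_to (f := fun t => t.1) (t := Q ×ˢ Q) ?_ D ?_
    · intro t ht
      have := hT (Finset.mem_filter.1 ht).1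
      exact (Finset.mem_product.1 this).1
    · intro p _
      -- fibre
      by_cases hne : (T1.filter (fun t => t.1 = p)).Nonempty
      · obtain ⟨t0, ht0⟩ := hne
        rw [Finset.mem_filter] at ht0
        obtain ⟨ht0a, ht0b⟩ := ht0
        obtain ⟨ht0T, ht0n⟩ := Finset.mem_filter.1 ht0a
        have hN : p.1 ^ 2 - p.2 ^ 2 - n ≠ 0 := by
          intro h; apply ht0n; rw [ht0b]; linear_combination h
        have h0 := hTn t0 ht0T
        have hmem := hT ht0T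
        rw [Finset.mem_product, Finset.mem_product, Finset.mem_product] at hmem
        have hbd : ‖((p.1 ^ 2 - p.2 ^ 2 - n : ℤi) : ℂ)‖ ≤ 2 * R ^ 2 := by
          have : p.1 ^ 2 - p.2 ^ 2 - n = t0.2.1 ^ 2 - t0.2.2 ^ 2 := by
            rw [← ht0b]; linear_combination h0
          rw [this]
          exact norm_sq_sub_le (hQ _ hmem.2.1) (hQ _ hmem.2.2)
        have hinj : Set.InjOn (fun t : (ℤi × ℤi) × (ℤi × ℤi) => t.2)
            ((T1.filter (fun t => t.1 = p) : Finset _) : Set _) := by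
          intro a ha b hb hab
          have h1 := (Finset.mem_filter.1 ha).2
          have h2 := (Finset.mem_filter.1 hb).2
          exact Prod.ext (h1.trans h2.symm) hab
        rw [← Finset.card_image_of_injOn hinj]
        refine (card_diffsq_le _ hN ?_).trans (hD _ hN hbd)
        intro q hq
        rw [Finset.mem_image] at hq
        obtain ⟨t, ht, rfl⟩ := hq
        rw [Finset.mem_filter] at ht
        have h1 := hTn t (Finset.mem_filter.1 ht.1).1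
        rw [← ht.2]; linear_combination -h1
      · rw [Finset.not_nonempty_iff_eq_empty] at hne
        rw [hne]; simp
  -- T0: both pairs
  have hsub0 : T0 ⊆ (((Q ×ˢ Q).filter (fun p => p.1 ^ 2 - p.2 ^ 2 = n)) ×ˢ
      ((Q ×ˢ Q).filter (fun p => p.1 ^ 2 - p.2 ^ 2 = 0))) := by
    intro t ht
    obtain ⟨h1, h2⟩ := Finset.mem_filter.1 ht
    have h3 := hT h1
    rw [Finset.mem_product] at h3
    have h4 := hTn t h1
    rw [Finset.mem_product, Finset.mem_filter, Finset.mem_filter]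
    refine ⟨⟨h3.1, h2⟩, ⟨h3.2, ?_⟩⟩
    rw [h2] at h4
    linear_combination -h4
  have hcard0b : ((Q ×ˢ Q).filter (fun p => p.1 ^ 2 - p.2 ^ 2 = 0)).card ≤ 2 * Q.card :=
    card_sqeq_le Q _ (Finset.filter_subset _ _) (fun p hp => (Finset.mem_filter.1 hp).2)
  have hcard0 : T0.card ≤ ((Q ×ˢ Q).filter (fun p => p.1 ^ 2 - p.2 ^ 2 = n)).card * (2 * Q.card) := by
    refine (Finset.card_le_card hsub0).trans ?_
    rw [Finset.card_product]
    exact Nat.mul_le_mul_left _ hcard0b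
  have hQQ : (Q ×ˢ Q).card = Q.card ^ 2 := by rw [Finset.card_product, sq]
  rw [hQQ] at hfib1
  by_cases hQe : Q.card = 0
  · have : T ⊆ ∅ := by
      intro t ht
      have := hT ht
      rw [Finset.card_eq_zero.1 hQe] at this
      simp at this
    rw [Finset.subset_empty.1 this]; simp
  have hQ1 : 1 ≤ Q.card := Nat.one_le_iff_ne_zero.2 hQe
  by_cases hn : n = 0
  · have h1 : ((Q ×ˢ Q).filter (fun p => p.1 ^ 2 - p.2 ^ 2 = n)).card ≤ 2 * Q.card := by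
      rw [hn]; exact hcard0b
    have h2 : T0.card ≤ (2 * Q.card) * (2 * Q.card) := hcard0.trans (Nat.mul_le_mul_right _ h1)
    rw [hsplit]
    have h3 : (2 * Q.card) * (2 * Q.card) = 4 * Q.card ^ 2 := by ring
    have h4 : 4 * Q.card ^ 2 ≤ 4 * (D * Q.card ^ 2) := by
      apply Nat.mul_le_mul_left; exact Nat.le_mul_of_pos_left _ hD1
    have h5 : 5 * D * Q.card ^ 2 = 4 * (D * Q.card ^ 2) + D * Q.card ^ 2 := by ring
    omega
  · have h1 : ((Q ×ˢ Q).filter (fun p => p.1 ^ 2 - p.2 ^ 2 = n)).card ≤ D := by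
      by_cases hne : ((Q ×ˢ Q).filter (fun p => p.1 ^ 2 - p.2 ^ 2 = n)).Nonempty
      · obtain ⟨p, hp⟩ := hne
        obtain ⟨hp1, hp2⟩ := Finset.mem_filter.1 hp
        rw [Finset.mem_product] at hp1
        refine (card_diffsq_le _ hn (fun q hq => (Finset.mem_filter.1 hq).2)).trans (hD _ hn ?_)
        rw [← hp2]
        exact norm_sq_sub_le (hQ _ hp1.1) (hQ _ hp1.2)
      · rw [Finset.not_nonempty_iff_eq_empty] at hne
        rw [hne]; simp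
    have h2 : T0.card ≤ D * (2 * Q.card) := hcard0.trans (Nat.mul_le_mul_right _ h1)
    rw [hsplit]
    have h3 : D * (2 * Q.card) ≤ 4 * (D * Q.card ^ 2) := by
      have : Q.card ≤ Q.card ^ 2 := by nlinarith
      nlinarith
    have h5 : 5 * D * Q.card ^ 2 = 4 * (D * Q.card ^ 2) + D * Q.card ^ 2 := by ring
    omega

/-- **Energy of squares**: `q₁² + q₂² - q₃² - q₄² = n` has `≤ C R^ε |Q|²` solutions in `Q`. -/
theorem energy {ε : ℝ} (hε : 0 < ε) : ∃ C : ℝ, 1 ≤ C ∧ ∀ (Q : Finset ℤi) (R : ℝ), 1 ≤ R →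
    (∀ q ∈ Q, ‖(q : ℂ)‖ ≤ R) → ∀ (n : ℤi) (T : Finset (ℤi × ℤi × ℤi × ℤi)),
    (∀ t ∈ T, t.1 ∈ Q ∧ t.2.1 ∈ Q ∧ t.2.2.1 ∈ Q ∧ t.2.2.2 ∈ Q ∧
      t.1 ^ 2 + t.2.1 ^ 2 - t.2.2.1 ^ 2 - t.2.2.2 ^ 2 = n) →
    (T.card : ℝ) ≤ C * R ^ ε * (Q.card : ℝ) ^ 2 := by
  classical
  obtain ⟨C, hC, h⟩ := divisor_bound_norm (ε := ε / 2) (by positivity)
  have h2p : (1:ℝ) ≤ (2:ℝ) ^ (ε / 2) := Real.one_le_rpow (by norm_num) (by positivity)
  refine ⟨10 * C * 2 ^ (ε / 2), by nlinarith, ?_⟩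
  intro Q R hR hQ n T hT
  have hRε : (1:ℝ) ≤ R ^ ε := Real.one_le_rpow hR hε.le
  set x : ℝ := C * 2 ^ (ε / 2) * R ^ ε with hx
  have hx1 : 1 ≤ x := by
    rw [hx]
    have : 1 ≤ C * 2 ^ (ε / 2) := by nlinarith
    nlinarith
  set D : ℕ := ⌊x⌋₊ with hDdef
  have hD1 : 1 ≤ D := by rw [hDdef]; exact (Nat.one_le_floor_iff x).2 hx1
  have hD : ∀ N : ℤi, N ≠ 0 → ‖(N : ℂ)‖ ≤ 2 * R ^ 2 → {d : ℤi | d ∣ N}.ncard ≤ D := by
    intro N hN hb
    rw [hDdef]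
    apply Nat.le_floor
    refine (h N hN).trans ?_
    have h1 : ‖(N : ℂ)‖ ^ (ε / 2) ≤ (2 * R ^ 2) ^ (ε / 2) :=
      Real.rpow_le_rpow (_root_.norm_nonneg _) hb (by positivity)
    have h3 : (2 * R ^ 2) ^ (ε / 2) = 2 ^ (ε / 2) * R ^ ε := by
      rw [Real.mul_rpow (by norm_num) (by positivity), ← Real.rpow_natCast R 2, ← Real.rpow_mul (by linarith)]
      congr 2; push_cast; ring
    rw [h3] at h1
    calc C * ‖(N : ℂ)‖ ^ (ε / 2) ≤ C * (2 ^ (ε / 2) * R ^ ε) := by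
          apply mul_le_mul_of_nonneg_left h1 (by linarith)
      _ = x := by rw [hx]; ring
  -- rearrange: `(q₁, q₃), (q₄, q₂)`
  set f : (ℤi × ℤi × ℤi × ℤi) → ((ℤi × ℤi) × (ℤi × ℤi)) :=
    fun t => ((t.1, t.2.2.1), (t.2.2.2, t.2.1)) with hf
  have hfinj : Function.Injective f := by
    intro a b hab
    simp only [hf, Prod.mk.injEq] at hab
    obtain ⟨⟨h1, h2⟩, h3, h4⟩ := hab
    exact Prod.ext h1 (Prod.ext h4 (Prod.ext h2 h3))
  have hcard : (T.image f).card = T.card := Finset.card_image_of_injective _ hfinj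
  have hmain := energy_abs Q hQ hD1 hD n (T.image f) (by
      intro s hs
      rw [Finset.mem_image] at hs
      obtain ⟨t, ht, rfl⟩ := hs
      obtain ⟨h1, h2, h3, h4, _⟩ := hT t ht
      simp only [hf, Finset.mem_product]
      exact ⟨⟨h1, h3⟩, h4, h2⟩) (by
      intro s hs
      rw [Finset.mem_image] at hs
      obtain ⟨t, ht, rfl⟩ := hs
      obtain ⟨_, _, _, _, h5⟩ := hT t ht
      simp only [hf]
      linear_combination h5)
  rw [hcard] at hmain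
  have h1 : (T.card : ℝ) ≤ 5 * D * (Q.card : ℝ) ^ 2 := by exact_mod_cast hmain
  have h2 : (D : ℝ) ≤ x := Nat.floor_le (by linarith)
  calc (T.card : ℝ) ≤ 5 * D * (Q.card : ℝ) ^ 2 := h1
    _ ≤ 5 * x * (Q.card : ℝ) ^ 2 := by
        apply mul_le_mul_of_nonneg_right _ (by positivity)
        linarith
    _ ≤ 10 * C * 2 ^ (ε / 2) * R ^ ε * (Q.card : ℝ) ^ 2 := by
        apply mul_le_mul_of_nonneg_right _ (by positivity)
        have : 0 ≤ x := by linarith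
        have h3 : 10 * C * 2 ^ (ε / 2) * R ^ ε = 10 * x := by rw [hx]; ring
        rw [h3]; linarith

/-- the number of Gaussian integers of norm `≤ r` -/
theorem card_ball_le (r : ℝ) (hr : 0 ≤ r) (S : Finset ℤi) (hS : ∀ z ∈ S, ‖(z : ℂ)‖ ≤ r) :
    (S.card : ℝ) ≤ (2 * r + 1) ^ 2 := by
  have hsub : S ⊆ box ⌊r⌋₊ := by
    intro z hz
    have h1 := hS z hz
    have hre : |(z.re : ℝ)| ≤ r := by
      have h2 : |(z : ℂ).re| ≤ ‖(z : ℂ)‖ := Complex.abs_re_le_norm _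
      rw [← GaussianInt.intCast_re] at h2
      linarith
    have him : |(z.im : ℝ)| ≤ r := by
      have h2 : |(z : ℂ).im| ≤ ‖(z : ℂ)‖ := Complex.abs_im_le_norm _
      rw [← GaussianInt.intCast_im] at h2
      linarith
    have key : ∀ m : ℤ, |(m : ℝ)| ≤ r → m ∈ Finset.Icc (-((⌊r⌋₊ : ℕ) : ℤ)) ((⌊r⌋₊ : ℕ) : ℤ) := by
      intro m hm
      have h3 : ((m.natAbs : ℕ) : ℝ) ≤ r := by
        rw [Nat.cast_natAbs]; push_cast; exact hm
      have h4 : m.natAbs ≤ ⌊r⌋₊ := Nat.le_floor h3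
      rw [Finset.mem_Icc]; omega
    unfold box
    rw [Finset.mem_image]
    exact ⟨(z.re, z.im), Finset.mem_product.2 ⟨key _ hre, key _ him⟩, rfl⟩
  have h1 : S.card ≤ (2 * ⌊r⌋₊ + 1) ^ 2 := (Finset.card_le_card hsub).trans (card_box _)
  have h2 : (S.card : ℝ) ≤ (2 * (⌊r⌋₊ : ℝ) + 1) ^ 2 := by exact_mod_cast h1
  have h3 : (⌊r⌋₊ : ℝ) ≤ r := Nat.floor_le hr
  have h4 : (0:ℝ) ≤ (⌊r⌋₊ : ℝ) := Nat.cast_nonneg _
  refine h2.trans ?_
  apply pow_le_pow_left₀ (by positivity)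
  linarith

/-- **Energy of squares, window form**: `‖q₁² + q₂² - q₃² - q₄²‖ ≤ r`. -/
theorem energy_window {ε : ℝ} (hε : 0 < ε) : ∃ C : ℝ, 1 ≤ C ∧ ∀ (Q : Finset ℤi) (R : ℝ), 1 ≤ R →
    (∀ q ∈ Q, ‖(q : ℂ)‖ ≤ R) → ∀ (r : ℝ), 0 ≤ r → ∀ (T : Finset (ℤi × ℤi × ℤi × ℤi)),
    (∀ t ∈ T, t.1 ∈ Q ∧ t.2.1 ∈ Q ∧ t.2.2.1 ∈ Q ∧ t.2.2.2 ∈ Q ∧
      ‖((t.1 ^ 2 + t.2.1 ^ 2 - t.2.2.1 ^ 2 - t.2.2.2 ^ 2 : ℤi) : ℂ)‖ ≤ r) →
    (T.card : ℝ) ≤ C * R ^ ε * (2 * r + 1) ^ 2 * (Q.card : ℝ) ^ 2 := by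
  classical
  obtain ⟨C, hC, h⟩ := energy hε
  refine ⟨C, hC, ?_⟩
  intro Q R hR hQ r hr T hT
  set g : (ℤi × ℤi × ℤi × ℤi) → ℤi := fun t => t.1 ^ 2 + t.2.1 ^ 2 - t.2.2.1 ^ 2 - t.2.2.2 ^ 2 with hg
  have h1 : T.card = ∑ n ∈ T.image g, (T.filter (fun t => g t = n)).card :=
    Finset.card_eq_sum_card_image g T
  have h2 : (((T.image g).card : ℕ) : ℝ) ≤ (2 * r + 1) ^ 2 := by
    apply card_ball_le r hr
    intro z hz
    rw [Finset.mem_image] at hz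
    obtain ⟨t, ht, rfl⟩ := hz
    exact (hT t ht).2.2.2.2
  have h3 : ∀ n ∈ T.image g, ((T.filter (fun t => g t = n)).card : ℝ) ≤ C * R ^ ε * (Q.card : ℝ) ^ 2 := by
    intro n _
    apply h Q R hR hQ n
    intro t ht
    obtain ⟨ht1, ht2⟩ := Finset.mem_filter.1 ht
    obtain ⟨ha, hb, hc, hd, _⟩ := hT t ht1
    exact ⟨ha, hb, hc, hd, ht2⟩
  have h4 : (T.card : ℝ) ≤ ((T.image g).card : ℝ) * (C * R ^ ε * (Q.card : ℝ) ^ 2) := by
    rw [h1]; push_cast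
    calc ∑ n ∈ T.image g, ((T.filter (fun t => g t = n)).card : ℝ)
        ≤ ∑ n ∈ T.image g, C * R ^ ε * (Q.card : ℝ) ^ 2 := Finset.sum_le_sum h3
      _ = _ := by rw [Finset.sum_const, nsmul_eq_mul]
  have hpos : 0 ≤ C * R ^ ε * (Q.card : ℝ) ^ 2 := by
    have : 0 ≤ R ^ ε := Real.rpow_nonneg (by linarith) _
    positivity
  calc (T.card : ℝ) ≤ ((T.image g).card : ℝ) * (C * R ^ ε * (Q.card : ℝ) ^ 2) := h4
    _ ≤ (2 * r + 1) ^ 2 * (C * R ^ ε * (Q.card : ℝ) ^ 2) := mul_le_mul_of_nonneg_right h2 hpos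
    _ = _ := by ring

end Crest.Agent.R2.Div701
end

-- ▼ part R2/End717g
section

/-!
# R2 (Gaussian moat), Theorem S, end game: glue with helper62's sets of primes and
helper701's energy bound.
-/

set_option autoImplicit false

namespace Crest.Agent.R2.E717

open Finset
open Crest.Agent.R2.Gcd62 (MM NN ab gcd_sq_dvd exists_sub_prod MM_injOn)

theorem energy_glue {ε : ℝ} (hε : 0 < ε) : ∃ E0 : ℝ, ∀ ℓ E : ℝ, E0 ≤ E → 1 ≤ ℓ → ℓ ^ ε ≤ E →
    ∀ X : Finset GaussianInt, (∀ u ∈ X, N u ≤ ℓ) →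
      ∀ P : Finset ((GaussianInt × GaussianInt) × (GaussianInt × GaussianInt)),
      (∀ p ∈ P, (p.1.1 ∈ X ∧ p.1.2 ∈ X ∧ p.2.1 ∈ X ∧ p.2.2 ∈ X) ∧
        N (p.1.1 ^ 2 + p.1.2 ^ 2 - p.2.1 ^ 2 - p.2.2 ^ 2) ≤ E ^ 2) →
      (P.card : ℝ) ≤ E ^ 6 * (X.card : ℝ) ^ 2 := by
  classical
  obtain ⟨C, hC, h⟩ := Div701.energy_window hε
  refine ⟨9 * C, fun ℓ E hE hℓ hℓE X hX P hP => ?_⟩
  have hE9 : 9 ≤ E := by linarith
  have hE0 : 0 < E := by linarith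
  set f : (GaussianInt × GaussianInt) × (GaussianInt × GaussianInt) →
      GaussianInt × GaussianInt × GaussianInt × GaussianInt :=
    fun p => (p.1.1, p.1.2, p.2.1, p.2.2) with hf
  have hinj : Set.InjOn f (P : Set ((GaussianInt × GaussianInt) × (GaussianInt × GaussianInt))) := by
    intro p _ q _ hpq
    simp only [hf, Prod.mk.injEq] at hpq
    exact Prod.ext (Prod.ext hpq.1 hpq.2.1) (Prod.ext hpq.2.2.1 hpq.2.2.2)
  have h1 := h X ℓ hℓ hX (E ^ 2) (by positivity) (P.image f) (by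
    intro t ht
    rw [Finset.mem_image] at ht
    obtain ⟨p, hp, rfl⟩ := ht
    obtain ⟨⟨a1, a2, a3, a4⟩, a5⟩ := hP p hp
    exact ⟨a1, a2, a3, a4, a5⟩)
  rw [Finset.card_image_of_injOn hinj] at h1
  refine h1.trans ?_
  refine mul_le_mul_of_nonneg_right ?_ (by positivity)
  have hℓε : 0 ≤ ℓ ^ ε := Real.rpow_nonneg (by linarith) _
  have h2 : (2 * E ^ 2 + 1) ^ 2 ≤ 9 * E ^ 4 := by
    have h3 : 2 * E ^ 2 + 1 ≤ 3 * E ^ 2 := by nlinarith
    calc (2 * E ^ 2 + 1) ^ 2 ≤ (3 * E ^ 2) ^ 2 := pow_le_pow_left₀ (by positivity) h3 2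
      _ = 9 * E ^ 4 := by ring
  calc C * ℓ ^ ε * (2 * E ^ 2 + 1) ^ 2 ≤ C * E * (9 * E ^ 4) := by
        refine mul_le_mul (mul_le_mul_of_nonneg_left hℓE (by linarith)) h2 (by positivity)
          (by positivity)
    _ = (9 * C) * E ^ 5 := by ring
    _ ≤ E * E ^ 5 := mul_le_mul_of_nonneg_right hE (by positivity)
    _ = E ^ 6 := by ring

/-- **End game of Theorem S** in terms of a family `F` of sets of primes. -/
theorem endgame_sets {ε : ℝ} (hε : 0 < ε) : ∃ E0 : ℝ, ∀ ℓ E : ℝ, E0 ≤ E → E ^ 130 ≤ ℓ →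
    ℓ ^ ε ≤ E →
    ∀ (G : Finset GaussianInt), (∀ p ∈ G, Prime p) →
    (∀ p ∈ G, ∀ q ∈ G, Associated p q → p = q) →
    ∀ (b : GaussianInt → GaussianInt), (∀ p ∈ G, ¬ p ∣ b p) →
    ∀ (w : ℝ), 1 ≤ w → 2 * w ≤ E → (∀ p ∈ G, ab p ≤ 2 * w) →
    ∀ (c : GaussianInt), c ≠ 0 → ab c ≤ E →
    ∀ (F : Finset (Finset GaussianInt)), (∀ S ∈ F, S ⊆ G) → (∀ S ∈ F, MM S ∣ NN b S - c) →
    (∀ S ∈ F, ℓ ^ 4 / E ≤ ab (MM S)) → (∀ S ∈ F, ab (MM S) ≤ ℓ ^ 4 * E) →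
    (ℓ ^ 4 / E ≤ (F.card : ℝ)) →
    ∀ (A3 : Finset GaussianInt) (m3 : GaussianInt → ℝ),
    (∀ z ∈ A3, 0 ≤ m3 z) → (∑ z ∈ A3, m3 z = 1) → (∀ z ∈ A3, N z ≤ ℓ ^ 6) →
    (∀ v : GaussianInt, ∀ B ⊆ A3, (∀ z ∈ B, N (z - v) ≤ ℓ ^ 4) → ∑ z ∈ B, m3 z ≤ E / ℓ ^ 2) →
    (∀ S ∈ F, 1 / E ≤ ‖mhat A3 m3 ((c : ℂ) / (MM S : GaussianInt))‖) →
    ∀ (A2 : Finset GaussianInt) (m2 : GaussianInt → ℝ),
    (∀ z ∈ A2, 0 ≤ m2 z) → (∑ z ∈ A2, m2 z = 1) → (∀ z ∈ A2, N z ≤ ℓ ^ 8) →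
    (∀ v : GaussianInt, ∀ B ⊆ A2, (∀ z ∈ B, N (z - v) ≤ ℓ ^ 6) → ∑ z ∈ B, m2 z ≤ E / ℓ ^ 2) →
    (∀ S ∈ F, 1 / E ≤ ‖mhat A2 m2 ((c : ℂ) / (MM S : GaussianInt))‖) → False := by
  classical
  obtain ⟨E0, h0⟩ := energy_glue hε
  refine ⟨max E0 (10 ^ 4), ?_⟩
  intro ℓ E hE hℓ hℓE G hG hass b hb w hw1 hwE hw c hc0 hc F hF hFc hFlow hFup hFcard
    A3 m3 hm3 hsum3 hA3 hP3 hbig3 A2 m2 hm2 hsum2 hA2 hP2 hbig2
  have hE4 : 10 ^ 4 ≤ E := (le_max_right _ _).trans hE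
  have hE00 : E0 ≤ E := (le_max_left _ _).trans hE
  have hE1 : 1 ≤ E := by linarith
  have hEpos : 0 < E := by linarith
  have hℓ1 : 1 ≤ ℓ := le_trans (one_le_pow₀ hE1) hℓ
  have hinj : Set.InjOn MM (F : Set (Finset GaussianInt)) := by
    intro S hS S' hS' h
    exact MM_injOn hG hass (hF S hS) (hF S' hS') h
  refine endgame ℓ E hE4 hℓ (F.image MM) c hc0 hc ?_ ?_ ?_
    (fun q M => ∃ S ∈ F, ∃ D ⊆ S, M = MM S ∧ q = MM D) ?_ ?_
    A3 m3 hm3 hsum3 hA3 hP3 ?_ A2 m2 hm2 hsum2 hA2 hP2 ?_ (h0 ℓ E hE00 hℓ1 hℓE)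
  · intro M hM
    rw [Finset.mem_image] at hM
    obtain ⟨S, hS, rfl⟩ := hM
    exact hFlow S hS
  · intro M hM
    rw [Finset.mem_image] at hM
    obtain ⟨S, hS, rfl⟩ := hM
    exact hFup S hS
  · rw [Finset.card_image_of_injOn hinj]
    exact hFcard
  · intro M hM Q hQ1 hQℓ
    rw [Finset.mem_image] at hM
    obtain ⟨S, hS, rfl⟩ := hM
    have hQM : Q ≤ ab (MM S) := by
      refine hQℓ.trans (le_trans ?_ (hFlow S hS))
      rw [le_div_iff₀ hEpos]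
      have h1 : E ≤ ℓ := by
        have : E ^ 1 ≤ E ^ 130 := pow_le_pow_right₀ hE1 (by norm_num)
        linarith
      have h2 : ℓ * E ≤ ℓ * ℓ := mul_le_mul_of_nonneg_left h1 (by linarith)
      have h3 : ℓ ^ 2 ≤ ℓ ^ 4 := pow_le_pow_right₀ hℓ1 (by norm_num)
      nlinarith
    obtain ⟨D, hD, h1, h2⟩ := exists_sub_prod hw1 S (fun p hp => hw p (hF S hS hp)) hQ1 hQM
    refine ⟨MM D, ⟨S, hS, D, hD, rfl, rfl⟩, h1, h2.trans ?_⟩
    exact mul_le_mul_of_nonneg_right hwE (by linarith)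
  · rintro M - M' - q ⟨S, hS, D, hD, rfl, rfl⟩ ⟨S', hS', D', hD', rfl, hDD⟩
    have hDeq : D = D' := MM_injOn hG hass (hD.trans (hF S hS)) (hD'.trans (hF S' hS')) hDD
    subst hDeq
    exact gcd_sq_dvd hG hass hb (hF S hS) hD hD' (hFc S hS) (hFc S' hS')
  · intro M hM
    rw [Finset.mem_image] at hM
    obtain ⟨S, hS, rfl⟩ := hM
    exact hbig3 S hS
  · intro M hM
    rw [Finset.mem_image] at hM
    obtain ⟨S, hS, rfl⟩ := hM
    exact hbig2 S hS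

end Crest.Agent.R2.E717
end

-- ▼ part R2/ThmS717

/-!
# R2 (Gaussian moat): **Theorem S** (helper21, #10973 / #10987), complete.

Glue of helper507's `front` and `endgame_sets`.
-/

set_option autoImplicit false

namespace Crest.Agent.R2

open Finset
open Crest.Agent.R2.Gcd62 (MM NN ab)

namespace E717

theorem mhat_eq_ft750 (A : Finset GaussianInt) (m : GaussianInt → ℝ) (x : ℂ) :
    mhat A m x = M750.ft A m x := by
  unfold mhat M750.ft
  refine Finset.sum_congr rfl fun z _ => ?_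
  congr 1
  unfold chi M750.chi M750.e1
  congr 1
  ring

/-- translate of a finite weight -/
theorem mhat_translate (A : Finset GaussianInt) (m : GaussianInt → ℝ) (v : GaussianInt) (x : ℂ) :
    ‖mhat (A.map ⟨fun z => z - v, sub_left_injective⟩) (fun z => m (z + v)) x‖ = ‖mhat A m x‖ := by
  have h : mhat (A.map ⟨fun z => z - v, sub_left_injective⟩) (fun z => m (z + v)) x
      = chi (-v) x * mhat A m x := by
    unfold mhat
    rw [Finset.sum_map, Finset.mul_sum]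
    refine Finset.sum_congr rfl fun z _ => ?_
    simp only [Function.Embedding.coeFn_mk, sub_add_cancel]
    have : chi (z - v) x = chi (-v) x * chi z x := by
      unfold chi
      rw [← Complex.exp_add]
      congr 1
      rw [GaussianInt.toComplex_sub, GaussianInt.toComplex_neg]
      simp only [sub_mul, neg_mul, Complex.sub_re, Complex.neg_re, Complex.ofReal_sub,
        Complex.ofReal_neg]
      ring
    rw [this]
    ring
  rw [h, norm_mul, norm_chi, one_mul]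

end E717

open E717

/-- Finite probability measures on `ℤ[i]`: a finset and a weight. -/
structure IsProbOn (A : Finset GaussianInt) (m : GaussianInt → ℝ) : Prop where
  nonneg : ∀ z ∈ A, 0 ≤ m z
  sum_one : ∑ z ∈ A, m z = 1

set_option maxHeartbeats 1000000 in
/-- **Theorem S** (helper21).  There are no three one-dimensional measures at the scales
`e^U, e^{3U/2}, e^{2U}` with a common Fourier bias `≥ w^{-ε}` at `w^{2-ε}` primes of size `w`. -/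
theorem theoremS (ε : ℝ) (hε : 0 < ε) (hε1 : ε ≤ 1 / 40000) :
    ∃ U0 : ℝ, ∀ U w : ℝ, U0 ≤ U → 0 < w → Real.log U ≤ ε * Real.log w →
      Real.log w ≤ ε ^ 2 * U →
    ∀ (G : Finset GaussianInt), (∀ p ∈ G, Prime p) →
    (∀ p ∈ G, ∀ q ∈ G, Associated p q → p = q) →
    (∀ p ∈ G, w ≤ ab p) → (∀ p ∈ G, ab p ≤ 2 * w) →
    Real.exp ((2 - ε) * Real.log w) ≤ G.card →
    ∀ (a : GaussianInt → GaussianInt), (∀ p ∈ G, ¬ p ∣ a p) →
    ∀ (A₁ A₂ A₃ : Finset GaussianInt) (m₁ m₂ m₃ : GaussianInt → ℝ) (v₁ v₂ v₃ : GaussianInt),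
    IsProbOn A₁ m₁ → IsProbOn A₂ m₂ → IsProbOn A₃ m₃ →
    (∀ z ∈ A₁, ab (z - v₁) ≤ Real.exp U) →
    (∀ z ∈ A₂, ab (z - v₂) ≤ Real.exp (3 / 2 * U)) →
    (∀ z ∈ A₃, ab (z - v₃) ≤ Real.exp (2 * U)) →
    (∀ z ∈ A₁, m₁ z ≤ Real.exp (-((1 - ε) * U))) →
    (∀ x : GaussianInt, ∀ B ⊆ A₂, (∀ z ∈ B, ab (z - x) ≤ Real.exp U) →
      ∑ z ∈ B, m₂ z ≤ Real.exp (-((1 / 2 - ε) * U))) →
    (∀ x : GaussianInt, ∀ B ⊆ A₃, (∀ z ∈ B, ab (z - x) ≤ Real.exp (3 / 2 * U)) →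
      ∑ z ∈ B, m₃ z ≤ Real.exp (-((1 / 2 - ε) * U))) →
    (∀ p ∈ G, Real.exp (-(ε * Real.log w)) ≤
      ‖mhat A₁ m₁ (GaussianInt.toComplex (a p) / GaussianInt.toComplex p)‖) →
    (∀ p ∈ G, Real.exp (-(ε * Real.log w)) ≤
      ‖mhat A₂ m₂ (GaussianInt.toComplex (a p) / GaussianInt.toComplex p)‖) →
    (∀ p ∈ G, Real.exp (-(ε * Real.log w)) ≤
      ‖mhat A₃ m₃ (GaussianInt.toComplex (a p) / GaussianInt.toComplex p)‖) →
    False := by
  classical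
  obtain ⟨E0, hend⟩ := endgame_sets hε
  refine ⟨max (100 / ε) (Real.log (max E0 1) / (62 * ε)), ?_⟩
  intro U w hU hw0 hwlow hwup G hG hass hwl hwu hn a ha A₁ A₂ A₃ m₁ m₂ m₃ v₁ v₂ v₃ hp₁ hp₂ hp₃
    hs₁ hs₂ hs₃ hP₁ hP₂ hP₃ hF₁ hF₂ hF₃
  have hU1 : 100 / ε ≤ U := (le_max_left _ _).trans hU
  have hU2 : Real.log (max E0 1) / (62 * ε) ≤ U := (le_max_right _ _).trans hU
  have hUε : 100 ≤ ε * U := by
    rw [div_le_iff₀ hε] at hU1; linarith
  have hU0 : 0 < U := lt_of_lt_of_le (by positivity) hU1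
  -- translated measures
  set T2 : Finset GaussianInt := A₂.map ⟨fun z => z - v₂, sub_left_injective⟩ with hT2
  set T3 : Finset GaussianInt := A₃.map ⟨fun z => z - v₃, sub_left_injective⟩ with hT3
  obtain ⟨b, c, F, hb, hc0, hc, hF, hFcard⟩ := F507.front ε U w hε (by linarith) hUε hw0 hwlow hwup
    G hG hass hwl hwu hn a ha A₁ A₂ A₃ m₁ m₂ m₃ hp₁.nonneg hp₂.nonneg hp₃.nonneg
    hp₁.sum_one hp₂.sum_one hp₃.sum_one
    (by
      intro z hz z' hz'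
      have h1 := hs₁ z hz
      have h2 := hs₁ z' hz'
      have h3 := N_sub_le_sub z v₁ z'
      rw [N_sub_comm v₁ z'] at h3
      change N (z - z') ≤ _
      change N (z - v₁) ≤ _ at h1
      change N (z' - v₁) ≤ _ at h2
      linarith)
    hP₁
    (fun p hp => by rw [← mhat_eq_ft750]; exact hF₁ p hp)
    (fun p hp => by rw [← mhat_eq_ft750]; exact hF₂ p hp)
    (fun p hp => by rw [← mhat_eq_ft750]; exact hF₃ p hp)
  -- parameters
  have hℓ4 : Real.exp (U / 4) ^ 4 = Real.exp U := by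
    rw [← Real.exp_nat_mul]; congr 1; push_cast; ring
  have hℓ6 : Real.exp (U / 4) ^ 6 = Real.exp (3 / 2 * U) := by
    rw [← Real.exp_nat_mul]; congr 1; push_cast; ring
  have hℓ8 : Real.exp (U / 4) ^ 8 = Real.exp (2 * U) := by
    rw [← Real.exp_nat_mul]; congr 1; push_cast; ring
  have hℓ2 : Real.exp (U / 4) ^ 2 = Real.exp (U / 2) := by
    rw [← Real.exp_nat_mul]; congr 1; push_cast; ring
  have hwexp : 2 * w ≤ Real.exp (62 * ε * U) := by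
    have h1 : Real.log (2 * w) ≤ 62 * ε * U := by
      rw [Real.log_mul (by norm_num) hw0.ne']
      have h2 : Real.log 2 ≤ 1 := by
        have := Real.log_two_lt_d9
        linarith
      have h3 : ε ^ 2 * U ≤ ε * U := by
        have : ε ^ 2 ≤ ε := by nlinarith
        exact mul_le_mul_of_nonneg_right this hU0.le
      nlinarith
    rwa [Real.log_le_iff_le_exp (by positivity)] at h1
  have hwge1 : 1 ≤ w := by
    by_contra h
    push Not at h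
    have h1 : Real.log w < 0 := Real.log_neg hw0 h
    have h2 : 0 < Real.log U := by
      refine Real.log_pos ?_
      have : (1 : ℝ) < 100 / ε := by
        rw [lt_div_iff₀ hε]; linarith
      linarith
    nlinarith
  have hE0' : E0 ≤ Real.exp (62 * ε * U) := by
    have h1 : Real.log (max E0 1) ≤ 62 * ε * U := by
      rw [div_le_iff₀ (by positivity)] at hU2
      linarith
    have h2 : (0 : ℝ) < max E0 1 := lt_of_lt_of_le one_pos (le_max_right _ _)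
    rw [Real.log_le_iff_le_exp h2] at h1
    exact (le_max_left _ _).trans h1
  refine hend (Real.exp (U / 4)) (Real.exp (62 * ε * U)) hE0' ?_ ?_ G hG hass b hb w hwge1 hwexp hwu
    c hc0 ?_ F (fun S hS => (hF S hS).1) (fun S hS => (hF S hS).2.1) ?_ ?_ ?_
    T2 (fun z => m₂ (z + v₂)) ?_ ?_ ?_ ?_ ?_ T3 (fun z => m₃ (z + v₃)) ?_ ?_ ?_ ?_ ?_
  · rw [← Real.exp_nat_mul]
    apply Real.exp_le_exp.mpr
    push_cast
    nlinarith
  · rw [← Real.exp_mul]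
    apply Real.exp_le_exp.mpr
    nlinarith
  · refine hc.trans (Real.exp_le_exp.mpr ?_)
    nlinarith
  · intro S hS
    rw [hℓ4, ← Real.exp_sub]
    refine le_trans (Real.exp_le_exp.mpr ?_) (hF S hS).2.2.1
    nlinarith
  · intro S hS
    rw [hℓ4, ← Real.exp_add]
    refine (hF S hS).2.2.2.1.trans (Real.exp_le_exp.mpr ?_)
    nlinarith
  · rw [hℓ4, ← Real.exp_sub]
    refine le_trans (Real.exp_le_exp.mpr ?_) hFcard
    nlinarith
  · intro z hz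
    rw [hT2, Finset.mem_map] at hz
    obtain ⟨y, hy, rfl⟩ := hz
    simpa using hp₂.nonneg y hy
  · rw [hT2, Finset.sum_map]
    simpa using hp₂.sum_one
  · intro z hz
    rw [hT2, Finset.mem_map] at hz
    obtain ⟨y, hy, rfl⟩ := hz
    rw [hℓ6]
    exact hs₂ y hy
  · intro x B hB hBx
    rw [hℓ4] at hBx
    have h1 := hP₂ (x + v₂) (B.map ⟨fun z => z + v₂, add_left_injective v₂⟩) ?_ ?_
    · rw [Finset.sum_map] at h1
      refine h1.trans (le_of_eq_of_le rfl ?_)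
      rw [hℓ2, ← Real.exp_sub]
      apply Real.exp_le_exp.mpr
      nlinarith
    · intro z hz
      rw [Finset.mem_map] at hz
      obtain ⟨y, hy, rfl⟩ := hz
      have := hB hy
      rw [hT2, Finset.mem_map] at this
      obtain ⟨u, hu, rfl⟩ := this
      simpa using hu
    · intro z hz
      rw [Finset.mem_map] at hz
      obtain ⟨y, hy, rfl⟩ := hz
      have := hBx y hy
      simpa using this
  · intro S hS
    rw [mhat_translate, mhat_eq_ft750]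
    refine le_trans ?_ (hF S hS).2.2.2.2.1
    rw [one_div, ← Real.exp_neg]
    apply Real.exp_le_exp.mpr
    nlinarith
  · intro z hz
    rw [hT3, Finset.mem_map] at hz
    obtain ⟨y, hy, rfl⟩ := hz
    simpa using hp₃.nonneg y hy
  · rw [hT3, Finset.sum_map]
    simpa using hp₃.sum_one
  · intro z hz
    rw [hT3, Finset.mem_map] at hz
    obtain ⟨y, hy, rfl⟩ := hz
    rw [hℓ8]
    exact hs₃ y hy
  · intro x B hB hBx
    rw [hℓ6] at hBx
    have h1 := hP₃ (x + v₃) (B.map ⟨fun z => z + v₃, add_left_injective v₃⟩) ?_ ?_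
    · rw [Finset.sum_map] at h1
      refine h1.trans (le_of_eq_of_le rfl ?_)
      rw [hℓ2, ← Real.exp_sub]
      apply Real.exp_le_exp.mpr
      nlinarith
    · intro z hz
      rw [Finset.mem_map] at hz
      obtain ⟨y, hy, rfl⟩ := hz
      have := hB hy
      rw [hT3, Finset.mem_map] at this
      obtain ⟨u, hu, rfl⟩ := this
      simpa using hu
    · intro z hz
      rw [Finset.mem_map] at hz
      obtain ⟨y, hy, rfl⟩ := hz
      have := hBx y hy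
      simpa using this
  · intro S hS
    rw [mhat_translate, mhat_eq_ft750]
    refine le_trans ?_ (hF S hS).2.2.2.2.2
    rw [one_div, ← Real.exp_neg]
    apply Real.exp_le_exp.mpr
    nlinarith

end Crest.Agent.R2
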