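import Crest.Agent.R2.Spec750
import Crest.Agent.R2.Cell937c_Mg
import Crest.Agent.R2.ThmS717
import Crest.Agent.R2.Shape911

-- ▼ part R2/B488a
section

set_option autoImplicit false
set_option maxHeartbeats 400000

open Complex Finset
open scoped Real

namespace Crest.Agent.R2.B488

open Crest.Agent.R2.M750

variable {ι : Type*}

/-! ### (LS) large sieve on a box -/

/-- **(LS)** large sieve inequality: `r`-separated frequencies, sum over a box of half side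
`1/(2r)` around `z`. -/
theorem large_sieve {r : ℝ} (hr : 0 < r) (hr2 : r ≤ 1 / 2) (T : Finset ι) (c x : ι → ℂ)
    (hsep : ∀ i ∈ T, ∀ j ∈ T, i ≠ j → ¬ inR r (x i - x j))
    (z : GaussianInt) (V : Finset GaussianInt)
    (hV : ∀ v ∈ V, |(v.re : ℝ) - z.re| * (2 * r) ≤ 1 ∧ |(v.im : ℝ) - z.im| * (2 * r) ≤ 1) :
    ∑ v ∈ V, ‖∑ i ∈ T, c i * chi v (x i)‖ ^ 2 ≤ 10 / r ^ 2 * ∑ i ∈ T, ‖c i‖ ^ 2 := by
  classical
  have h := sum_box_le hr hr2 T c x z (V.map ⟨fun v => v - z, sub_left_injective⟩) (by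
    intro v hv
    rw [Finset.mem_map] at hv
    obtain ⟨u, hu, rfl⟩ := hv
    have := hV u hu
    simpa using this)
  rw [Finset.sum_map] at h
  simp only [Function.Embedding.coeFn_mk, add_sub_cancel] at h
  refine le_trans h ?_
  rw [div_mul_eq_mul_div, mul_div_assoc]
  refine mul_le_mul_of_nonneg_left ?_ (by norm_num)
  rw [Finset.sum_div]
  refine Finset.sum_le_sum fun i hi => ?_
  rw [Finset.sum_eq_single i]
  · calc ‖c i‖ * ‖c i‖ * phi r (x i - x i) ≤ ‖c i‖ * ‖c i‖ * (1 / r ^ 2) := by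
          gcongr
          exact phi_le hr _
      _ = ‖c i‖ ^ 2 / r ^ 2 := by ring
  · intro j hj hji
    rw [phi_eq_zero hr (hsep i hi j hj hji.symm), mul_zero]
  · intro h; exact absurd hi h

/-! ### (KER) the box kernel -/

/-- the box `[0,R)²` in `ℤ[i]` -/
def bx (R : ℕ) : Finset GaussianInt :=
  (Finset.range R ×ˢ Finset.range R).map
    ⟨fun p => (⟨p.1, p.2⟩ : GaussianInt), by
      intro p q h
      have h1 := congrArg Zsqrtd.re h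
      have h2 := congrArg Zsqrtd.im h
      simp only [Nat.cast_inj] at h1 h2
      exact Prod.ext h1 h2⟩

theorem mem_bx {R : ℕ} {h : GaussianInt} :
    h ∈ bx R ↔ (0 ≤ h.re ∧ h.re < R) ∧ (0 ≤ h.im ∧ h.im < R) := by
  unfold bx
  simp only [Finset.mem_map, Finset.mem_product, Finset.mem_range, Function.Embedding.coeFn_mk]
  constructor
  · rintro ⟨p, ⟨h1, h2⟩, rfl⟩
    simp only
    omega
  · rintro ⟨⟨h1, h2⟩, h3, h4⟩
    refine ⟨(h.re.toNat, h.im.toNat), ⟨by simp only; omega, by simp only; omega⟩, ?_⟩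
    apply Zsqrtd.ext <;> simp only <;> omega

theorem card_bx (R : ℕ) : (bx R).card = R ^ 2 := by
  unfold bx
  rw [Finset.card_map, Finset.card_product, Finset.card_range, sq]

/-- the kernel -/
noncomputable def kap (R : ℕ) (η : ℂ) : ℂ := (1 / (R : ℂ) ^ 2) * ∑ h ∈ bx R, chi h η

/-- **(KER)** -/
theorem kap_lower {R : ℕ} (hR : 0 < R) {η : ℂ} (h1 : |η.re| * (8 * R) ≤ 1)
    (h2 : |η.im| * (8 * R) ≤ 1) : 1 / 2 ≤ ‖kap R η‖ := by
  have hR' : (0 : ℝ) < R := by exact_mod_cast hR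
  obtain ⟨c, hc⟩ : ∃ c : ℝ, c = (R : ℝ) / 2 * η.re - (R : ℝ) / 2 * η.im := ⟨_, rfl⟩
  have key : ∀ h ∈ bx R, 1 / 2 ≤ (e1 (-c) * chi h η).re := by
    intro h hh
    rw [mem_bx] at hh
    obtain ⟨⟨a1, a2⟩, b1, b2⟩ := hh
    have a1' : (0 : ℝ) ≤ h.re := by exact_mod_cast a1
    have a2' : (h.re : ℝ) ≤ R := by exact_mod_cast a2.le
    have b1' : (0 : ℝ) ≤ h.im := by exact_mod_cast b1
    have b2' : (h.im : ℝ) ≤ R := by exact_mod_cast b2.le
    have e : e1 (-c) * chi h η = e1 (((h.re : ℝ) - R / 2) * η.re - ((h.im : ℝ) - R / 2) * η.im) := by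
      unfold chi
      rw [← e1_add, Complex.mul_re, ← GaussianInt.intCast_re, ← GaussianInt.intCast_im, hc]
      congr 1
      ring
    rw [e, e1_re]
    obtain ⟨s, hs⟩ : ∃ s : ℝ, s = ((h.re : ℝ) - R / 2) * η.re - ((h.im : ℝ) - R / 2) * η.im :=
      ⟨_, rfl⟩
    rw [← hs]
    have hs1 : |s| ≤ 1 / 8 := by
      have g1 : |((h.re : ℝ) - R / 2) * η.re| ≤ 1 / 16 := by
        rw [abs_mul]
        have : |(h.re : ℝ) - R / 2| ≤ R / 2 := by rw [abs_le]; constructor <;> linarith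
        calc |(h.re : ℝ) - R / 2| * |η.re| ≤ (R / 2) * |η.re| := by gcongr
          _ ≤ 1 / 16 := by nlinarith
      have g2 : |((h.im : ℝ) - R / 2) * η.im| ≤ 1 / 16 := by
        rw [abs_mul]
        have : |(h.im : ℝ) - R / 2| ≤ R / 2 := by rw [abs_le]; constructor <;> linarith
        calc |(h.im : ℝ) - R / 2| * |η.im| ≤ (R / 2) * |η.im| := by gcongr
          _ ≤ 1 / 16 := by nlinarith
      rw [hs]
      rw [abs_le] at g1 g2 ⊢
      constructor <;> linarith [g1.1, g1.2, g2.1, g2.2]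
    have hpi := Real.pi_pos
    rw [← Real.cos_pi_div_three, ← Real.cos_abs (2 * π * s)]
    apply Real.cos_le_cos_of_nonneg_of_le_pi (abs_nonneg _) (by linarith)
    rw [abs_mul, abs_of_pos (by positivity)]
    nlinarith
  have h3 : (R : ℝ) ^ 2 / 2 ≤ (e1 (-c) * ∑ h ∈ bx R, chi h η).re := by
    rw [Finset.mul_sum, Complex.re_sum]
    calc (R : ℝ) ^ 2 / 2 = ∑ h ∈ bx R, (1 / 2 : ℝ) := by
          rw [Finset.sum_const, card_bx, nsmul_eq_mul]; push_cast; ring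
      _ ≤ _ := Finset.sum_le_sum key
  have h4 : (R : ℝ) ^ 2 / 2 ≤ ‖∑ h ∈ bx R, chi h η‖ := by
    calc (R : ℝ) ^ 2 / 2 ≤ (e1 (-c) * ∑ h ∈ bx R, chi h η).re := h3
      _ ≤ ‖e1 (-c) * ∑ h ∈ bx R, chi h η‖ := Complex.re_le_norm _
      _ = ‖∑ h ∈ bx R, chi h η‖ := by rw [norm_mul, norm_e1, one_mul]
  unfold kap
  rw [norm_mul, norm_div, norm_one, norm_pow, Complex.norm_natCast]
  rw [one_div_mul_eq_div, le_div_iff₀ (by positivity)]
  linarith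

theorem kap_ne_zero {R : ℕ} (hR : 0 < R) {η : ℂ} (h1 : |η.re| * (8 * R) ≤ 1)
    (h2 : |η.im| * (8 * R) ≤ 1) : kap R η ≠ 0 := by
  intro h
  have := kap_lower hR h1 h2
  rw [h, norm_zero] at this
  linarith

/-! ### (SM) smoothing -/

/-- the smoothed weight `om v = R⁻² ∑_{h ∈ box} μ(v+h)` (with `μ` restricted to `Z`) -/
noncomputable def om (Z : Finset GaussianInt) (μ : GaussianInt → ℝ) (R : ℕ) (v : GaussianInt) : ℝ :=
  (1 / (R : ℝ) ^ 2) * ∑ h ∈ bx R, if v + h ∈ Z then μ (v + h) else 0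

/-- the support of `om` -/
noncomputable def Zb (Z : Finset GaussianInt) (R : ℕ) : Finset GaussianInt :=
  (Z ×ˢ bx R).image fun p => p.1 - p.2

theorem mem_Zb {Z : Finset GaussianInt} {R : ℕ} {v : GaussianInt} :
    v ∈ Zb Z R ↔ ∃ h ∈ bx R, v + h ∈ Z := by
  unfold Zb
  rw [Finset.mem_image]
  constructor
  · rintro ⟨p, hp, rfl⟩
    rw [Finset.mem_product] at hp
    exact ⟨p.2, hp.2, by simpa using hp.1⟩
  · rintro ⟨h, hh, hv⟩
    exact ⟨(v + h, h), Finset.mem_product.mpr ⟨hv, hh⟩, by simp⟩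


/-- change of variables `v = z - h` -/
theorem sum_shift {M : Type*} [AddCommMonoid M] (Z : Finset GaussianInt) (R : ℕ)
    (f : GaussianInt → GaussianInt → M) :
    ∑ z ∈ Z, ∑ h ∈ bx R, f z h =
      ∑ v ∈ Zb Z R, ∑ h ∈ bx R, if v + h ∈ Z then f (v + h) h else 0 := by
  classical
  rw [← Finset.sum_product', ← Finset.sum_product', ← Finset.sum_filter]
  refine Finset.sum_bij' (fun p _ => (p.1 - p.2, p.2)) (fun p _ => (p.1 + p.2, p.2)) ?_ ?_ ?_ ?_ ?_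
  · intro p hp
    rw [Finset.mem_product] at hp
    rw [Finset.mem_filter, Finset.mem_product]
    refine ⟨⟨mem_Zb.mpr ⟨p.2, hp.2, ?_⟩, hp.2⟩, ?_⟩ <;> simpa using hp.1
  · intro p hp
    rw [Finset.mem_filter, Finset.mem_product] at hp
    rw [Finset.mem_product]
    exact ⟨hp.2, hp.1.2⟩
  · intro p _; simp
  · intro p _; simp
  · intro p _; simp

/-- the mollified coefficients -/
noncomputable def tl (R : ℕ) (a x : ι → ℂ) (i : ι) : ℂ := a i / kap R (-x i)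

theorem avg_tl {R : ℕ} (hR : 0 < R) (T : Finset ι) (a x : ι → ℂ)
    (hx : ∀ i ∈ T, |(x i).re| * (8 * R) ≤ 1 ∧ |(x i).im| * (8 * R) ≤ 1) (v : GaussianInt) :
    (1 / (R : ℂ) ^ 2) * ∑ h ∈ bx R, ∑ i ∈ T, tl R a x i * chi (v - h) (x i) =
      ∑ i ∈ T, a i * chi v (x i) := by
  rw [Finset.sum_comm, Finset.mul_sum]
  refine Finset.sum_congr rfl fun i hi => ?_
  have hk : kap R (-x i) ≠ 0 := kap_ne_zero hR (by simpa using (hx i hi).1) (by simpa using (hx i hi).2)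
  have e : ∑ h ∈ bx R, tl R a x i * chi (v - h) (x i) =
      tl R a x i * chi v (x i) * ∑ h ∈ bx R, chi h (-x i) := by
    rw [Finset.mul_sum]
    refine Finset.sum_congr rfl fun h _ => ?_
    rw [chi_sub_left, chi_neg_right]
    ring
  rw [e]
  have e2 : (1 / (R : ℂ) ^ 2) * (tl R a x i * chi v (x i) * ∑ h ∈ bx R, chi h (-x i)) =
      tl R a x i * chi v (x i) * kap R (-x i) := by
    unfold kap; ring
  rw [e2, tl]
  field_simp

theorem sum_tl_sq {R : ℕ} (hR : 0 < R) (T : Finset ι) (a x : ι → ℂ)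
    (hx : ∀ i ∈ T, |(x i).re| * (8 * R) ≤ 1 ∧ |(x i).im| * (8 * R) ≤ 1) :
    ∑ i ∈ T, ‖tl R a x i‖ ^ 2 ≤ 4 * ∑ i ∈ T, ‖a i‖ ^ 2 := by
  rw [Finset.mul_sum]
  refine Finset.sum_le_sum fun i hi => ?_
  have hk := kap_lower hR (η := -x i) (by simpa using (hx i hi).1) (by simpa using (hx i hi).2)
  unfold tl
  rw [norm_div, div_pow, div_le_iff₀ (by positivity)]
  have : 1 / 4 ≤ ‖kap R (-x i)‖ ^ 2 := by nlinarith
  nlinarith [sq_nonneg ‖a i‖]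

/-- **(SM)** -/
theorem smooth {R : ℕ} (hR : 0 < R) (Z : Finset GaussianInt) (μ : GaussianInt → ℝ)
    (hμ : ∀ z ∈ Z, 0 ≤ μ z) (T : Finset ι) (a x : ι → ℂ)
    (hx : ∀ i ∈ T, |(x i).re| * (8 * R) ≤ 1 ∧ |(x i).im| * (8 * R) ≤ 1) :
    ∑ z ∈ Z, μ z * ‖∑ i ∈ T, a i * chi z (x i)‖ ^ 2 ≤
      ∑ v ∈ Zb Z R, om Z μ R v * ‖∑ i ∈ T, tl R a x i * chi v (x i)‖ ^ 2 := by
  have hR' : (0 : ℝ) < R := by exact_mod_cast hR
  have h1 : ∀ z, ‖∑ i ∈ T, a i * chi z (x i)‖ ^ 2 ≤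
      (1 / (R : ℝ) ^ 2) * ∑ h ∈ bx R, ‖∑ i ∈ T, tl R a x i * chi (z - h) (x i)‖ ^ 2 := by
    intro z
    rw [← avg_tl hR T a x hx z, norm_mul, mul_pow]
    have hn : ‖(1 / (R : ℂ) ^ 2)‖ = 1 / (R : ℝ) ^ 2 := by
      rw [norm_div, norm_one, norm_pow, Complex.norm_natCast]
    rw [hn]
    have h2 : ‖∑ h ∈ bx R, ∑ i ∈ T, tl R a x i * chi (z - h) (x i)‖ ^ 2 ≤
        (R : ℝ) ^ 2 * ∑ h ∈ bx R, ‖∑ i ∈ T, tl R a x i * chi (z - h) (x i)‖ ^ 2 := by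
      calc ‖∑ h ∈ bx R, ∑ i ∈ T, tl R a x i * chi (z - h) (x i)‖ ^ 2
          ≤ (∑ h ∈ bx R, ‖∑ i ∈ T, tl R a x i * chi (z - h) (x i)‖) ^ 2 := by
            gcongr
            exact norm_sum_le _ _
        _ ≤ ((bx R).card : ℝ) * ∑ h ∈ bx R, ‖∑ i ∈ T, tl R a x i * chi (z - h) (x i)‖ ^ 2 :=
            sq_sum_le_card_mul_sum_sq
        _ = _ := by rw [card_bx]; push_cast; ring
    calc (1 / (R : ℝ) ^ 2) ^ 2 * ‖∑ h ∈ bx R, ∑ i ∈ T, tl R a x i * chi (z - h) (x i)‖ ^ 2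
        ≤ (1 / (R : ℝ) ^ 2) ^ 2 *
          ((R : ℝ) ^ 2 * ∑ h ∈ bx R, ‖∑ i ∈ T, tl R a x i * chi (z - h) (x i)‖ ^ 2) := by
          gcongr
      _ = _ := by field_simp
  calc ∑ z ∈ Z, μ z * ‖∑ i ∈ T, a i * chi z (x i)‖ ^ 2
      ≤ ∑ z ∈ Z, μ z * ((1 / (R : ℝ) ^ 2) *
          ∑ h ∈ bx R, ‖∑ i ∈ T, tl R a x i * chi (z - h) (x i)‖ ^ 2) := by
        refine Finset.sum_le_sum fun z hz => ?_
        exact mul_le_mul_of_nonneg_left (h1 z) (hμ z hz)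
    _ = ∑ z ∈ Z, ∑ h ∈ bx R, (1 / (R : ℝ) ^ 2) * (μ z *
          ‖∑ i ∈ T, tl R a x i * chi (z - h) (x i)‖ ^ 2) := by
        refine Finset.sum_congr rfl fun z _ => ?_
        rw [Finset.mul_sum, Finset.mul_sum]
        refine Finset.sum_congr rfl fun h _ => ?_
        ring
    _ = _ := by
        rw [sum_shift]
        refine Finset.sum_congr rfl fun v _ => ?_
        unfold om
        rw [Finset.mul_sum, Finset.sum_mul]
        refine Finset.sum_congr rfl fun h _ => ?_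
        split_ifs with hh
        · rw [add_sub_cancel_right]; ring
        · simp

end Crest.Agent.R2.B488
end

-- ▼ part R2/B488b
section

set_option autoImplicit false
set_option maxHeartbeats 400000

open Complex Finset
open scoped Real

namespace Crest.Agent.R2.B488

open Crest.Agent.R2.M750

variable {ι : Type*}

theorem ft_dual (Z : Finset GaussianInt) (μ : GaussianInt → ℝ) (T : Finset ι) (a x : ι → ℂ) :
    ∑ i ∈ T, a i * ft Z μ (x i) = ∑ z ∈ Z, (μ z : ℂ) * ∑ i ∈ T, a i * chi z (x i) := by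
  simp only [ft, Finset.mul_sum]
  rw [Finset.sum_comm]
  refine Finset.sum_congr rfl fun z _ => Finset.sum_congr rfl fun i _ => ?_
  ring

theorem jensen_sq (Z : Finset GaussianInt) (μ : GaussianInt → ℝ) (hμ : ∀ z ∈ Z, 0 ≤ μ z)
    (hμ1 : ∑ z ∈ Z, μ z ≤ 1) (f : GaussianInt → ℂ) :
    ‖∑ z ∈ Z, (μ z : ℂ) * f z‖ ^ 2 ≤ ∑ z ∈ Z, μ z * ‖f z‖ ^ 2 := by
  have h1 : ‖∑ z ∈ Z, (μ z : ℂ) * f z‖ ≤ ∑ z ∈ Z, μ z * ‖f z‖ := by
    refine le_trans (norm_sum_le _ _) (Finset.sum_le_sum fun z hz => ?_)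
    rw [norm_mul, Complex.norm_real, Real.norm_of_nonneg (hμ z hz)]
  have h2 : (∑ z ∈ Z, μ z * ‖f z‖) ^ 2 ≤ (∑ z ∈ Z, μ z) * ∑ z ∈ Z, μ z * ‖f z‖ ^ 2 := by
    apply Finset.sum_sq_le_sum_mul_sum_of_sq_le_mul
    · exact hμ
    · intro z hz; exact mul_nonneg (hμ z hz) (sq_nonneg _)
    · intro z _; exact le_of_eq (by ring)
  have h3 : 0 ≤ ∑ z ∈ Z, μ z * ‖f z‖ ^ 2 :=
    Finset.sum_nonneg fun z hz => mul_nonneg (hμ z hz) (sq_nonneg _)
  calc ‖∑ z ∈ Z, (μ z : ℂ) * f z‖ ^ 2 ≤ (∑ z ∈ Z, μ z * ‖f z‖) ^ 2 := by gcongr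
    _ ≤ (∑ z ∈ Z, μ z) * ∑ z ∈ Z, μ z * ‖f z‖ ^ 2 := h2
    _ ≤ 1 * ∑ z ∈ Z, μ z * ‖f z‖ ^ 2 := by gcongr
    _ = _ := one_mul _

/-- bound of the weighted sum with the smoothed weight -/
theorem om_sum_le {r : ℝ} (hr : 0 < r) (hr2 : r ≤ 1 / 2) {R : ℕ}
    (Z : Finset GaussianInt) (μ : GaussianInt → ℝ) (T : Finset ι) (c x : ι → ℂ)
    (hsep : ∀ i ∈ T, ∀ j ∈ T, i ≠ j → ¬ inR r (x i - x j))
    (C : Finset GaussianInt)
    (hC : ∀ v ∈ Zb Z R, ∃ c ∈ C, |(v.re : ℝ) - c.re| * (2 * r) ≤ 1 ∧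
      |(v.im : ℝ) - c.im| * (2 * r) ≤ 1)
    {M : ℝ} (hM0 : 0 ≤ M) (hM : ∀ v ∈ Zb Z R, om Z μ R v ≤ M) :
    ∑ v ∈ Zb Z R, om Z μ R v * ‖∑ i ∈ T, c i * chi v (x i)‖ ^ 2 ≤
      10 / r ^ 2 * C.card * M * ∑ i ∈ T, ‖c i‖ ^ 2 := by
  classical
  have hex : ∀ v : GaussianInt, ∃ c : GaussianInt, v ∈ Zb Z R → (c ∈ C ∧
      |(v.re : ℝ) - c.re| * (2 * r) ≤ 1 ∧ |(v.im : ℝ) - c.im| * (2 * r) ≤ 1) := by
    intro v
    by_cases hv : v ∈ Zb Z R
    · obtain ⟨c, h1, h2⟩ := hC v hv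
      exact ⟨c, fun _ => ⟨h1, h2⟩⟩
    · exact ⟨0, fun h => absurd h hv⟩
  choose g hg using hex
  set F : GaussianInt → ℝ := fun v => ‖∑ i ∈ T, c i * chi v (x i)‖ ^ 2 with hF
  have hF0 : ∀ v, 0 ≤ F v := fun v => sq_nonneg _
  calc ∑ v ∈ Zb Z R, om Z μ R v * F v ≤ ∑ v ∈ Zb Z R, M * F v :=
        Finset.sum_le_sum fun v hv => mul_le_mul_of_nonneg_right (hM v hv) (hF0 v)
    _ = M * ∑ v ∈ Zb Z R, F v := by rw [Finset.mul_sum]
    _ = M * ∑ e ∈ C, ∑ v ∈ (Zb Z R).filter (fun v => g v = e), F v := by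
        rw [Finset.sum_fiberwise_of_maps_to (fun v hv => (hg v hv).1)]
    _ ≤ M * ∑ e ∈ C, (10 / r ^ 2 * ∑ i ∈ T, ‖c i‖ ^ 2) := by
        refine mul_le_mul_of_nonneg_left (Finset.sum_le_sum fun e _ => ?_) hM0
        refine large_sieve hr hr2 T c x hsep e _ ?_
        intro v hv
        rw [Finset.mem_filter] at hv
        have := (hg v hv.1).2
        rw [hv.2] at this
        exact this
    _ = _ := by rw [Finset.sum_const, nsmul_eq_mul]; ring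

/-- **(B1)** localised large sieve. -/
theorem B1 {r : ℝ} (hr : 0 < r) (hr2 : r ≤ 1 / 2) {R : ℕ} (hR : 0 < R)
    (Z : Finset GaussianInt) (μ : GaussianInt → ℝ) (hμ : ∀ z ∈ Z, 0 ≤ μ z)
    (hμ1 : ∑ z ∈ Z, μ z ≤ 1) (T : Finset ι) (x : ι → ℂ)
    (hx : ∀ i ∈ T, |(x i).re| * (8 * R) ≤ 1 ∧ |(x i).im| * (8 * R) ≤ 1)
    (hsep : ∀ i ∈ T, ∀ j ∈ T, i ≠ j → ¬ inR r (x i - x j))
    (C : Finset GaussianInt)
    (hC : ∀ v ∈ Zb Z R, ∃ c ∈ C, |(v.re : ℝ) - c.re| * (2 * r) ≤ 1 ∧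
      |(v.im : ℝ) - c.im| * (2 * r) ≤ 1)
    {M : ℝ} (hM0 : 0 ≤ M) (hM : ∀ v ∈ Zb Z R, om Z μ R v ≤ M) :
    ∑ i ∈ T, ‖ft Z μ (x i)‖ ^ 2 ≤ 40 / r ^ 2 * C.card * M := by
  obtain ⟨b, hb⟩ : ∃ b : ι → ℂ, b = fun i => (starRingEnd ℂ) (ft Z μ (x i)) := ⟨_, rfl⟩
  obtain ⟨S, hS⟩ : ∃ S : ℝ, S = ∑ i ∈ T, ‖ft Z μ (x i)‖ ^ 2 := ⟨_, rfl⟩
  have hS0 : 0 ≤ S := by rw [hS]; positivity
  have hSb : ∑ i ∈ T, ‖b i‖ ^ 2 = S := by
    rw [hS, hb]
    refine Finset.sum_congr rfl fun i _ => ?_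
    rw [RCLike.norm_conj]
  have h1 : (S : ℂ) = ∑ i ∈ T, b i * ft Z μ (x i) := by
    rw [hS, hb]
    push_cast
    refine Finset.sum_congr rfl fun i _ => ?_
    rw [← Complex.conj_mul']
  have h2 : S ^ 2 ≤ ∑ z ∈ Z, μ z * ‖∑ i ∈ T, b i * chi z (x i)‖ ^ 2 := by
    have := jensen_sq Z μ hμ hμ1 (fun z => ∑ i ∈ T, b i * chi z (x i))
    rw [← ft_dual, ← h1, Complex.norm_real, Real.norm_of_nonneg hS0] at this
    exact this
  have h3 := smooth hR Z μ hμ T b x hx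
  have h4 := om_sum_le hr hr2 Z μ T (tl R b x) x hsep C hC hM0 hM
  have h5 := sum_tl_sq hR T b x hx
  rw [hSb] at h5
  have h6 : S ^ 2 ≤ (40 / r ^ 2 * C.card * M) * S := by
    calc S ^ 2 ≤ 10 / r ^ 2 * C.card * M * ∑ i ∈ T, ‖tl R b x i‖ ^ 2 := by linarith
      _ ≤ 10 / r ^ 2 * C.card * M * (4 * S) := by gcongr
      _ = _ := by ring
  rw [← hS]
  by_contra hlt
  push Not at hlt
  have hSpos : 0 < S := lt_of_le_of_lt (by positivity) hlt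
  nlinarith

end Crest.Agent.R2.B488
end

-- ▼ part R2/Bias717d
section

/-!
# R2 (Gaussian moat), block B1+B2 of #11312: light classes ⇒ one large coefficient for half of the
primes.  Glue of `bias_ineq` with helper937's cell inequality and helper488's localised large sieve.
-/

set_option autoImplicit false

namespace Crest.Agent.R2.B717

open Finset Crest.Agent.R2.E717


theorem inR750 {r : ℝ} {x : ℂ} (h : M750.inR r x) : inR r x := by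
  obtain ⟨z, h1, h2⟩ := h
  refine ⟨z, ?_, ?_⟩
  · rw [Complex.sub_re, ← GaussianInt.intCast_re]; exact h1
  · rw [Complex.sub_im, ← GaussianInt.intCast_im]; exact h2


/-- **(3.4) with free parameters.** -/
theorem bias_param {G : Finset GaussianInt} {w : ℝ} (hG : PrimeSet G w) (hw1 : 1 ≤ w)
    (A : Finset GaussianInt) (m : GaussianInt → ℝ) (hm : ∀ z ∈ A, 0 ≤ m z)
    (hs : ∑ z ∈ A, m z = 1) (ρ : ℕ) (hρ : 0 < ρ) (hρ8 : 8 * w < (8 * (ρ : ℝ)) ^ 2)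
    (V : Finset GaussianInt) (hV : ∀ z ∈ A, ∀ p ∈ B937.bx ρ, z - B937.hh p ∈ V)
    (M1 V1 : ℝ) (hM1 : ∀ z ∈ A, m z ≤ M1) (hM10 : 0 ≤ M1)
    (hV1 : ((V.filter fun v => B937.om A m ρ v ≠ 0).card : ℝ) ≤ V1)
    (C : Finset GaussianInt)
    (hC : ∀ v ∈ B488.Zb A ρ, ∃ c ∈ C, |(v.re : ℝ) - c.re| * (2 * (1 / (32 * w ^ 2))) ≤ 1 ∧
      |(v.im : ℝ) - c.im| * (2 * (1 / (32 * w ^ 2))) ≤ 1)
    (M2 : ℝ) (hM20 : 0 ≤ M2) (hM2 : ∀ v ∈ B488.Zb A ρ, B488.om A m ρ v ≤ M2)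
    (θ σ : ℝ) (hθ : 0 ≤ θ) (hσ : 0 < σ)
    (hsmall : ∀ q ∈ G, ∀ b ∈ Ico 1 q.norm.natAbs, ‖mhat A m ((b : ℂ) / q)‖ ^ 2 ≤ θ) :
    ∑ q ∈ G, ∑ b ∈ Ico 1 q.norm.natAbs, ‖mhat A m ((b : ℂ) / q)‖ ^ 2 ≤
      4 * (64 * (M1 * V1)) +
      4 * Real.sqrt (σ * (64 * (M1 * V1)) * (2 * (40960 * w ^ 4 * (C.card * M2)))) +
      64 * (M1 * V1) / σ * ((w / ρ + 2) ^ 2 * θ) := by
  classical
  have hρr : (0 : ℝ) < ρ := by exact_mod_cast hρ
  have hw0 : 0 < w := by linarith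
  have key := bias_ineq hG A m (8 * ρ) (by omega) (by push_cast; exact hρ8) hw1
    (fun k => B937.AQ A m ρ V (ctr (8 * ρ) k)) (fun k => B937.AQ_nonneg hm ρ V _) ?_
    (64 * (M1 * V1)) (40960 * w ^ 4 * (C.card * M2)) ?_ ?_ θ σ hθ hσ hsmall
  · refine key.trans (le_of_eq ?_)
    push_cast
    have : 8 * w / (8 * (ρ : ℝ)) = w / ρ := by field_simp
    rw [this]
  · intro k I y hy
    have h16 : ∀ t : ℝ, t ≤ 1 / (2 * ((8 * ρ : ℕ) : ℝ)) → t ≤ 1 / (16 * (ρ : ℝ)) := by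
      intro t ht
      refine ht.trans (le_of_eq ?_)
      push_cast
      congr 1
      ring
    have h1 := B937.cell hm hs ρ hρ V hV (ctr (8 * ρ) k) I y
      (fun i hi => h16 _ (hy i hi).1) (fun i hi => h16 _ (hy i hi).2)
    simp only [← mhat_eq_ft] at h1
    refine h1.trans (le_of_eq ?_)
    congr 3
    refine Finset.sum_congr rfl fun i _ => ?_
    refine Finset.sum_congr ?_ fun _ _ => rfl
    ext j
    rw [Finset.mem_erase, Finset.mem_filter]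
    tauto
  · have h1 := B937.sum_AQ_le hm M1 hM1 ρ (8 * ρ) hρ (by omega) V
    rw [Finset.sum_product]
    have h2 : ∀ a b, ctr (8 * ρ) (a, b) = B937.ctr (8 * ρ) a b := fun a b => rfl
    simp only [h2]
    refine h1.trans ?_
    have h3 : (((8 * ρ : ℕ) : ℝ) / ρ) ^ 2 = 64 := by
      push_cast
      field_simp
      norm_num
    rw [h3, mul_assoc]
    exact mul_le_mul_of_nonneg_left (mul_le_mul_of_nonneg_left hV1 hM10) (by norm_num)
  · intro P z hsep hz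
    have hr : 0 < 1 / (32 * w ^ 2) := by positivity
    have hr2 : 1 / (32 * w ^ 2) ≤ 1 / 2 := by
      apply one_div_le_one_div_of_le (by norm_num)
      nlinarith
    have h1 := B488.B1 hr hr2 hρ A m hm hs.le P z ?_ ?_ C hC hM20 hM2
    · simp only [← mhat_eq_ft750] at h1
      refine h1.trans (le_of_eq ?_)
      field_simp
      ring
    · intro i hi
      have h2 := hz i hi
      have h3 : (1 : ℝ) / ((8 * ρ : ℕ) : ℝ) * (8 * ρ) = 1 := by push_cast; field_simp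
      have h4 : (0 : ℝ) ≤ 8 * ρ := by positivity
      constructor
      · rw [← h3]; exact mul_le_mul_of_nonneg_right h2.1 h4
      · rw [← h3]; exact mul_le_mul_of_nonneg_right h2.2 h4
    · intro i hi j hj hne h
      exact hsep i hi j hj hne (inR750 h)

/-- Final exponent bookkeeping, isolated: a real inequality. -/
theorem exponents (ε K : ℝ) (hε : 0 < ε) (hε1 : ε ≤ 1 / 10) (hK : 1 ≤ K) :
    ∃ W0 : ℝ, 1 ≤ W0 ∧ ∀ w : ℝ, W0 ≤ w → ∀ X1 X2 Y n : ℝ, 0 ≤ X1 → 0 ≤ X2 → 0 ≤ Y →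
      X1 ≤ K * w ^ (1 - 2 * ε + ε / 8) → 2 * X2 ≤ K * w ^ (1 + 2 * ε + ε / 8) →
      Y ≤ K * w ^ (4 * ε) →
      n * (9 / 16 * (4 * w) ^ (-ε)) ≤
        4 * X1 + 4 * Real.sqrt (w ^ (-(3 * ε)) * X1 * (2 * X2)) +
          X1 / w ^ (-(3 * ε)) * (Y * w ^ (-(7 * ε))) →
      w ^ (1 - ε / 8) ≤ 2 * n → False := by
  -- choose `W0` with `W0 ^ (ε/4) > 16 K^2 · 16`
  refine ⟨max 1 ((1000 * K ^ 2) ^ (4 / ε)), le_max_left _ _, ?_⟩
  intro w hw X1 X2 Y n hX10 hX20 hY0 hX1 hX2 hY hmain hn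
  have hw1 : 1 ≤ w := (le_max_left _ _).trans hw
  have hw0 : 0 < w := by linarith
  have hK0 : 0 < K := by linarith
  have hbig : 1000 * K ^ 2 ≤ w ^ (ε / 4) := by
    have h1 : (1000 * K ^ 2) ^ (4 / ε) ≤ w := (le_max_right _ _).trans hw
    have h2 := Real.rpow_le_rpow (by positivity) h1 (by positivity : 0 ≤ ε / 4)
    rwa [← Real.rpow_mul (by positivity), show 4 / ε * (ε / 4) = 1 by field_simp, Real.rpow_one] at h2
  -- lower bound of the left side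
  have h4 : (9 / 32 : ℝ) * 4 ^ (-ε) * w ^ (1 - ε - ε / 8) ≤ n * (9 / 16 * (4 * w) ^ (-ε)) := by
    have e1 : (4 * w) ^ (-ε) = 4 ^ (-ε) * w ^ (-ε) := Real.mul_rpow (by norm_num) hw0.le
    have e2 : w ^ (1 - ε - ε / 8) = w ^ (1 - ε / 8) * w ^ (-ε) := by
      rw [← Real.rpow_add hw0]; congr 1; ring
    rw [e1, e2]
    have e3 : 0 ≤ 4 ^ (-ε) * w ^ (-ε) := by positivity
    nlinarith
  have h45 : (1 / 2 : ℝ) ≤ 4 ^ (-ε) := by
    have e1 : (4 : ℝ) ^ (-(1 / 2) : ℝ) ≤ 4 ^ (-ε) :=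
      Real.rpow_le_rpow_of_exponent_le (by norm_num) (by linarith)
    have e2 : (4 : ℝ) ^ (-(1 / 2) : ℝ) = 1 / 2 := by
      rw [Real.rpow_neg (by norm_num), show (4 : ℝ) = 2 ^ (2 : ℝ) by norm_num,
        ← Real.rpow_mul (by norm_num)]
      norm_num
    linarith
  set P : ℝ := w ^ (1 - 3 / 2 * ε + ε / 8) with hP
  have hP0 : 0 < P := Real.rpow_pos_of_pos hw0 _
  have t1 : X1 ≤ K * P := by
    refine hX1.trans (mul_le_mul_of_nonneg_left ?_ hK0.le)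
    exact Real.rpow_le_rpow_of_exponent_le hw1 (by linarith)
  have t2 : Real.sqrt (w ^ (-(3 * ε)) * X1 * (2 * X2)) ≤ K * P := by
    rw [Real.sqrt_le_left (by positivity)]
    calc w ^ (-(3 * ε)) * X1 * (2 * X2)
        ≤ w ^ (-(3 * ε)) * (K * w ^ (1 - 2 * ε + ε / 8)) * (K * w ^ (1 + 2 * ε + ε / 8)) := by
          refine mul_le_mul (mul_le_mul_of_nonneg_left hX1 (by positivity)) hX2 (by positivity)
            (by positivity)
      _ = (K * P) ^ 2 := by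
          have e1 : P ^ 2 = w ^ (-(3 * ε)) * w ^ (1 - 2 * ε + ε / 8) * w ^ (1 + 2 * ε + ε / 8) := by
            rw [hP, ← Real.rpow_natCast, ← Real.rpow_mul hw0.le, ← Real.rpow_add hw0,
              ← Real.rpow_add hw0]
            congr 1
            push_cast
            ring
          rw [mul_pow, e1]
          ring
  have t3 : X1 / w ^ (-(3 * ε)) * (Y * w ^ (-(7 * ε))) ≤ K ^ 2 * P := by
    have e1 : X1 / w ^ (-(3 * ε)) * (Y * w ^ (-(7 * ε))) = X1 * Y * w ^ (-(4 * ε)) := by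
      have : w ^ (-(7 * ε)) = w ^ (-(3 * ε)) * w ^ (-(4 * ε)) := by
        rw [← Real.rpow_add hw0]; congr 1; ring
      rw [this]
      have hne : w ^ (-(3 * ε)) ≠ 0 := (Real.rpow_pos_of_pos hw0 _).ne'
      field_simp
    rw [e1]
    calc X1 * Y * w ^ (-(4 * ε))
        ≤ (K * w ^ (1 - 2 * ε + ε / 8)) * (K * w ^ (4 * ε)) * w ^ (-(4 * ε)) := by
          refine mul_le_mul_of_nonneg_right (mul_le_mul hX1 hY hY0 (by positivity)) (by positivity)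
      _ = K ^ 2 * w ^ (1 - 2 * ε + ε / 8) := by
          have : w ^ (4 * ε) * w ^ (-(4 * ε)) = 1 := by
            rw [← Real.rpow_add hw0]; simp
          linear_combination (K ^ 2 * w ^ (1 - 2 * ε + ε / 8)) * this
      _ ≤ K ^ 2 * P := by
          refine mul_le_mul_of_nonneg_left ?_ (by positivity)
          exact Real.rpow_le_rpow_of_exponent_le hw1 (by linarith)
  have hfin : (9 / 64 : ℝ) * w ^ (1 - ε - ε / 8) ≤ 9 * K ^ 2 * P := by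
    have e0 : 0 < w ^ (1 - ε - ε / 8) := Real.rpow_pos_of_pos hw0 _
    have e1 : (9 / 64 : ℝ) * w ^ (1 - ε - ε / 8) ≤ 9 / 32 * 4 ^ (-ε) * w ^ (1 - ε - ε / 8) := by
      nlinarith
    have e2 : K ≤ K ^ 2 := by nlinarith
    have e3 : K * P ≤ K ^ 2 * P := mul_le_mul_of_nonneg_right e2 hP0.le
    linarith
  have hsplit : w ^ (1 - ε - ε / 8) = P * w ^ (ε / 4) := by
    rw [hP, ← Real.rpow_add hw0]; congr 1; ring
  rw [hsplit] at hfin
  have : (9 / 64 : ℝ) * (P * (1000 * K ^ 2)) ≤ (9 / 64 : ℝ) * (P * w ^ (ε / 4)) := by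
    refine mul_le_mul_of_nonneg_left (mul_le_mul_of_nonneg_left hbig hP0.le) (by norm_num)
  have hKP : 0 < K ^ 2 * P := by positivity
  nlinarith

/-- **BLOCK B1+B2**: light classes imply one large coefficient for at least half of the primes. -/
theorem bias_half (ε K : ℝ) (hε : 0 < ε) (hε1 : ε ≤ 1 / 10) (hK : 1 ≤ K) :
    ∃ W0 : ℝ, 1 ≤ W0 ∧ ∀ w : ℝ, W0 ≤ w → ∀ G : Finset GaussianInt, PrimeSet G w →
      w ^ (1 - ε / 8) ≤ (G.card : ℝ) →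
      ∀ (A : Finset GaussianInt) (m : GaussianInt → ℝ), (∀ z ∈ A, 0 ≤ m z) → ∑ z ∈ A, m z = 1 →
      ∀ ρ : ℕ, 0 < ρ → 8 * w < (8 * (ρ : ℝ)) ^ 2 →
      ∀ V : Finset GaussianInt, (∀ z ∈ A, ∀ p ∈ B937.bx ρ, z - B937.hh p ∈ V) →
      ∀ M1 V1 : ℝ, (∀ z ∈ A, m z ≤ M1) → 0 ≤ M1 →
      ((V.filter fun v => B937.om A m ρ v ≠ 0).card : ℝ) ≤ V1 →
      ∀ C : Finset GaussianInt,
      (∀ v ∈ B488.Zb A ρ, ∃ c ∈ C, |(v.re : ℝ) - c.re| * (2 * (1 / (32 * w ^ 2))) ≤ 1 ∧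
        |(v.im : ℝ) - c.im| * (2 * (1 / (32 * w ^ 2))) ≤ 1) →
      ∀ M2 : ℝ, 0 ≤ M2 → (∀ v ∈ B488.Zb A ρ, B488.om A m ρ v ≤ M2) →
      64 * (M1 * V1) ≤ K * w ^ (1 - 2 * ε + ε / 8) →
      2 * (40960 * w ^ 4 * (C.card * M2)) ≤ K * w ^ (1 + 2 * ε + ε / 8) →
      (w / ρ + 2) ^ 2 ≤ K * w ^ (4 * ε) →
      (∀ q ∈ G, LightAt A m q ((q.norm : ℝ) ^ (1 - ε))) →
      ∃ G3 ⊆ G, G.card ≤ 2 * G3.card ∧ ∃ b : GaussianInt → GaussianInt,
        (∀ q ∈ G3, ¬ q ∣ b q) ∧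
        ∀ q ∈ G3, w ^ (-(7 / 2 * ε)) ≤ ‖mhat A m ((b q : ℂ) / q)‖ := by
  classical
  obtain ⟨W0, hW01, hexp⟩ := exponents ε K hε hε1 hK
  refine ⟨W0, hW01, ?_⟩
  intro w hw G hG hcard A m hm hs ρ hρ hρ8 V hV M1 V1 hM1 hM10 hV1 C hC M2 hM20 hM2 hX1 hX2 hY hlight
  have hw1 : 1 ≤ w := hW01.trans hw
  have hw0 : 0 < w := by linarith
  -- good primes
  set good : GaussianInt → Prop := fun q => ∃ b ∈ Ico 1 q.norm.natAbs,
    w ^ (-(7 / 2 * ε)) ≤ ‖mhat A m ((b : ℂ) / q)‖ with hgood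
  set G3 : Finset GaussianInt := G.filter good with hG3
  have hhalf : G.card ≤ 2 * G3.card := by
    by_contra hcon
    push Not at hcon
    set G1 : Finset GaussianInt := G.filter (fun q => ¬ good q) with hG1
    have hG1card : G.card ≤ 2 * G1.card := by
      have := Finset.card_filter_add_card_filter_not (s := G) good
      rw [← hG3, ← hG1] at this
      omega
    have hG1P : PrimeSet G1 w := by
      have hsub : ∀ q ∈ G1, q ∈ G := fun q hq => (Finset.mem_filter.mp hq).1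
      exact ⟨fun q hq => hG.prime q (hsub q hq), fun q hq q' hq' => hG.ass q (hsub q hq) q' (hsub q' hq'),
        fun q hq => hG.split q (hsub q hq), fun q hq => hG.lower q (hsub q hq),
        fun q hq => hG.upper q (hsub q hq)⟩
    have hsm : ∀ q ∈ G1, ∀ b ∈ Ico 1 q.norm.natAbs, ‖mhat A m ((b : ℂ) / q)‖ ^ 2 ≤ w ^ (-(7 * ε)) := by
      intro q hq b hb
      have h1 : ¬ good q := (Finset.mem_filter.mp hq).2
      have h2 : ‖mhat A m ((b : ℂ) / q)‖ < w ^ (-(7 / 2 * ε)) := by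
        by_contra h
        push Not at h
        exact h1 ⟨b, hb, h⟩
      have h3 : ‖mhat A m ((b : ℂ) / q)‖ ^ 2 ≤ (w ^ (-(7 / 2 * ε))) ^ 2 :=
        pow_le_pow_left₀ (norm_nonneg _) h2.le 2
      refine h3.trans (le_of_eq ?_)
      rw [← Real.rpow_natCast, ← Real.rpow_mul hw0.le]
      congr 1
      push_cast
      ring
    have hV10 : 0 ≤ V1 := (Nat.cast_nonneg _).trans hV1
    have hmain := bias_param hG1P hw1 A m hm hs ρ hρ hρ8 V hV M1 V1 hM1 hM10 hV1 C hC M2 hM20 hM2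
      (w ^ (-(7 * ε))) (w ^ (-(3 * ε))) (by positivity) (by positivity) hsm
    have hlow : (G1.card : ℝ) * (9 / 16 * (4 * w) ^ (-ε)) ≤
        ∑ q ∈ G1, ∑ b ∈ Ico 1 q.norm.natAbs, ‖mhat A m ((b : ℂ) / q)‖ ^ 2 := by
      rw [← nsmul_eq_mul, ← Finset.sum_const]
      refine Finset.sum_le_sum fun q hq => ?_
      have hqG : q ∈ G := (Finset.mem_filter.mp hq).1
      obtain ⟨R, hR1, hR2, hR3⟩ := hlight q hqG
      have hnq := hG.norm_eq hqG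
      have hnr : (q.norm : ℝ) = ((q.norm.natAbs : ℕ) : ℝ) := by
        have : ((q.norm : ℤ) : ℝ) = (((q.norm.natAbs : ℕ) : ℤ) : ℝ) := by rw [← hnq]
        rw [this, Int.cast_natCast]
      have h1 := light_classes (hG.split q hqG) hnq A m hs R hR1 (by
        intro c hc
        have := hR3 c hc
        rw [hnr] at this
        convert this using 3)
      refine le_trans ?_ h1
      rw [← hnr]
      have hqpos : (0 : ℝ) < (q.norm : ℝ) := lt_trans hw0 (hG.lower q hqG)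
      have h2 : (4 * w) ^ (-ε) ≤ (q.norm : ℝ) ^ (-ε) :=
        Real.rpow_le_rpow_of_nonpos hqpos (hG.upper q hqG) (by linarith)
      have h3 : (q.norm : ℝ) ^ (-ε) ≤ (R.card : ℝ) / (q.norm : ℝ) := by
        rw [le_div_iff₀ hqpos]
        refine le_trans (le_of_eq ?_) hR2
        rw [← Real.rpow_add_one hqpos.ne']
        congr 1
        ring
      calc (9 / 16 : ℝ) * (4 * w) ^ (-ε) ≤ 9 / 16 * ((R.card : ℝ) / (q.norm : ℝ)) :=
            mul_le_mul_of_nonneg_left (h2.trans h3) (by norm_num)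
        _ = 9 / 16 * (R.card : ℝ) / (q.norm : ℝ) := by ring
    refine hexp w hw (64 * (M1 * V1)) (40960 * w ^ 4 * (C.card * M2)) ((w / ρ + 2) ^ 2) G1.card
      (by positivity) (by positivity) (by positivity) hX1 hX2 hY (hlow.trans hmain) ?_
    refine hcard.trans ?_
    exact_mod_cast hG1card
  have hex : ∀ q, q ∈ G3 → ∃ b : ℕ, b ∈ Ico 1 q.norm.natAbs ∧
      w ^ (-(7 / 2 * ε)) ≤ ‖mhat A m ((b : ℂ) / q)‖ := by
    intro q hq
    obtain ⟨b, hb, h⟩ := (Finset.mem_filter.mp hq).2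
    exact ⟨b, hb, h⟩
  choose! b hb1 hb2 using hex
  refine ⟨G3, Finset.filter_subset _ _, hhalf, fun q => ((b q : ℕ) : GaussianInt), ?_, ?_⟩
  · intro q hq
    exact hG.not_dvd_b (Finset.mem_filter.mp hq).1 (hb1 q hq)
  · intro q hq
    have := hb2 q hq
    simpa using this

end Crest.Agent.R2.B717
end

-- ▼ part R2/Bias717e

/-!
# R2 (Gaussian moat), block B: from the regularity numbers of the tree measure (helper549's
`reg_tree`) to the large coefficients.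
-/

set_option autoImplicit false

namespace Crest.Agent.R2.B717

open Finset Crest.Agent.R2.E717
open Crest.Agent.R2.Gcd62 (ab)

theorem N_mk_le (a b : ℕ) (ρ : ℕ) (ha : a ≤ ρ) (hb : b ≤ ρ) :
    N (⟨(a : ℤ), (b : ℤ)⟩ : GaussianInt) ≤ 2 * ρ := by
  have h1 : N (⟨(a : ℤ), (b : ℤ)⟩ : GaussianInt) ^ 2 = (a : ℝ) ^ 2 + (b : ℝ) ^ 2 := by
    rw [N_sq]; push_cast; rfl
  have ha' : (a : ℝ) ≤ ρ := by exact_mod_cast ha
  have hb' : (b : ℝ) ≤ ρ := by exact_mod_cast hb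
  have ha0 : (0 : ℝ) ≤ a := Nat.cast_nonneg _
  have hb0 : (0 : ℝ) ≤ b := Nat.cast_nonneg _
  nlinarith [N_nonneg (⟨(a : ℤ), (b : ℤ)⟩ : GaussianInt)]

/-- the number of points of `A - box` -/
theorem card_sub_box (A : Finset GaussianInt) (ρ : ℕ) (hρ : 0 < ρ) (Z : Finset GaussianInt)
    (hZ : ∀ v ∈ A, ∃ z ∈ Z, ab (v - z) ≤ ρ) (V : Finset GaussianInt)
    (hV : ∀ v ∈ V, ∃ a ∈ A, ∃ p ∈ B937.bx ρ, v = a - B937.hh p) :
    (V.card : ℝ) ≤ Z.card * (81 * (ρ : ℝ) ^ 2) := by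
  classical
  have hρr : (1 : ℝ) ≤ ρ := by exact_mod_cast hρ
  have hsub : V ⊆ Z.biUnion fun z => (disc (3 * ρ)).map ⟨fun u => u + z, add_left_injective z⟩ := by
    intro v hv
    obtain ⟨a, ha, p, hp, rfl⟩ := hV v hv
    obtain ⟨z, hz, hza⟩ := hZ a ha
    rw [Finset.mem_biUnion]
    refine ⟨z, hz, ?_⟩
    rw [Finset.mem_map]
    refine ⟨a - B937.hh p - z, ?_, by simp⟩
    rw [mem_disc]
    unfold B937.bx at hp
    rw [Finset.mem_product, Finset.mem_range, Finset.mem_range] at hp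
    have h1 : N (B937.hh p) ≤ 2 * ρ := N_mk_le p.1 p.2 ρ hp.1.le hp.2.le
    have h2 : a - B937.hh p - z = (a - z) - B937.hh p := by ring
    rw [h2]
    have h3 := N_sub_le (a - z) (B937.hh p)
    change N (a - z) ≤ ρ at hza
    linarith
  have h1 : (V.card : ℝ) ≤ ∑ z ∈ Z, ((disc (3 * ρ)).card : ℝ) := by
    have h2 := (Finset.card_le_card hsub).trans Finset.card_biUnion_le
    simp only [Finset.card_map] at h2
    exact_mod_cast h2
  rw [Finset.sum_const, nsmul_eq_mul] at h1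
  refine h1.trans (mul_le_mul_of_nonneg_left ?_ (Nat.cast_nonneg _))
  refine (card_disc_le (by linarith)).trans (le_of_eq (by ring))

/-- box averages are bounded by the mass of a ball -/
theorem om_le (A : Finset GaussianInt) (m : GaussianInt → ℝ)
    (ρ : ℕ) (hρ : 0 < ρ) (X : ℝ)
    (hX : ∀ y : ℂ, ∀ B : Finset GaussianInt, (∀ v ∈ B, ‖(v : ℂ) - y‖ ≤ ρ) → ∑ v ∈ B, m v ≤ X)
    (v : GaussianInt) : B488.om A m ρ v ≤ X / (ρ : ℝ) ^ 2 := by
  classical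
  have hρr : (0 : ℝ) < ρ := by exact_mod_cast hρ
  unfold B488.om
  rw [one_div, inv_mul_eq_div]
  refine div_le_div_of_nonneg_right ?_ (by positivity)
  rw [← Finset.sum_filter]
  have h1 : ∑ h ∈ (B488.bx ρ).filter (fun h => v + h ∈ A), m (v + h)
      = ∑ u ∈ ((B488.bx ρ).filter (fun h => v + h ∈ A)).image (fun h => v + h), m u := by
    rw [Finset.sum_image]
    intro a _ b _ hab
    exact add_left_cancel hab
  rw [h1]
  refine hX ((v : ℂ) + ⟨(ρ : ℝ) / 2, (ρ : ℝ) / 2⟩) _ ?_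
  intro u hu
  rw [Finset.mem_image] at hu
  obtain ⟨h, hh, rfl⟩ := hu
  rw [Finset.mem_filter, B488.mem_bx] at hh
  obtain ⟨⟨⟨h1, h2⟩, h3, h4⟩, -⟩ := hh
  have e1 : ((v + h : GaussianInt) : ℂ) - ((v : ℂ) + ⟨(ρ : ℝ) / 2, (ρ : ℝ) / 2⟩)
      = (h : ℂ) - ⟨(ρ : ℝ) / 2, (ρ : ℝ) / 2⟩ := by
    rw [GaussianInt.toComplex_add]; ring
  rw [e1]
  have g1 : (0 : ℝ) ≤ h.re := by exact_mod_cast h1
  have g2 : (h.re : ℝ) ≤ ρ := by exact_mod_cast h2.le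
  have g3 : (0 : ℝ) ≤ h.im := by exact_mod_cast h3
  have g4 : (h.im : ℝ) ≤ ρ := by exact_mod_cast h4.le
  refine (Complex.norm_le_abs_re_add_abs_im _).trans ?_
  rw [Complex.sub_re, Complex.sub_im, ← GaussianInt.intCast_re, ← GaussianInt.intCast_im]
  simp only
  have a1 : |(h.re : ℝ) - ρ / 2| ≤ ρ / 2 := abs_le.mpr ⟨by linarith, by linarith⟩
  have a2 : |(h.im : ℝ) - ρ / 2| ≤ ρ / 2 := abs_le.mpr ⟨by linarith, by linarith⟩
  linarith

set_option maxHeartbeats 1000000 in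
/-- **BLOCK B from the regularity numbers of the tree measure.** -/
theorem bias_reg (ε K : ℝ) (hε : 0 < ε) (hε1 : ε ≤ 1 / 10) (hK : 1 ≤ K) :
    ∃ W0 : ℝ, 1 ≤ W0 ∧ ∀ w : ℝ, W0 ≤ w → ∀ G : Finset GaussianInt, PrimeSet G w →
      w ^ (1 - ε / 8) ≤ (G.card : ℝ) →
      ∀ (A : Finset GaussianInt) (m : GaussianInt → ℝ), (∀ z, 0 ≤ m z) → ∑ z ∈ A, m z = 1 →
      ∀ ρ : ℕ, w ^ (1 - 2 * ε) / 2 ≤ (ρ : ℝ) → (ρ : ℝ) ≤ w ^ (1 - 2 * ε) →
      ∀ M : ℝ, 0 < M → (∀ v ∈ A, m v ≤ K * (ρ : ℝ) ^ (ε / 16) / (M * ρ)) →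
      (∃ Z : Finset GaussianInt, (Z.card : ℝ) ≤ M ∧ ∀ v ∈ A, ∃ z ∈ Z, ab (v - z) ≤ ρ) →
      (∀ y : ℂ, ∀ B : Finset GaussianInt, (∀ v ∈ B, ‖(v : ℂ) - y‖ ≤ ρ) → ∑ v ∈ B, m v ≤ K / M) →
      (∃ Z1 : Finset GaussianInt, (Z1.card : ℝ) ≤
          M * (K * (ρ / (15 * w ^ 2) * ((15 * w ^ 2) / ρ) ^ (ε / 16))) ∧
        ∀ v ∈ A, ∃ z ∈ Z1, ab (v - z) ≤ 15 * w ^ 2) →
      (∀ q ∈ G, LightAt A m q ((q.norm : ℝ) ^ (1 - ε))) →
      ∃ G3 ⊆ G, G.card ≤ 2 * G3.card ∧ ∃ b : GaussianInt → GaussianInt,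
        (∀ q ∈ G3, ¬ q ∣ b q) ∧
        ∀ q ∈ G3, w ^ (-(7 / 2 * ε)) ≤ ‖mhat A m ((b q : ℂ) / q)‖ := by
  classical
  obtain ⟨W0, hW01, hmain⟩ := bias_half ε (10 ^ 9 * K ^ 2) hε hε1 (by nlinarith)
  refine ⟨max W0 100, le_max_of_le_left hW01, ?_⟩
  intro w hw G hG hcard A m hm hs ρ hρl hρu M hM hpt hZ hmass hZ1 hlight
  have hwW : W0 ≤ w := (le_max_left _ _).trans hw
  have hw100 : 100 ≤ w := (le_max_right _ _).trans hw
  have hw1 : 1 ≤ w := by linarith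
  have hw0 : 0 < w := by linarith
  have hK0 : 0 < K := by linarith
  have hlow : w ^ (4 / 5 : ℝ) ≤ w ^ (1 - 2 * ε) :=
    Real.rpow_le_rpow_of_exponent_le hw1 (by linarith)
  have hρr : (0 : ℝ) < ρ := lt_of_lt_of_le (by positivity) hρl
  have hρ : 0 < ρ := by exact_mod_cast hρr
  have hρ1 : (1 : ℝ) ≤ ρ := by exact_mod_cast hρ
  have hρw : (ρ : ℝ) ≤ w := by
    refine hρu.trans ?_
    calc w ^ (1 - 2 * ε) ≤ w ^ (1 : ℝ) := Real.rpow_le_rpow_of_exponent_le hw1 (by linarith)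
      _ = w := Real.rpow_one w
  -- `8 w < (8 ρ)^2`
  have hρ8 : 8 * w < (8 * (ρ : ℝ)) ^ 2 := by
    have h1 : w ^ (4 / 5 : ℝ) ≤ 2 * ρ := by linarith
    have h2 : (w ^ (4 / 5 : ℝ)) ^ 2 ≤ (2 * (ρ : ℝ)) ^ 2 := pow_le_pow_left₀ (by positivity) h1 2
    have h3 : w ≤ (w ^ (4 / 5 : ℝ)) ^ 2 := by
      rw [← Real.rpow_natCast, ← Real.rpow_mul hw0.le]
      calc w = w ^ (1 : ℝ) := (Real.rpow_one w).symm
        _ ≤ _ := Real.rpow_le_rpow_of_exponent_le hw1 (by norm_num)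
    nlinarith
  obtain ⟨Z, hZc, hZcov⟩ := hZ
  obtain ⟨Z1, hZ1c, hZ1cov⟩ := hZ1
  set V : Finset GaussianInt := (A ×ˢ B937.bx ρ).image (fun p => p.1 - B937.hh p.2) with hVdef
  have hVcard : (V.card : ℝ) ≤ M * (81 * (ρ : ℝ) ^ 2) := by
    refine (card_sub_box A ρ hρ Z hZcov V ?_).trans
      (mul_le_mul_of_nonneg_right hZc (by positivity))
    intro v hv
    rw [hVdef, Finset.mem_image] at hv
    obtain ⟨p, hp, rfl⟩ := hv
    rw [Finset.mem_product] at hp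
    exact ⟨p.1, hp.1, p.2, hp.2, rfl⟩
  refine hmain w hwW G hG hcard A m (fun z _ => hm z) hs ρ hρ hρ8 V ?_
    (K * (ρ : ℝ) ^ (ε / 16) / (M * ρ)) (M * (81 * (ρ : ℝ) ^ 2)) hpt (by positivity) ?_
    Z1 ?_ (K / M / (ρ : ℝ) ^ 2) (by positivity) (fun v _ => om_le A m ρ hρ _ hmass v) ?_ ?_ ?_ hlight
  · intro z hz p hp
    rw [hVdef, Finset.mem_image]
    exact ⟨(z, p), Finset.mem_product.mpr ⟨hz, hp⟩, rfl⟩
  · refine le_trans ?_ hVcard
    exact_mod_cast Finset.card_filter_le _ _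
  · -- centres
    intro v hv
    rw [B488.mem_Zb] at hv
    obtain ⟨h, hh, hvh⟩ := hv
    rw [B488.mem_bx] at hh
    obtain ⟨z, hz, hzv⟩ := hZ1cov _ hvh
    refine ⟨z, hz, ?_⟩
    have e1 := (abs_re_le (v + h - z)).trans hzv
    have e2 := (abs_im_le (v + h - z)).trans hzv
    have e3 : ((v + h - z : GaussianInt).re : ℝ) = (v.re : ℝ) + h.re - z.re := by
      rw [Zsqrtd.re_sub, Zsqrtd.re_add]; push_cast; ring
    have e4 : ((v + h - z : GaussianInt).im : ℝ) = (v.im : ℝ) + h.im - z.im := by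
      rw [Zsqrtd.im_sub, Zsqrtd.im_add]; push_cast; ring
    rw [e3] at e1
    rw [e4] at e2
    obtain ⟨⟨h1, h2⟩, h3, h4⟩ := hh
    have g1 : (0 : ℝ) ≤ h.re := by exact_mod_cast h1
    have g2 : (h.re : ℝ) ≤ ρ := by exact_mod_cast h2.le
    have g3 : (0 : ℝ) ≤ h.im := by exact_mod_cast h3
    have g4 : (h.im : ℝ) ≤ ρ := by exact_mod_cast h4.le
    rw [abs_le] at e1 e2
    have hww : w ≤ w ^ 2 := by nlinarith
    have k1 : |(v.re : ℝ) - z.re| ≤ 16 * w ^ 2 := abs_le.mpr ⟨by linarith [e1.1], by linarith [e1.2]⟩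
    have k2 : |(v.im : ℝ) - z.im| ≤ 16 * w ^ 2 := abs_le.mpr ⟨by linarith [e2.1], by linarith [e2.2]⟩
    have hr : 0 < 2 * (1 / (32 * w ^ 2)) := by positivity
    have e5 : 16 * w ^ 2 * (2 * (1 / (32 * w ^ 2))) = 1 := by field_simp; norm_num
    exact ⟨(mul_le_mul_of_nonneg_right k1 hr.le).trans e5.le,
      (mul_le_mul_of_nonneg_right k2 hr.le).trans e5.le⟩
  · -- `64 M1 V1`
    have e1 : 64 * (K * (ρ : ℝ) ^ (ε / 16) / (M * ρ) * (M * (81 * (ρ : ℝ) ^ 2)))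
        = 5184 * K * ((ρ : ℝ) * (ρ : ℝ) ^ (ε / 16)) := by
      field_simp
      ring
    rw [e1]
    have e2 : (ρ : ℝ) * (ρ : ℝ) ^ (ε / 16) ≤ w ^ (1 - 2 * ε + ε / 8) := by
      calc (ρ : ℝ) * (ρ : ℝ) ^ (ε / 16) ≤ w ^ (1 - 2 * ε) * w ^ (ε / 16) := by
            refine mul_le_mul hρu (Real.rpow_le_rpow hρr.le hρw (by positivity)) (by positivity)
              (by positivity)
        _ = w ^ (1 - 2 * ε + ε / 16) := by rw [← Real.rpow_add hw0]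
        _ ≤ _ := Real.rpow_le_rpow_of_exponent_le hw1 (by linarith)
    have e3 : 0 ≤ w ^ (1 - 2 * ε + ε / 8) := by positivity
    calc 5184 * K * ((ρ : ℝ) * (ρ : ℝ) ^ (ε / 16)) ≤ 5184 * K * w ^ (1 - 2 * ε + ε / 8) :=
          mul_le_mul_of_nonneg_left e2 (by positivity)
      _ ≤ 10 ^ 9 * K ^ 2 * w ^ (1 - 2 * ε + ε / 8) := by
          refine mul_le_mul_of_nonneg_right ?_ e3
          nlinarith
  · -- `X2`
    have hZ1' : (Z1.card : ℝ) * (K / M / (ρ : ℝ) ^ 2) ≤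
        M * (K * (ρ / (15 * w ^ 2) * ((15 * w ^ 2) / ρ) ^ (ε / 16))) * (K / M / (ρ : ℝ) ^ 2) :=
      mul_le_mul_of_nonneg_right hZ1c (by positivity)
    have e1 : 2 * (40960 * w ^ 4 *
        (M * (K * (ρ / (15 * w ^ 2) * ((15 * w ^ 2) / ρ) ^ (ε / 16))) * (K / M / (ρ : ℝ) ^ 2)))
        = (81920 / 15) * K ^ 2 * (w ^ 2 / ρ * ((15 * w ^ 2) / ρ) ^ (ε / 16)) := by
      field_simp
      ring
    have e2 : 2 * (40960 * w ^ 4 * ((Z1.card : ℝ) * (K / M / (ρ : ℝ) ^ 2))) ≤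
        (81920 / 15) * K ^ 2 * (w ^ 2 / ρ * ((15 * w ^ 2) / ρ) ^ (ε / 16)) := by
      rw [← e1]
      refine mul_le_mul_of_nonneg_left ?_ (by norm_num)
      exact mul_le_mul_of_nonneg_left hZ1' (by positivity)
    refine e2.trans ?_
    have hinv : w ^ 2 / (ρ : ℝ) ≤ 2 * w ^ (1 + 2 * ε) := by
      rw [div_le_iff₀ hρr]
      have h1 : w ^ (1 + 2 * ε) * w ^ (1 - 2 * ε) = w ^ 2 := by
        rw [← Real.rpow_add hw0, ← Real.rpow_natCast]
        congr 1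
        push_cast; ring
      have h2 : 0 < w ^ (1 + 2 * ε) := by positivity
      nlinarith
    have h3 : (15 * w ^ 2) / (ρ : ℝ) ≤ 30 * w ^ (1 + 2 * ε) := by
      have : (15 * w ^ 2) / (ρ : ℝ) = 15 * (w ^ 2 / ρ) := by ring
      rw [this]; linarith
    have h4 : ((15 * w ^ 2) / (ρ : ℝ)) ^ (ε / 16) ≤ 30 * w ^ (ε / 8) := by
      calc ((15 * w ^ 2) / (ρ : ℝ)) ^ (ε / 16) ≤ (30 * w ^ (1 + 2 * ε)) ^ (ε / 16) :=
            Real.rpow_le_rpow (by positivity) h3 (by positivity)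
        _ = 30 ^ (ε / 16) * (w ^ (1 + 2 * ε)) ^ (ε / 16) :=
            Real.mul_rpow (by norm_num) (by positivity)
        _ ≤ 30 * w ^ (ε / 8) := by
            refine mul_le_mul ?_ ?_ (by positivity) (by norm_num)
            · calc (30 : ℝ) ^ (ε / 16) ≤ 30 ^ (1 : ℝ) :=
                    Real.rpow_le_rpow_of_exponent_le (by norm_num) (by linarith)
                _ = 30 := Real.rpow_one _
            · rw [← Real.rpow_mul hw0.le]
              exact Real.rpow_le_rpow_of_exponent_le hw1 (by nlinarith)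
    have h5 : w ^ 2 / (ρ : ℝ) * ((15 * w ^ 2) / ρ) ^ (ε / 16) ≤ 60 * w ^ (1 + 2 * ε + ε / 8) := by
      calc w ^ 2 / (ρ : ℝ) * ((15 * w ^ 2) / ρ) ^ (ε / 16)
          ≤ (2 * w ^ (1 + 2 * ε)) * (30 * w ^ (ε / 8)) :=
            mul_le_mul hinv h4 (by positivity) (by positivity)
        _ = 60 * w ^ (1 + 2 * ε + ε / 8) := by
            rw [Real.rpow_add hw0 (1 + 2 * ε)]; ring
    have h6 : 0 ≤ w ^ (1 + 2 * ε + ε / 8) := by positivity
    calc (81920 / 15) * K ^ 2 * (w ^ 2 / ρ * ((15 * w ^ 2) / ρ) ^ (ε / 16))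
        ≤ (81920 / 15) * K ^ 2 * (60 * w ^ (1 + 2 * ε + ε / 8)) :=
          mul_le_mul_of_nonneg_left h5 (by positivity)
      _ ≤ 10 ^ 9 * K ^ 2 * w ^ (1 + 2 * ε + ε / 8) := by
          have : 0 ≤ K ^ 2 * w ^ (1 + 2 * ε + ε / 8) := by positivity
          nlinarith
  · -- `Y`
    have h1 : w / (ρ : ℝ) ≤ 2 * w ^ (2 * ε) := by
      rw [div_le_iff₀ hρr]
      have h2 : w ^ (2 * ε) * w ^ (1 - 2 * ε) = w := by
        rw [← Real.rpow_add hw0]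
        convert Real.rpow_one w using 2
        ring
      have h3 : 0 < w ^ (2 * ε) := by positivity
      nlinarith
    have h4 : 1 ≤ w ^ (2 * ε) := Real.one_le_rpow hw1 (by positivity)
    have h5 : w / (ρ : ℝ) + 2 ≤ 4 * w ^ (2 * ε) := by linarith
    have h6 : 0 ≤ w / (ρ : ℝ) + 2 := by positivity
    calc (w / (ρ : ℝ) + 2) ^ 2 ≤ (4 * w ^ (2 * ε)) ^ 2 := pow_le_pow_left₀ h6 h5 2
      _ = 16 * w ^ (4 * ε) := by
          rw [mul_pow, ← Real.rpow_natCast (w ^ (2 * ε)), ← Real.rpow_mul hw0.le]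
          norm_num
          ring_nf
      _ ≤ 10 ^ 9 * K ^ 2 * w ^ (4 * ε) := by
          refine mul_le_mul_of_nonneg_right ?_ (by positivity)
          nlinarith

end Crest.Agent.R2.B717
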