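import Crest.Agent.R2.End911n
import Mathlib
import Crest.Agent.R2.Red62
import Crest.Agent.R2.Gcd62

-- ▼ part R2/End911
section

/-!
# R2 (Gaussian moat), END: composition of the blocks (helper911)
-/

set_option autoImplicit false

namespace Crest.Agent.R2.End911

open Finset
open Crest.Agent.R055 (IsProb ent)
open Crest.Agent.R2.T1 (IsTree TT leaf PathRich)
open Crest.Agent.R2.X149 (Blk KacStmt ClosedE cl)
open Crest.Agent.R2.Gcd62 (ab)

theorem exists_trim_bound {c1 : ℝ} (hc1 : 0 < c1) (Q : ℕ) :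
    ∃ Xt : ℝ, ∀ w ≥ Xt, (Q : ℝ) ≤ c1 / 2 * w / Real.log w := by
  have h1 : Filter.Tendsto (fun w : ℝ => c1 / 2 * w / Real.log w) Filter.atTop Filter.atTop := by
    have h2 : Filter.Tendsto (fun w : ℝ => w / Real.log w) Filter.atTop Filter.atTop := by
      have h3 : Filter.Tendsto (fun t : ℝ => Real.exp t / t) Filter.atTop Filter.atTop := by
        have := Real.tendsto_exp_div_pow_atTop 1
        simpa using this
      have h4 := h3.comp Real.tendsto_log_atTop
      refine h4.congr' ?_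
      filter_upwards [Filter.eventually_gt_atTop (0 : ℝ)] with w hw
      simp only [Function.comp]
      rw [Real.exp_log hw]
    have h5 := h2.const_mul_atTop (show (0 : ℝ) < c1 / 2 by positivity)
    refine h5.congr fun w => ?_
    ring
  obtain ⟨Xt, hXt⟩ := Filter.eventually_atTop.1 (h1.eventually_ge_atTop (Q : ℝ))
  exact ⟨Xt, hXt⟩

set_option maxHeartbeats 2000000 in
/-- **Composition**: K0, K8, N and the right half imply the finite sieve statement. -/
theorem sieveBlocked_of_blocks (hK0 : ClosedStmt) (hK8 : KacStmt) (hLS : LightStmt)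
    (hRS : RightStmt) (D₀ : ℝ) : SieveBlocked D₀ := by
  classical
  refine SieveBlocked.mono (le_max_left D₀ 1) ?_
  set D : ℝ := max D₀ 1 with hDdef
  have hD : 1 ≤ D := le_max_right _ _
  by_contra hnb
  obtain ⟨eps2, heps2, N, hN1, C2, hC2, hR⟩ := hRS
  set τ : ℝ := min (eps2 / 8) (1 / 100) with hτdef
  have hτ0 : 0 < τ := lt_min (by positivity) (by norm_num)
  have hτ1 : τ ≤ 1 / 100 := min_le_right _ _
  have hτ2 : 8 * τ ≤ eps2 := by
    have : τ ≤ eps2 / 8 := min_le_left _ _
    linarith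
  have hc0 : (0 : ℝ) < (1 / 160) / 2 := by norm_num
  obtain ⟨m, I, κ, W0, hm, hK⟩ := hK8 D ((1 / 160) / 2) τ hD hc0 hτ0 (by linarith)
  set Q : ℕ := m ^ I with hQdef
  have hQ : 0 < Q := pow_pos hm I
  have hQR : (0 : ℝ) < (Q : ℝ) := by exact_mod_cast hQ
  obtain ⟨κ', W0', H, C, hL⟩ := hLS D ((1 / 160) / 2) τ Q hD hc0 hτ0 hτ1 hQ
  set K0 : ℝ := 2 ^ 80 with hK0def
  have hK01 : 1 ≤ K0 := by rw [hK0def]; norm_num
  set ρ : ℝ := max 2 (max κ κ') with hρdef
  have hρ2 : 2 ≤ ρ := le_max_left _ _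
  have hρκ : κ ≤ ρ := (le_max_left _ _).trans (le_max_right _ _)
  have hρκ' : κ' ≤ ρ := (le_max_right _ _).trans (le_max_right _ _)
  set q : ℝ := K0 * ρ with hqdef
  have hq : 2 ≤ q := by
    rw [hqdef]; nlinarith
  obtain ⟨c, C4, hc, hnum⟩ := numbers hq hK01 hC2 hD H C
  set cR : ℝ := min c ((1 / 160) / 2 / (2 * Q)) with hcRdef
  have hcR : 0 < cR := lt_min hc (by positivity)
  obtain ⟨X0, hR0⟩ := hR D hD cR hcR C4
  obtain ⟨Xt, hXt⟩ := exists_trim_bound (show (0 : ℝ) < 1 / 160 by norm_num) Q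
  obtain ⟨X, n, l, wmax, hX1, hX2, hl1, hHsum, hwmax, hXw, hclog, hlC4, hnl, hDlX, hDlexp⟩ :=
    hnum (max X0 (max W0 (max W0' (max Xt 3))))
  have hXX0 : X0 ≤ X := (le_max_left _ _).trans hX1
  have hXW0 : W0 ≤ X := ((le_max_left _ _).trans (le_max_right _ _)).trans hX1
  have hXW0' : W0' ≤ X :=
    ((le_max_left _ _).trans ((le_max_right _ _).trans (le_max_right _ _))).trans hX1
  have hXXt : Xt ≤ X :=
    ((le_max_left _ _).trans ((le_max_right _ _).trans ((le_max_right _ _).trans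
      (le_max_right _ _)))).trans hX1
  have hX3 : 3 ≤ X :=
    ((le_max_right _ _).trans ((le_max_right _ _).trans ((le_max_right _ _).trans
      (le_max_right _ _)))).trans hX1
  have hX0' : 0 < X := by linarith
  -- the windows
  have hwin : ∀ k : ℕ, ∃ (w : ℝ) (G : Finset GaussianInt), q ^ k * X ≤ w ∧ w ≤ K0 * (q ^ k * X) ∧
      Blk w G ∧ Q ∣ #G ∧ (1 / 160) / 2 * w / Real.log w ≤ (#G : ℝ) ∧
      (#G : ℝ) ≤ 2 * ((1 / 160) / 2) * w / Real.log w := by
    intro k
    have hqk : 1 ≤ q ^ k := one_le_pow₀ (by linarith)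
    have hXk : X ≤ q ^ k * X := by nlinarith
    obtain ⟨w, G, h1, h2, h3, h4⟩ := Z306.supply (X := q ^ k * X) (by linarith)
    have hwX : X ≤ w := hXk.trans h1
    have h5 : 1 / 160 * w / Real.log w ≤ (#G : ℝ) := by
      refine le_trans (le_of_eq ?_) h4
      rw [div_mul_eq_mul_div, one_mul, div_div]
    obtain ⟨G', hG', ha, hb, hd⟩ := trim hQ (hXt w (hXXt.trans hwX)) h5
    exact ⟨w, G', h1, h2, Blk.mono (blk_of_good (by linarith) h3) hG', ha, hb, hd⟩
  choose w G hw1 hw2 hblk hdvd hlow hupp using hwin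
  have hXw' : ∀ k, X ≤ w k := by
    intro k
    have hqk : 1 ≤ q ^ k := one_le_pow₀ (by linarith)
    refine le_trans ?_ (hw1 k)
    nlinarith
  have hratio : ∀ k, ρ * w k ≤ w (k + 1) := by
    intro k
    refine le_trans ?_ (hw1 (k + 1))
    have := hw2 k
    calc ρ * w k ≤ ρ * (K0 * (q ^ k * X)) := mul_le_mul_of_nonneg_left this (by linarith)
      _ = q ^ (k + 1) * X := by rw [pow_succ, hqdef]; ring
  have hwpos : ∀ k, 0 < w k := fun k => lt_of_lt_of_le hX0' (hXw' k)
  -- the closed set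
  obtain ⟨E, hEne, hEcl, hEco⟩ := hK0 D hnb ((range n).biUnion G) (by
    intro p hp
    obtain ⟨k, _, hpk⟩ := Finset.mem_biUnion.1 hp
    exact (hblk k).prime p hpk)
  -- near-full Kac
  obtain ⟨Ω, instΩ, P, z, hP, hz, hG'⟩ := hK n w G (fun k _ => hXW0.trans (hXw' k))
    (fun k _ => (mul_le_mul_of_nonneg_right hρκ (hwpos k).le).trans (hratio k))
    (fun k _ => hblk k) (fun k _ => hdvd k) (fun k _ => hlow k) (fun k _ => hupp k) E hEne hEcl
  choose! G' hG's hG'c hG'e using hG'
  -- the tree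
  have hlR : (1 : ℝ) ≤ (l : ℝ) := by exact_mod_cast hl1
  have hT0 : 0 < 2 * D * (l : ℝ) := by positivity
  have hDT0 : D ≤ 2 * D * (l : ℝ) := by nlinarith
  obtain ⟨J, hJ1, hJ2⟩ := exists_level N hT0 hDlexp
  have htree : ∀ ω, ∃ node, IsTree E N (TT N (2 * D * (l : ℝ))) J (z ω) node :=
    fun ω => T1.exists_tree hEcl N hT0 hDT0 J (hz ω)
  choose node hnode using htree
  have hlogX : 0 < Real.log X := Real.log_pos (by linarith)
  have hlogwm : 0 ≤ Real.log wmax := by
    have := Real.log_le_log hX0' hXw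
    linarith
  have hR1 : (1 : ℝ) ≤ Real.exp (2 * (C2 * Real.log wmax)) := by
    apply Real.one_le_exp
    positivity
  haveI : Nonempty (Fin N) := ⟨⟨0, hN1⟩⟩
  -- light classes
  obtain ⟨k, hk, ω, Cf, cf, hclus, G3, hG3s, hG3c, hlight⟩ := hL n w G' E l
    (Real.exp (2 * (C2 * Real.log wmax)))
    (fun k _ => hXW0'.trans (hXw' k))
    (fun k _ => (mul_le_mul_of_nonneg_right hρκ' (hwpos k).le).trans (hratio k))
    (fun k hk => Blk.mono (hblk k) (hG's k hk))
    (fun k hk => by
      refine (hlow k).trans ?_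
      have := hG'c k hk
      exact_mod_cast this)
    (fun k hk => by
      refine le_trans ?_ (hupp k)
      exact_mod_cast Finset.card_le_card (hG's k hk))
    (hHsum w fun k _ => ⟨hw1 k, hw2 k⟩)
    hR1
    (by rw [Real.log_exp]; exact hnl)
    (fun k _ => hDlX.trans (hXw' k))
    hEcl
    (fun k hk p hp x hx => hEco x hx p
      (Finset.mem_biUnion.2 ⟨k, Finset.mem_range.2 hk, hG's k hk hp⟩))
    Ω instΩ P z hP hz
    (fun k hk => hG'e k hk)
    (Fin J → Fin N) inferInstance inferInstance (fun ω => leaf (node ω))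
    (fun ω i => (hnode ω).leaf_mem i)
    (fun ω i => by
      have h1 := (hnode ω).leaf_near i
      have h2 : TT N (2 * D * (l : ℝ)) 0 = 2 * D * l := T1.TT_zero _ _
      rw [h2] at h1
      change ‖GaussianInt.toComplex (leaf (node ω) i - z ω)‖ ≤ _
      linarith)
  -- conclusion
  have hlogk : 0 < Real.log (w k) := by
    have := Real.log_le_log hX0' (hXw' k)
    linarith
  refine hR0 (w k) wmax (hXX0.trans (hXw' k)) ((hw2 k).trans (hwmax k hk)) ?_ l hl1 hlC4 J hJ1 hJ2
    E (z ω) (node ω) (hnode ω) Cf cf hclus G3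
    (Blk.mono (hblk k) (hG3s.trans (hG's k hk))) ?_ ?_
  · calc cR * Real.log wmax ≤ c * Real.log wmax :=
          mul_le_mul_of_nonneg_right (min_le_left _ _) hlogwm
      _ ≤ Real.log X := hclog
      _ ≤ Real.log (w k) := Real.log_le_log hX0' (hXw' k)
  · have h1 : cR ≤ (1 / 160) / 2 / (2 * Q) := min_le_right _ _
    have h2 : (#(G k) : ℝ) ≤ (Q : ℝ) * (#(G' k) : ℝ) := by exact_mod_cast hG'c k hk
    have h3 : (#(G' k) : ℝ) ≤ 2 * (#G3 : ℝ) := by exact_mod_cast hG3c
    have h4 := hlow k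
    set y : ℝ := w k / Real.log (w k) with hy
    have hy0 : 0 < y := div_pos (hwpos k) hlogk
    have h5 : (1 / 160) / 2 * y ≤ (#(G k) : ℝ) := by
      refine le_trans (le_of_eq ?_) h4
      rw [hy]; ring
    have h6 : (1 / 160) / 2 * y ≤ (Q : ℝ) * (2 * (#G3 : ℝ)) := by
      refine h5.trans (h2.trans ?_)
      exact mul_le_mul_of_nonneg_left h3 hQR.le
    calc cR * w k / Real.log (w k) = cR * y := by rw [hy]; ring
      _ ≤ (1 / 160) / 2 / (2 * Q) * y := mul_le_mul_of_nonneg_right h1 hy0.le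
      _ = ((1 / 160) / 2 * y) / (2 * Q) := by ring
      _ ≤ ((Q : ℝ) * (2 * (#G3 : ℝ))) / (2 * Q) :=
          div_le_div_of_nonneg_right h6 (by positivity)
      _ = (#G3 : ℝ) := by field_simp
  · intro p hp
    refine (hlight p hp).mono ?_
    apply Real.rpow_le_rpow_of_exponent_le
    · have := (hblk k).lo p (hG's k hk (hG3s hp))
      have := hXw' k
      linarith
    · linarith

end Crest.Agent.R2.End911
end

-- ▼ part R2/Closed62

/-!
# R2 (Gaussian moat), block K0: a nonempty closed set of escaping points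
-/

set_option autoImplicit false

namespace Crest.Agent.R2.K0

open Crest.Agent.R2 Crest.Agent.R2.Gcd62

/-- finite `D`-path from `z`, coprime to `P`, of displacement at least `R` -/
def CoPath (P : Finset GaussianInt) (D : ℝ) (z : GaussianInt) (R : ℝ) : Prop :=
  ∃ (n : ℕ) (x : ℕ → GaussianInt), x 0 = z ∧
    (∀ i < n, ab (x (i + 1) - x i) ≤ D) ∧
    (∀ i ≤ n, ∀ p ∈ P, ¬ p ∣ x i) ∧ R ≤ ab (x n - z)

theorem CoPath.mono {P : Finset GaussianInt} {D : ℝ} {z : GaussianInt} {R R' : ℝ} (hR : R' ≤ R)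
    (h : CoPath P D z R) : CoPath P D z R' := by
  obtain ⟨n, x, h1, h2, h3, h4⟩ := h
  exact ⟨n, x, h1, h2, h3, hR.trans h4⟩

theorem CoPath.translate {P : Finset GaussianInt} {D : ℝ} {z z' : GaussianInt} {R : ℝ}
    (hz : (∏ p ∈ P, p) ∣ z' - z) (h : CoPath P D z R) : CoPath P D z' R := by
  obtain ⟨n, x, h1, h2, h3, h4⟩ := h
  refine ⟨n, fun i => x i + (z' - z), ?_, ?_, ?_, ?_⟩
  · simp only [h1]; ring
  · intro i hi
    have : x (i + 1) + (z' - z) - (x i + (z' - z)) = x (i + 1) - x i := by ring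
    simp only [this]
    exact h2 i hi
  · intro i hi p hp hdvd
    have hp' : p ∣ z' - z := (Finset.dvd_prod_of_mem (fun q => q) hp).trans hz
    exact h3 i hi p hp ((dvd_add_left hp').1 hdvd)
  · have : x n + (z' - z) - z' = x n - z := by ring
    simp only [this]
    exact h4

/-- the set of points from which one can escape arbitrarily far -/
def EE (P : Finset GaussianInt) (D : ℝ) : Set GaussianInt := {z | ∀ R : ℝ, CoPath P D z R}

theorem mem_EE {P : Finset GaussianInt} {D : ℝ} {z : GaussianInt} :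
    z ∈ EE P D ↔ ∀ R : ℝ, CoPath P D z R := Iff.rfl

theorem mem_EE_translate {P : Finset GaussianInt} {D : ℝ} {z z' : GaussianInt}
    (hz : (∏ p ∈ P, p) ∣ z' - z) (h : z ∈ EE P D) : z' ∈ EE P D :=
  mem_EE.2 fun R => (mem_EE.1 h R).translate hz

/-- stabilisation -/
theorem exists_stable (P : Finset GaussianInt) (hP : ∀ p ∈ P, Prime p) (D : ℝ) :
    ∃ R₀ : ℝ, ∀ z, CoPath P D z R₀ → z ∈ EE P D := by
  classical
  set M : GaussianInt := ∏ p ∈ P, p with hM
  have hM0 : M ≠ 0 := Finset.prod_ne_zero_iff.2 fun p hp => (hP p hp).ne_zero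
  -- radius function
  have hch : ∀ r : GaussianInt, ∃ ρ : ℝ, r ∈ EE P D ∨ ¬ CoPath P D r ρ := by
    intro r
    by_cases h : r ∈ EE P D
    · exact ⟨0, Or.inl h⟩
    · rw [mem_EE] at h
      push Not at h
      obtain ⟨ρ, hρ⟩ := h
      exact ⟨ρ, Or.inr hρ⟩
  choose ρ hρ using hch
  refine ⟨∑ r ∈ ball (ab M), |ρ r|, ?_⟩
  intro z hz
  -- representative
  set r : GaussianInt := z % M with hr
  have hrM : ab r ≤ ab M := by
    have h1 : (r.norm : ℝ) < (M.norm : ℝ) := by
      have := GaussianInt.norm_mod_lt z hM0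
      exact_mod_cast this
    rw [← ab_sq, ← ab_sq] at h1
    exact le_of_lt (lt_of_pow_lt_pow_left₀ 2 (ab_nonneg M) h1)
  have hdiv : M ∣ z - r := by
    have : z - r = M * (z / M) := by
      rw [hr]
      have := EuclideanDomain.div_add_mod z M
      linear_combination -this
    rw [this]; exact dvd_mul_right _ _
  have hdiv' : M ∣ r - z := by rw [← neg_sub]; exact (dvd_neg).2 hdiv
  have hrC : CoPath P D r (∑ r ∈ ball (ab M), |ρ r|) := hz.translate hdiv'
  have hle : ρ r ≤ ∑ r ∈ ball (ab M), |ρ r| := by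
    refine (le_abs_self _).trans ?_
    exact Finset.single_le_sum (f := fun r => |ρ r|) (fun _ _ => abs_nonneg _) (mem_ball.2 hrM)
  rcases hρ r with h | h
  · exact mem_EE_translate hdiv h
  · exact absurd (hrC.mono hle) h

/-- **Block K0.** If `D` is not blocked by a sieve then for every finite set `P` of Gaussian primes
there is a nonempty set `E` of points coprime to `P` such that from every point of `E` there are
`D`-paths inside `E` of every displacement. -/
theorem exists_closed {D : ℝ} (hD : ¬ SieveBlocked D) (P : Finset GaussianInt)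
    (hP : ∀ p ∈ P, Prime p) :
    ∃ E : Set GaussianInt, E.Nonempty ∧
      (∀ z ∈ E, ∀ X : ℝ, ∃ (n : ℕ) (γ : ℕ → GaussianInt), γ 0 = z ∧ (∀ i ≤ n, γ i ∈ E) ∧
        (∀ i < n, ab (γ (i + 1) - γ i) ≤ D) ∧ X ≤ ab (γ n - z)) ∧
      ∀ z ∈ E, ∀ p ∈ P, ¬ p ∣ z := by
  classical
  obtain ⟨R₀, hR₀⟩ := exists_stable P hP D
  refine ⟨EE P D, ?_, ?_, ?_⟩
  · -- nonempty
    unfold SieveBlocked at hD
    push Not at hD
    obtain ⟨n, x, h1, h2, h3⟩ := hD P R₀ hP
    exact ⟨x 0, hR₀ (x 0) ⟨n, x, rfl, h1, h2, h3⟩⟩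
  · intro z hz X
    obtain ⟨n, x, h0, h1, h2, h3⟩ := mem_EE.1 hz (|X| + |R₀| + |D|)
    -- first index with displacement ≥ X
    have hex : ∃ i, i ≤ n ∧ X ≤ ab (x i - z) := ⟨n, le_rfl, by
      have := le_abs_self X
      have := abs_nonneg R₀
      have := abs_nonneg D
      linarith⟩
    set j := Nat.find hex with hj
    obtain ⟨hjn, hjX⟩ := Nat.find_spec hex
    have hlt : ∀ i < j, ab (x i - z) < X := by
      intro i hi
      by_contra hcon
      push Not at hcon
      exact Nat.find_min hex hi ⟨by omega, hcon⟩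
    refine ⟨j, x, h0, ?_, fun i hi => h1 i (by omega), hjX⟩
    intro i hi
    -- x i is at distance ≤ |X| + |D| from z
    have hclose : ab (x i - z) ≤ |X| + |D| := by
      rcases Nat.eq_zero_or_pos i with h | hpos
      · subst h
        rw [h0, sub_self, ab_zero]
        positivity
      · have h4 : ab (x (i - 1) - z) < X := hlt (i - 1) (by omega)
        have h5 : ab (x i - x (i - 1)) ≤ D := by
          have := h1 (i - 1) (by omega)
          rwa [Nat.sub_add_cancel hpos] at this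
        have h6 : x i - z = (x i - x (i - 1)) + (x (i - 1) - z) := by ring
        rw [h6]
        have h7 := ab_add_le (x i - x (i - 1)) (x (i - 1) - z)
        have := le_abs_self X
        have := le_abs_self D
        linarith
    refine hR₀ (x i) ⟨n - i, fun k => x (i + k), by simp, ?_, ?_, ?_⟩
    · intro k hk
      have := h1 (i + k) (by omega)
      simpa [Nat.add_assoc] using this
    · intro k hk
      exact h2 (i + k) (by omega)
    · have hin : i + (n - i) = n := by omega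
      simp only [hin]
      have h6 : x n - z = (x n - x i) + (x i - z) := by ring
      rw [h6] at h3
      have h7 := ab_add_le (x n - x i) (x i - z)
      have := le_abs_self R₀
      linarith
  · intro z hz p hp hdvd
    obtain ⟨n, x, h0, h1, h2, h3⟩ := mem_EE.1 hz 0
    exact h2 0 (Nat.zero_le _) p hp (h0 ▸ hdvd)



end Crest.Agent.R2.K0
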