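import Mathlib
import Crest.Agent.R055.Ent
import Crest.Agent.R2.Gcd62
import Crest.Agent.R2.ThmS717

/-!
# R2 (Gaussian moat): shared definitions and frozen block statements (helper149)
Text: posts #11294, #11351, #11312.  Every block statement is a `def ... : Prop`.
-/

set_option autoImplicit false

namespace Crest.Agent.R2.X149

open Finset Crest.Agent.R055 Crest.Agent.R2.Gcd62 Crest.Agent.R2 Crest.Agent.R2.E717

/-- residue class of `z` modulo `M` -/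
noncomputable def cl (M z : GaussianInt) : GaussianInt ⧸ Ideal.span {M} :=
  Ideal.Quotient.mk (Ideal.span {M}) z

theorem cl_eq_iff (M z z' : GaussianInt) : cl M z = cl M z' ↔ M ∣ z - z' := by
  unfold cl
  rw [Ideal.Quotient.eq, Ideal.mem_span_singleton]

/-- `E` is rich in `D`-paths: from every point there are finite `D`-paths inside `E` of every
displacement. (= `T1.PathRich E D` of helper763) -/
def ClosedE (D : ℝ) (E : Set GaussianInt) : Prop :=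
  ∀ z ∈ E, ∀ X : ℝ, ∃ (n : ℕ) (γ : ℕ → GaussianInt), γ 0 = z ∧ (∀ i ≤ n, γ i ∈ E) ∧
    (∀ i < n, ab (γ (i + 1) - γ i) ≤ D) ∧ X ≤ ab (γ n - z)

/-- a window of split Gaussian primes, one per conjugate pair, with norms in `(w, 4w]` -/
structure Blk (w : ℝ) (G : Finset GaussianInt) : Prop where
  prime : ∀ p ∈ G, Prime p
  lo : ∀ p ∈ G, w < (p.norm : ℝ)
  hi : ∀ p ∈ G, (p.norm : ℝ) ≤ 4 * w
  rat : ∀ p ∈ G, Nat.Prime p.norm.natAbs
  conj : ∀ p ∈ G, ∀ q ∈ G, ¬ Associated p (star q)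
  assoc : ∀ p ∈ G, ∀ q ∈ G, Associated p q → p = q

/-- BLOCK K8: near-full Kac -/
def KacStmt : Prop :=
  ∀ D c0 τ : ℝ, 1 ≤ D → 0 < c0 → 0 < τ → τ < 1 →
  ∃ (m I : ℕ) (κ W0 : ℝ), 0 < m ∧
    ∀ (n : ℕ) (w : ℕ → ℝ) (G : ℕ → Finset GaussianInt),
      (∀ k < n, W0 ≤ w k) → (∀ k, k + 1 < n → κ * w k ≤ w (k + 1)) →
      (∀ k < n, Blk (w k) (G k)) → (∀ k < n, m ^ I ∣ (G k).card) →
      (∀ k < n, c0 * w k / Real.log (w k) ≤ (G k).card) →
      (∀ k < n, ((G k).card : ℝ) ≤ 2 * c0 * w k / Real.log (w k)) →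
      ∀ E : Set GaussianInt, E.Nonempty → ClosedE D E →
        ∃ (Ω : Type) (_ : Fintype Ω) (P : Ω → ℝ) (z : Ω → GaussianInt), IsProb P ∧
          (∀ ω, z ω ∈ E) ∧
          ∀ k < n, ∃ G' ⊆ G k, (G k).card ≤ m ^ I * G'.card ∧
            (1 - τ) * ∑ p ∈ G', Real.log (p.norm : ℝ) ≤
              ent P (fun ω => cl (∏ p ∈ G', p) (z ω))

/-- cluster law at `x`: probability weight on `A`, inside the ball of radius `T0` around `x`,
every point of mass `≤ 1/l`. -/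
structure IsCluster (T0 : ℝ) (l : ℕ) (x : GaussianInt) (A : Finset GaussianInt)
    (c : GaussianInt → ℝ) : Prop where
  prob : IsProbOn A c
  zero : ∀ v, v ∉ A → c v = 0
  supp : ∀ v ∈ A, ab (v - x) ≤ T0
  le : ∀ v, c v ≤ 1 / (l : ℝ)

/-- average of the cluster laws over a finite set `Y` of centres -/
noncomputable def avgC (Y : Finset GaussianInt) (c : GaussianInt → GaussianInt → ℝ)
    (v : GaussianInt) : ℝ := (∑ y ∈ Y, c y v) / (Y.card : ℝ)

/-- the support of the average -/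
noncomputable def suppC (Y : Finset GaussianInt) (A : GaussianInt → Finset GaussianInt) :
    Finset GaussianInt := Y.biUnion A

open Classical in
/-- many light classes modulo `p`: at least `norm p ^ (1-ε)` classes of mass `≤ 1/(4 norm p)` -/
def ManyLight (ε : ℝ) (A : Finset GaussianInt) (μ : GaussianInt → ℝ) (p : GaussianInt) : Prop :=
  ∃ S : Finset (GaussianInt ⧸ Ideal.span {p}), (p.norm : ℝ) ^ (1 - ε) ≤ (S.card : ℝ) ∧
    ∀ q ∈ S, (∑ v ∈ A, if cl p v = q then μ v else 0) ≤ 1 / (4 * (p.norm : ℝ))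

/-- BLOCK N1+N2: from near-full Kac to light classes, at one scale `k` and one point `x ∈ E` -/
def LightStmt : Prop :=
  ∀ (D c0 τ : ℝ) (mI : ℕ), 1 ≤ D → 0 < c0 → 0 < τ → τ ≤ 1 / 100 → 0 < mI →
  ∃ κ W0 H C : ℝ,
    ∀ (n : ℕ) (w : ℕ → ℝ) (G' : ℕ → Finset GaussianInt) (E : Set GaussianInt) (l : ℕ) (R : ℝ)
      (Y : GaussianInt → Finset GaussianInt),
      (∀ k < n, W0 ≤ w k) → (∀ k, k + 1 < n → κ * w k ≤ w (k + 1)) →
      (∀ k < n, Blk (w k) (G' k)) →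
      (∀ k < n, c0 * w k / Real.log (w k) ≤ mI * (G' k).card) →
      (∀ k < n, ((G' k).card : ℝ) ≤ 2 * c0 * w k / Real.log (w k)) →
      H ≤ ∑ k ∈ Finset.range n, 1 / Real.log (w k) →
      1 ≤ R → (n : ℝ) * (2 * Real.log R + C) ≤ l → (∀ k < n, (2 * D * l) ^ 2 ≤ w k) →
      ClosedE D E → (∀ k < n, ∀ p ∈ G' k, ∀ x ∈ E, ¬ p ∣ x) →
      (∀ x ∈ E, (Y x).Nonempty ∧ ∀ y ∈ Y x, y ∈ E ∧ ab (y - x) ≤ R) →
      ∀ (Ω : Type) (_ : Fintype Ω) (P : Ω → ℝ) (z : Ω → GaussianInt), IsProb P →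
      (∀ ω, z ω ∈ E) →
      (∀ k < n, (1 - τ) * ∑ p ∈ G' k, Real.log (p.norm : ℝ) ≤
              ent P (fun ω => cl (∏ p ∈ G' k, p) (z ω))) →
      ∃ k < n, ∃ x ∈ E, ∃ (A : GaussianInt → Finset GaussianInt) (c : GaussianInt → GaussianInt → ℝ),
        (∀ y ∈ Y x, IsCluster (D * l) l y (A y) (c y)) ∧
        ∃ G'' ⊆ G' k, (G' k).card ≤ 2 * G''.card ∧
          ∀ p ∈ G'', ManyLight (8 * τ) (suppC (Y x) A) (avgC (Y x) c) p



end Crest.Agent.R2.X149
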