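import Mathlib

-- ▼ part R2/End717a
section

/-!
# R2 (Gaussian moat), Theorem S, end game: definitions and elementary lemmas

* `chi v x = exp (2 pi i Re (v x))`, `mhat A m x = sum_{z in A} m z * chi z x`
* counting Gaussian integers in discs
* Cauchy-Schwarz: many large Fourier coefficients give a large coefficient at a difference
-/

set_option autoImplicit false

namespace Crest.Agent.R2.E717

open Finset

/-- absolute value of a Gaussian integer -/
noncomputable abbrev N (z : GaussianInt) : ℝ := ‖(z : ℂ)‖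

/-- the characters of `ℤ[i]` -/
noncomputable def chi (v : GaussianInt) (x : ℂ) : ℂ :=
  Complex.exp (2 * Real.pi * (((v : ℂ) * x).re : ℂ) * Complex.I)

/-- Fourier transform of a finitely supported weight on `ℤ[i]` -/
noncomputable def mhat (A : Finset GaussianInt) (m : GaussianInt → ℝ) (x : ℂ) : ℂ :=
  ∑ z ∈ A, (m z : ℂ) * chi z x

theorem norm_chi (v : GaussianInt) (x : ℂ) : ‖chi v x‖ = 1 := by
  unfold chi
  have : (2 * (Real.pi : ℂ) * (((v : ℂ) * x).re : ℂ) * Complex.I)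
      = ((2 * Real.pi * ((v : ℂ) * x).re : ℝ) : ℂ) * Complex.I := by push_cast; ring
  rw [this, Complex.norm_exp_ofReal_mul_I]

theorem chi_sub (v : GaussianInt) (x y : ℂ) :
    chi v (x - y) = chi v x * (starRingEnd ℂ) (chi v y) := by
  unfold chi
  rw [← Complex.exp_conj, ← Complex.exp_add]
  congr 1
  simp only [map_mul, Complex.conj_ofReal, Complex.conj_I, map_ofNat, mul_sub, Complex.sub_re,
    Complex.ofReal_sub]
  ring


theorem norm_mhat_le (A : Finset GaussianInt) (m : GaussianInt → ℝ) (hm : ∀ z ∈ A, 0 ≤ m z)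
    (x : ℂ) : ‖mhat A m x‖ ≤ ∑ z ∈ A, m z := by
  unfold mhat
  refine (norm_sum_le _ _).trans (Finset.sum_le_sum fun z hz => ?_)
  rw [norm_mul, norm_chi, mul_one, Complex.norm_real, Real.norm_eq_abs, abs_of_nonneg (hm z hz)]

/-- Cauchy-Schwarz in `L²(m)`. -/
theorem exists_pair {ι : Type*} [DecidableEq ι] (A : Finset GaussianInt) (m : GaussianInt → ℝ)
    (hm : ∀ z ∈ A, 0 ≤ m z) (hsum : ∑ z ∈ A, m z = 1) (T : Finset ι) (x : ι → ℂ) (τ : ℝ)
    (hτ0 : 0 < τ) (hT : ∀ i ∈ T, τ ≤ ‖mhat A m (x i)‖) (hcard : 4 / τ ^ 2 ≤ (T.card : ℝ)) :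
    ∃ i ∈ T, ∃ j ∈ T, i ≠ j ∧ τ ^ 2 / 2 ≤ ‖mhat A m (x i - x j)‖ := by
  classical
  by_contra hcon
  push Not at hcon
  -- unimodular signs
  have hex : ∀ i : ι, ∃ s : ℂ, ‖s‖ ≤ 1 ∧ s * mhat A m (x i) = (‖mhat A m (x i)‖ : ℂ) := by
    intro i
    by_cases h0 : mhat A m (x i) = 0
    · exact ⟨0, by simp, by simp [h0]⟩
    · refine ⟨(starRingEnd ℂ) (mhat A m (x i)) / (‖mhat A m (x i)‖ : ℂ), ?_, ?_⟩
      · rw [norm_div, RCLike.norm_conj, Complex.norm_real, norm_norm,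
          div_self (norm_ne_zero_iff.mpr h0)]
      · have h1 : (‖mhat A m (x i)‖ : ℂ) ≠ 0 := by
          exact_mod_cast norm_ne_zero_iff.mpr h0
        rw [div_mul_eq_mul_div, div_eq_iff h1, mul_comm, Complex.mul_conj,
          Complex.normSq_eq_norm_sq]
        push_cast; ring
  choose s hs1 hs2 using hex
  set S : GaussianInt → ℂ := fun z => ∑ i ∈ T, s i * chi z (x i) with hS
  have h1 : (∑ i ∈ T, (‖mhat A m (x i)‖ : ℂ)) = ∑ z ∈ A, (m z : ℂ) * S z := by
    calc (∑ i ∈ T, (‖mhat A m (x i)‖ : ℂ)) = ∑ i ∈ T, s i * mhat A m (x i) :=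
          Finset.sum_congr rfl fun i _ => (hs2 i).symm
      _ = ∑ i ∈ T, ∑ z ∈ A, (m z : ℂ) * (s i * chi z (x i)) := by
          refine Finset.sum_congr rfl fun i _ => ?_
          unfold mhat
          rw [Finset.mul_sum]
          exact Finset.sum_congr rfl fun z _ => by ring
      _ = ∑ z ∈ A, (m z : ℂ) * S z := by
          rw [Finset.sum_comm]
          refine Finset.sum_congr rfl fun z _ => ?_
          rw [hS, Finset.mul_sum]
  have h2 : τ * T.card ≤ ∑ z ∈ A, m z * ‖S z‖ := by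
    have h3 : τ * T.card ≤ ∑ i ∈ T, ‖mhat A m (x i)‖ := by
      have := Finset.card_nsmul_le_sum T (fun i => ‖mhat A m (x i)‖) τ hT
      rw [nsmul_eq_mul] at this
      linarith [mul_comm τ (T.card : ℝ)]
    have h4 : ∑ i ∈ T, ‖mhat A m (x i)‖ = ‖∑ i ∈ T, (‖mhat A m (x i)‖ : ℂ)‖ := by
      rw [← Complex.ofReal_sum, Complex.norm_real, Real.norm_eq_abs, abs_of_nonneg]
      exact Finset.sum_nonneg fun i _ => norm_nonneg _
    rw [h4, h1] at h3
    refine h3.trans ((norm_sum_le _ _).trans (Finset.sum_le_sum fun z hz => ?_))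
    rw [norm_mul, Complex.norm_real, Real.norm_eq_abs, abs_of_nonneg (hm z hz)]
  -- Cauchy-Schwarz
  have h5 : (∑ z ∈ A, m z * ‖S z‖) ^ 2 ≤ ∑ z ∈ A, m z * ‖S z‖ ^ 2 := by
    have := Finset.sum_mul_sq_le_sq_mul_sq A (fun z => Real.sqrt (m z))
      (fun z => Real.sqrt (m z) * ‖S z‖)
    have e1 : ∑ z ∈ A, Real.sqrt (m z) * (Real.sqrt (m z) * ‖S z‖) = ∑ z ∈ A, m z * ‖S z‖ :=
      Finset.sum_congr rfl fun z hz => by
        rw [← mul_assoc, Real.mul_self_sqrt (hm z hz)]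
    have e2 : ∑ z ∈ A, Real.sqrt (m z) ^ 2 = 1 := by
      rw [← hsum]
      exact Finset.sum_congr rfl fun z hz => Real.sq_sqrt (hm z hz)
    have e3 : ∑ z ∈ A, (Real.sqrt (m z) * ‖S z‖) ^ 2 = ∑ z ∈ A, m z * ‖S z‖ ^ 2 :=
      Finset.sum_congr rfl fun z hz => by
        rw [mul_pow, Real.sq_sqrt (hm z hz)]
    rw [e1, e2, e3, one_mul] at this
    exact this
  have h6 : ((∑ z ∈ A, m z * ‖S z‖ ^ 2 : ℝ) : ℂ)
      = ∑ i ∈ T, ∑ j ∈ T, s i * (starRingEnd ℂ) (s j) * mhat A m (x i - x j) := by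
    have h7 : ∀ z, ((‖S z‖ ^ 2 : ℝ) : ℂ)
        = ∑ i ∈ T, ∑ j ∈ T, s i * (starRingEnd ℂ) (s j) * chi z (x i - x j) := by
      intro z
      rw [← Complex.normSq_eq_norm_sq, ← Complex.mul_conj, hS]
      simp only [map_sum, map_mul]
      rw [Finset.sum_mul_sum]
      refine Finset.sum_congr rfl fun i _ => Finset.sum_congr rfl fun j _ => ?_
      rw [chi_sub]; ring
    push_cast
    have h8 : ∀ z, (m z : ℂ) * (‖S z‖ : ℂ) ^ 2
        = ∑ i ∈ T, ∑ j ∈ T, s i * (starRingEnd ℂ) (s j) * ((m z : ℂ) * chi z (x i - x j)) := by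
      intro z
      have := h7 z
      push_cast at this
      rw [this, Finset.mul_sum]
      refine Finset.sum_congr rfl fun i _ => ?_
      rw [Finset.mul_sum]
      exact Finset.sum_congr rfl fun j _ => by ring
    rw [Finset.sum_congr rfl fun z _ => h8 z, Finset.sum_comm]
    refine Finset.sum_congr rfl fun i _ => ?_
    rw [Finset.sum_comm]
    refine Finset.sum_congr rfl fun j _ => ?_
    unfold mhat
    rw [Finset.mul_sum]
  have h9 : ∑ z ∈ A, m z * ‖S z‖ ^ 2 ≤ ∑ i ∈ T, ∑ j ∈ T, ‖mhat A m (x i - x j)‖ := by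
    have e0 : 0 ≤ ∑ z ∈ A, m z * ‖S z‖ ^ 2 :=
      Finset.sum_nonneg fun z hz => mul_nonneg (hm z hz) (by positivity)
    have e1 : ∑ z ∈ A, m z * ‖S z‖ ^ 2 = ‖((∑ z ∈ A, m z * ‖S z‖ ^ 2 : ℝ) : ℂ)‖ := by
      rw [Complex.norm_real, Real.norm_eq_abs, abs_of_nonneg e0]
    rw [e1, h6]
    refine (norm_sum_le _ _).trans (Finset.sum_le_sum fun i _ => ?_)
    refine (norm_sum_le _ _).trans (Finset.sum_le_sum fun j _ => ?_)
    rw [norm_mul, norm_mul, RCLike.norm_conj]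
    have := mul_le_one₀ (hs1 i) (norm_nonneg _) (hs1 j)
    exact mul_le_of_le_one_left (norm_nonneg _) this
  have h10 : ∑ i ∈ T, ∑ j ∈ T, ‖mhat A m (x i - x j)‖ ≤ T.card + τ ^ 2 / 2 * T.card ^ 2 := by
    have e1 : ∀ i ∈ T, ∑ j ∈ T, ‖mhat A m (x i - x j)‖ ≤ 1 + τ ^ 2 / 2 * T.card := by
      intro i hi
      rw [← Finset.add_sum_erase T _ hi]
      have e2 : ‖mhat A m (x i - x i)‖ ≤ 1 := by
        have := norm_mhat_le A m hm (x i - x i)
        rwa [hsum] at this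
      have e3 : ∑ j ∈ T.erase i, ‖mhat A m (x i - x j)‖ ≤ τ ^ 2 / 2 * T.card := by
        have e4 : ∑ j ∈ T.erase i, ‖mhat A m (x i - x j)‖ ≤ ∑ j ∈ T.erase i, τ ^ 2 / 2 := by
          refine Finset.sum_le_sum fun j hj => ?_
          rw [Finset.mem_erase] at hj
          exact (hcon i hi j hj.2 (Ne.symm hj.1)).le
        rw [Finset.sum_const, nsmul_eq_mul] at e4
        have e5 : ((T.erase i).card : ℝ) ≤ T.card := by
          exact_mod_cast Finset.card_erase_le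
        nlinarith [sq_nonneg τ]
      linarith
    have e2 := Finset.sum_le_card_nsmul T _ _ e1
    rw [nsmul_eq_mul] at e2
    nlinarith [e2]
  have hTpos : (0 : ℝ) < T.card := lt_of_lt_of_le (by positivity) hcard
  have h11 : (τ * T.card) ^ 2 ≤ T.card + τ ^ 2 / 2 * T.card ^ 2 := by
    have e1 : (τ * T.card) ^ 2 ≤ (∑ z ∈ A, m z * ‖S z‖) ^ 2 :=
      pow_le_pow_left₀ (by positivity) h2 2
    linarith
  have h12 : τ ^ 2 / 2 * (T.card : ℝ) ^ 2 ≤ T.card := by nlinarith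
  have h13 : τ ^ 2 / 2 * (T.card : ℝ) ≤ 1 := by
    by_contra h
    push Not at h
    nlinarith
  have h14 : 4 ≤ τ ^ 2 * (T.card : ℝ) := by
    rw [div_le_iff₀ (by positivity)] at hcard
    linarith
  linarith

end Crest.Agent.R2.E717
end

-- ▼ part R2/End717b

/-!
# R2 (Gaussian moat), Theorem S, end game: counting Gaussian integers in discs, pigeonhole
-/

set_option autoImplicit false

namespace Crest.Agent.R2.E717

open Finset

theorem abs_re_le (z : GaussianInt) : |(z.re : ℝ)| ≤ N z := by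
  have := Complex.abs_re_le_norm (z : ℂ)
  rwa [← GaussianInt.intCast_re] at this

theorem abs_im_le (z : GaussianInt) : |(z.im : ℝ)| ≤ N z := by
  have := Complex.abs_im_le_norm (z : ℂ)
  rwa [← GaussianInt.intCast_im] at this

theorem N_sq (z : GaussianInt) : N z ^ 2 = (z.re : ℝ) ^ 2 + (z.im : ℝ) ^ 2 := by
  unfold N
  rw [← Complex.normSq_eq_norm_sq, Complex.normSq_apply, ← GaussianInt.intCast_re,
    ← GaussianInt.intCast_im]
  ring

theorem N_mul (z w : GaussianInt) : N (z * w) = N z * N w := by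
  unfold N; rw [GaussianInt.toComplex_mul, norm_mul]

theorem N_pow (z : GaussianInt) (k : ℕ) : N (z ^ k) = N z ^ k := by
  unfold N; rw [map_pow, norm_pow]

theorem N_zero : N 0 = 0 := by unfold N; simp

theorem N_eq_zero {z : GaussianInt} : N z = 0 ↔ z = 0 := by
  unfold N; rw [norm_eq_zero, GaussianInt.toComplex_eq_zero]

theorem N_nonneg (z : GaussianInt) : 0 ≤ N z := norm_nonneg _

theorem N_sub_comm (z w : GaussianInt) : N (z - w) = N (w - z) := by
  unfold N; rw [GaussianInt.toComplex_sub, GaussianInt.toComplex_sub, norm_sub_rev]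

theorem N_sub_le (z w : GaussianInt) : N (z - w) ≤ N z + N w := by
  unfold N; rw [GaussianInt.toComplex_sub]; exact norm_sub_le _ _

theorem N_sub_le_sub (a b c : GaussianInt) : N (a - c) ≤ N (a - b) + N (b - c) := by
  unfold N; simp only [GaussianInt.toComplex_sub]; exact norm_sub_le_norm_sub_add_norm_sub _ _ _

theorem one_le_N {z : GaussianInt} (h : z ≠ 0) : 1 ≤ N z := by
  have h1 : N z ^ 2 = (((z.re ^ 2 + z.im ^ 2 : ℤ)) : ℝ) := by rw [N_sq]; push_cast; ring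
  have h2 : 0 < N z ^ 2 := by
    have : N z ≠ 0 := fun h0 => h (N_eq_zero.mp h0)
    positivity
  have h3 : (1 : ℝ) ≤ N z ^ 2 := by
    rw [h1] at h2 ⊢
    exact_mod_cast (by exact_mod_cast h2 : 0 < (z.re ^ 2 + z.im ^ 2 : ℤ))
  nlinarith [N_nonneg z]

/-- the box `|re|, |im| ≤ k` -/
noncomputable def box (k : ℤ) : Finset GaussianInt :=
  (Finset.Icc (-k) k ×ˢ Finset.Icc (-k) k : Finset (ℤ × ℤ)).map
    ⟨fun p => (⟨p.1, p.2⟩ : GaussianInt), by
      intro p q h
      have h1 : p.1 = q.1 := congrArg Zsqrtd.re h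
      have h2 : p.2 = q.2 := congrArg Zsqrtd.im h
      exact Prod.ext h1 h2⟩

theorem mem_box {k : ℤ} {z : GaussianInt} :
    z ∈ box k ↔ (-k ≤ z.re ∧ z.re ≤ k) ∧ (-k ≤ z.im ∧ z.im ≤ k) := by
  unfold box
  simp only [Finset.mem_map, Finset.mem_product, Finset.mem_Icc, Prod.exists]
  constructor
  · rintro ⟨a, b, h, rfl⟩
    exact h
  · intro h
    exact ⟨z.re, z.im, h, rfl⟩

theorem card_box {k : ℤ} (hk : 0 ≤ k) : ((box k).card : ℝ) = (2 * k + 1 : ℝ) ^ 2 := by
  unfold box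
  rw [Finset.card_map, Finset.card_product, Int.card_Icc]
  have h : ((k + 1 - -k).toNat : ℝ) = 2 * k + 1 := by
    have h1 : ((k + 1 - -k).toNat : ℤ) = k + 1 - -k := Int.toNat_of_nonneg (by omega)
    have h2 : (((k + 1 - -k).toNat : ℤ) : ℝ) = ((k + 1 - -k : ℤ) : ℝ) := by rw [h1]
    push_cast at h2
    linarith
  push_cast
  rw [h]; ring

/-- Gaussian integers of absolute value `≤ T` -/
noncomputable def disc (T : ℝ) : Finset GaussianInt := by
  classical exact (box ⌊T⌋).filter (fun z => N z ≤ T)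

theorem mem_disc {T : ℝ} {z : GaussianInt} : z ∈ disc T ↔ N z ≤ T := by
  classical
  unfold disc
  rw [Finset.mem_filter, mem_box]
  refine ⟨fun h => h.2, fun h => ⟨?_, h⟩⟩
  have h1 := (abs_re_le z).trans h
  have h2 := (abs_im_le z).trans h
  rw [abs_le] at h1 h2
  have f1 : z.re ≤ ⌊T⌋ := Int.le_floor.mpr h1.2
  have f2 : z.im ≤ ⌊T⌋ := Int.le_floor.mpr h2.2
  have f3 : -z.re ≤ ⌊T⌋ := Int.le_floor.mpr (by push_cast; linarith [h1.1])
  have f4 : -z.im ≤ ⌊T⌋ := Int.le_floor.mpr (by push_cast; linarith [h2.1])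
  omega

theorem card_disc_le {T : ℝ} (hT : 1 ≤ T) : ((disc T).card : ℝ) ≤ 9 * T ^ 2 := by
  classical
  have h0 : 0 ≤ ⌊T⌋ := Int.floor_nonneg.mpr (by linarith)
  have h1 : ((disc T).card : ℝ) ≤ (box ⌊T⌋).card := by
    unfold disc
    exact_mod_cast Finset.card_filter_le _ _
  rw [card_box h0] at h1
  have h2 : ((⌊T⌋ : ℤ) : ℝ) ≤ T := Int.floor_le T
  have h3 : (0 : ℝ) ≤ (⌊T⌋ : ℝ) := by exact_mod_cast h0
  nlinarith

theorem le_card_disc {T : ℝ} (hT : 2 ≤ T) : T ^ 2 / 4 ≤ ((disc T).card : ℝ) := by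
  classical
  have h0 : 0 ≤ ⌊T / 2⌋ := Int.floor_nonneg.mpr (by linarith)
  have hsub : box ⌊T / 2⌋ ⊆ disc T := by
    intro z hz
    rw [mem_box] at hz
    rw [mem_disc]
    have h2 : ((⌊T / 2⌋ : ℤ) : ℝ) ≤ T / 2 := Int.floor_le _
    have a1 : (z.re : ℝ) ≤ T / 2 := le_trans (by exact_mod_cast hz.1.2) h2
    have a2 : (z.im : ℝ) ≤ T / 2 := le_trans (by exact_mod_cast hz.2.2) h2
    have a3 : -(T / 2) ≤ (z.re : ℝ) := by
      have : ((-⌊T / 2⌋ : ℤ) : ℝ) ≤ z.re := by exact_mod_cast hz.1.1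
      push_cast at this
      linarith
    have a4 : -(T / 2) ≤ (z.im : ℝ) := by
      have : ((-⌊T / 2⌋ : ℤ) : ℝ) ≤ z.im := by exact_mod_cast hz.2.1
      push_cast at this
      linarith
    have h5 : N z ^ 2 ≤ T ^ 2 := by
      rw [N_sq]
      nlinarith [mul_nonneg (by linarith : 0 ≤ T / 2 - (z.re : ℝ)) (by linarith : 0 ≤ T / 2 + (z.re : ℝ)),
        mul_nonneg (by linarith : 0 ≤ T / 2 - (z.im : ℝ)) (by linarith : 0 ≤ T / 2 + (z.im : ℝ))]
    exact le_of_sq_le_sq h5 (by linarith)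
  have h1 : ((box ⌊T / 2⌋).card : ℝ) ≤ (disc T).card := by
    exact_mod_cast Finset.card_le_card hsub
  rw [card_box h0] at h1
  have h3 : T / 2 - 1 < ⌊T / 2⌋ := Int.sub_one_lt_floor _
  nlinarith

/-- pigeonhole with real bounds -/
theorem exists_fiber {α β : Type*} [DecidableEq β] (s : Finset α) (t : Finset β) (f : α → β)
    (hf : ∀ a ∈ s, f a ∈ t) (b : ℝ) (hb : b * t.card ≤ s.card) (ht : t.Nonempty) :
    ∃ y ∈ t, b ≤ ((s.filter fun a => f a = y).card : ℝ) := by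
  have := Finset.exists_le_card_fiber_of_nsmul_le_card_of_maps_to (M := ℝ) hf ht (b := b)
    (by rw [nsmul_eq_mul]; linarith [mul_comm b (t.card : ℝ)])
  exact this

/-- existence of a maximal `R`-separated subset -/
theorem exists_separated (MM : Finset GaussianInt) (R : ℝ) (hR : 0 ≤ R) :
    ∃ S ⊆ MM, (∀ a ∈ S, ∀ b ∈ S, a ≠ b → R < N (a - b)) ∧ ∀ a ∈ MM, ∃ b ∈ S, N (a - b) ≤ R := by
  classical
  set F : Finset (Finset GaussianInt) :=
    MM.powerset.filter (fun S => ∀ a ∈ S, ∀ b ∈ S, a ≠ b → R < N (a - b)) with hF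
  have hne : F.Nonempty := ⟨∅, by simp [hF]⟩
  obtain ⟨S, hS, hmax⟩ := Finset.exists_max_image F Finset.card hne
  rw [hF, Finset.mem_filter, Finset.mem_powerset] at hS
  refine ⟨S, hS.1, hS.2, fun a ha => ?_⟩
  by_contra hcon
  push Not at hcon
  have haS : a ∉ S := by
    intro h
    have := hcon a h
    rw [sub_self, N_zero] at this
    linarith
  have hins : insert a S ∈ F := by
    rw [hF, Finset.mem_filter, Finset.mem_powerset]
    refine ⟨Finset.insert_subset ha hS.1, ?_⟩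
    intro b hb d hd hbd
    rw [Finset.mem_insert] at hb hd
    rcases hb with rfl | hb <;> rcases hd with rfl | hd
    · exact absurd rfl hbd
    · exact hcon d hd
    · rw [N_sub_comm]; exact hcon b hb
    · exact hS.2 b hb d hd hbd
  have := hmax _ hins
  rw [Finset.card_insert_of_notMem haS] at this
  omega

end Crest.Agent.R2.E717
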