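import Mathlib
import Crest.Agent.R2.Spec750
import Crest.Agent.R2.Gcd62

-- ▼ part R2/Front507a
section

/-!
# Row 2 (Theorem S), FRONT part a: counting signed tuples with prescribed multiplicities (helper507)
-/

namespace Crest.Agent.R2.F507

open Finset

/-- signed multiplicity of `i` in the tuple `t` -/
def sm {ι : Type*} [DecidableEq ι] {J : Type*} [Fintype J] (sg : J → ℤ) (t : J → ι) (i : ι) : ℤ :=
  ∑ x, if t x = i then sg x else 0

theorem sm_abs_sum_le {ι : Type*} [Fintype ι] [DecidableEq ι] {J : Type*} [Fintype J]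
    (sg : J → ℤ) (hsg : ∀ x, |sg x| = 1) (t : J → ι) :
    ∑ i, |sm sg t i| ≤ (Fintype.card J : ℤ) := by
  calc ∑ i, |sm sg t i| ≤ ∑ i, ∑ x, |if t x = i then sg x else 0| :=
        Finset.sum_le_sum fun i _ => Finset.abs_sum_le_sum_abs _ _
    _ = ∑ x, ∑ i, |if t x = i then sg x else 0| := Finset.sum_comm
    _ = ∑ x : J, (1 : ℤ) := by
        refine Finset.sum_congr rfl fun x _ => ?_
        have : ∀ i, |if t x = i then sg x else 0| = if t x = i then (1 : ℤ) else 0 := by
          intro i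
          split_ifs
          · exact hsg x
          · simp
        simp only [this, Finset.sum_ite_eq, Finset.mem_univ, if_true]
    _ = (Fintype.card J : ℤ) := by simp

theorem sm_cons {ι : Type*} [DecidableEq ι] {K : ℕ} (sg : Fin (K + 1) → ℤ)
    (i₀ : ι) (t : Fin K → ι) (i : ι) :
    sm sg (Fin.cons i₀ t : Fin (K + 1) → ι) i
      = (if i₀ = i then sg 0 else 0) + sm (fun j => sg j.succ) t i := by
  unfold sm
  rw [Fin.sum_univ_succ]
  simp

theorem count_fin {ι : Type*} [Fintype ι] [DecidableEq ι] (s : ℝ) (hs : 1 ≤ s)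
    (hcard : (Fintype.card ι : ℝ) ≤ s ^ 2) :
    ∀ (K : ℕ) (sg : Fin K → ℤ), (∀ j, |sg j| = 1) → ∀ m : ι → ℤ,
      ((univ.filter (fun t : Fin K → ι => ∀ i, sm sg t i = m i)).card : ℝ)
        ≤ ((K + 1).factorial : ℝ) * s ^ ((K : ℤ) - ∑ i, |m i|) := by
  have hs0 : (0 : ℝ) < s := by linarith
  intro K
  induction K with
  | zero =>
    intro sg _ m
    by_cases hm : ∀ i, m i = 0
    · have h1 : ((univ.filter (fun t : Fin 0 → ι => ∀ i, sm sg t i = m i)).card : ℝ) ≤ 1 := by
        have : (univ.filter (fun t : Fin 0 → ι => ∀ i, sm sg t i = m i)).card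
            ≤ Fintype.card (Fin 0 → ι) := Finset.card_le_univ _
        have h2 : Fintype.card (Fin 0 → ι) = 1 := by simp
        rw [h2] at this
        exact_mod_cast this
      have h3 : ∑ i, |m i| = 0 := Finset.sum_eq_zero fun i _ => by simp [hm i]
      rw [h3]
      simpa using h1
    · push Not at hm
      obtain ⟨i, hi⟩ := hm
      have h1 : (univ.filter (fun t : Fin 0 → ι => ∀ i, sm sg t i = m i)) = ∅ := by
        apply Finset.filter_eq_empty_iff.mpr
        intro t _ h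
        apply hi
        rw [← h i]
        simp [sm]
      rw [h1]
      simp only [Finset.card_empty, Nat.cast_zero]
      positivity
  | succ K ih =>
    intro sg hsg m
    by_cases hbig : ((K + 1 : ℕ) : ℤ) < ∑ i, |m i|
    · have h1 : (univ.filter (fun t : Fin (K + 1) → ι => ∀ i, sm sg t i = m i)) = ∅ := by
        apply Finset.filter_eq_empty_iff.mpr
        intro t _ h
        have h2 := sm_abs_sum_le sg hsg t
        have h3 : ∑ i, |sm sg t i| = ∑ i, |m i| := Finset.sum_congr rfl fun i _ => by rw [h i]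
        rw [h3] at h2
        simp only [Fintype.card_fin] at h2
        omega
      rw [h1]
      simp only [Finset.card_empty, Nat.cast_zero]
      positivity
    · push Not at hbig
      set L : ℤ := ∑ i, |m i| with hL
      -- decompose by the first coordinate
      have hdec : ((univ.filter (fun t : Fin (K + 1) → ι => ∀ i, sm sg t i = m i)).card : ℝ)
          = ∑ i₀ : ι, ((univ.filter (fun t : Fin K → ι =>
              ∀ i, sm (fun j => sg j.succ) t i = m i - (if i₀ = i then sg 0 else 0))).card : ℝ) := by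
        simp only [Finset.card_filter]
        push_cast
        rw [← (Fin.consEquiv (fun _ : Fin (K + 1) => ι)).sum_comp, Fintype.sum_prod_type]
        refine Finset.sum_congr rfl fun i₀ _ => Finset.sum_congr rfl fun t _ => ?_
        have : (∀ i, sm sg ((Fin.consEquiv (fun _ : Fin (K + 1) => ι)) (i₀, t)) i = m i) ↔
            (∀ i, sm (fun j => sg j.succ) t i = m i - (if i₀ = i then sg 0 else 0)) := by
          refine forall_congr' fun i => ?_
          have := sm_cons sg i₀ t i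
          constructor
          · intro h
            have h2 : sm sg (Fin.cons i₀ t : Fin (K + 1) → ι) i = m i := h
            rw [this] at h2
            linarith
          · intro h
            show sm sg (Fin.cons i₀ t : Fin (K + 1) → ι) i = m i
            rw [this, h]
            ring
        simp only [this]
      rw [hdec]
      -- the norms
      have hnorm : ∀ i₀ : ι, ∑ i, |m i - (if i₀ = i then sg 0 else 0)|
          = L - |m i₀| + |m i₀ - sg 0| := by
        intro i₀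
        have h1 : ∑ i, (|m i - (if i₀ = i then sg 0 else 0)| - |m i|)
            = |m i₀ - sg 0| - |m i₀| := by
          rw [Finset.sum_eq_single i₀]
          · simp
          · intro b _ hb
            rw [if_neg (Ne.symm hb)]
            simp
          · intro h
            exact absurd (Finset.mem_univ _) h
        rw [Finset.sum_sub_distrib] at h1
        rw [hL]
        linarith
      have hterm : ∀ i₀ : ι, ((univ.filter (fun t : Fin K → ι =>
              ∀ i, sm (fun j => sg j.succ) t i = m i - (if i₀ = i then sg 0 else 0))).card : ℝ)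
          ≤ ((K + 1).factorial : ℝ) *
            ((if m i₀ ≠ 0 then s ^ ((K : ℤ) + 1 - L) else 0) + s ^ ((K : ℤ) - 1 - L)) := by
        intro i₀
        refine (ih (fun j => sg j.succ) (fun j => hsg _) _).trans ?_
        rw [hnorm i₀]
        apply mul_le_mul_of_nonneg_left _ (by positivity)
        by_cases hm0 : m i₀ = 0
        · rw [hm0]
          have h1 : |(0 : ℤ) - sg 0| = 1 := by
            rw [zero_sub, abs_neg]
            exact hsg 0
          rw [h1]
          simp only [abs_zero, sub_zero, ne_eq, not_true_eq_false, if_false, zero_add]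
          apply le_of_eq
          congr 1
          ring
        · rw [if_pos hm0]
          have h1 : (K : ℤ) - (L - |m i₀| + |m i₀ - sg 0|) ≤ (K : ℤ) + 1 - L := by
            have h2 : |m i₀| ≤ |m i₀ - sg 0| + |sg 0| := by
              have := abs_add_le (m i₀ - sg 0) (sg 0)
              simpa using this
            rw [hsg 0] at h2
            linarith
          have h2 : s ^ ((K : ℤ) - (L - |m i₀| + |m i₀ - sg 0|)) ≤ s ^ ((K : ℤ) + 1 - L) :=
            zpow_le_zpow_right₀ hs h1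
          have h3 : (0 : ℝ) ≤ s ^ ((K : ℤ) - 1 - L) := by positivity
          linarith
      calc ∑ i₀ : ι, ((univ.filter (fun t : Fin K → ι =>
              ∀ i, sm (fun j => sg j.succ) t i = m i - (if i₀ = i then sg 0 else 0))).card : ℝ)
          ≤ ∑ i₀ : ι, ((K + 1).factorial : ℝ) *
            ((if m i₀ ≠ 0 then s ^ ((K : ℤ) + 1 - L) else 0) + s ^ ((K : ℤ) - 1 - L)) :=
            Finset.sum_le_sum fun i₀ _ => hterm i₀
        _ = ((K + 1).factorial : ℝ) *
            (((univ.filter (fun i : ι => m i ≠ 0)).card : ℝ) * s ^ ((K : ℤ) + 1 - L)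
              + (Fintype.card ι : ℝ) * s ^ ((K : ℤ) - 1 - L)) := by
            rw [← Finset.mul_sum, Finset.sum_add_distrib, ← Finset.sum_filter, Finset.sum_const,
              Finset.sum_const, nsmul_eq_mul, nsmul_eq_mul, Finset.card_univ]
        _ ≤ ((K + 1).factorial : ℝ) *
            (((K : ℝ) + 1) * s ^ ((K : ℤ) + 1 - L) + 1 * s ^ ((K : ℤ) + 1 - L)) := by
            apply mul_le_mul_of_nonneg_left _ (by positivity)
            have h1 : (((univ.filter (fun i : ι => m i ≠ 0)).card : ℝ)) ≤ (K : ℝ) + 1 := by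
              have h2 : ((univ.filter (fun i : ι => m i ≠ 0)).card : ℤ) ≤ L := by
                rw [hL]
                calc ((univ.filter (fun i : ι => m i ≠ 0)).card : ℤ)
                    = ∑ i ∈ univ.filter (fun i : ι => m i ≠ 0), (1 : ℤ) := by simp
                  _ ≤ ∑ i ∈ univ.filter (fun i : ι => m i ≠ 0), |m i| := by
                      refine Finset.sum_le_sum fun i hi => ?_
                      have := (Finset.mem_filter.mp hi).2
                      exact Int.one_le_abs this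
                  _ ≤ ∑ i, |m i| := by
                      apply Finset.sum_le_sum_of_subset_of_nonneg (Finset.filter_subset _ _)
                      intro i _ _
                      exact abs_nonneg _
              have h3 : ((univ.filter (fun i : ι => m i ≠ 0)).card : ℤ) ≤ ((K + 1 : ℕ) : ℤ) :=
                h2.trans hbig
              have h4 : (univ.filter (fun i : ι => m i ≠ 0)).card ≤ K + 1 := by exact_mod_cast h3
              exact_mod_cast h4
            have h5 : (Fintype.card ι : ℝ) * s ^ ((K : ℤ) - 1 - L) ≤ 1 * s ^ ((K : ℤ) + 1 - L) := by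
              have h6 : s ^ ((K : ℤ) + 1 - L) = s ^ 2 * s ^ ((K : ℤ) - 1 - L) := by
                rw [← zpow_natCast, ← zpow_add₀ (ne_of_gt hs0)]
                congr 1
                push_cast
                ring
              rw [h6, one_mul]
              exact mul_le_mul_of_nonneg_right hcard (by positivity)
            have h7 : (0 : ℝ) ≤ s ^ ((K : ℤ) + 1 - L) := by positivity
            have h8 := mul_le_mul_of_nonneg_right h1 h7
            linarith
        _ = ((K + 1 + 1).factorial : ℝ) * s ^ (((K + 1 : ℕ) : ℤ) - L) := by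
            rw [Nat.factorial_succ (K + 1)]
            push_cast
            ring

/-- counting signed tuples with prescribed multiplicities, general index type -/
theorem count_gen {ι : Type*} [Fintype ι] [DecidableEq ι] {J : Type*} [Fintype J] [DecidableEq J]
    (s : ℝ) (hs : 1 ≤ s)
    (hcard : (Fintype.card ι : ℝ) ≤ s ^ 2) (sg : J → ℤ) (hsg : ∀ j, |sg j| = 1) (m : ι → ℤ) :
      ((univ.filter (fun t : J → ι => ∀ i, sm sg t i = m i)).card : ℝ)
        ≤ ((Fintype.card J + 1).factorial : ℝ) * s ^ ((Fintype.card J : ℤ) - ∑ i, |m i|) := by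
  have e : J ≃ Fin (Fintype.card J) := Fintype.equivFin J
  have h := count_fin s hs hcard (Fintype.card J) (fun j => sg (e.symm j)) (fun j => hsg _) m
  refine le_trans (le_of_eq ?_) h
  congr 1
  apply Finset.card_bij (fun t _ => t ∘ e.symm)
  · intro t ht
    simp only [Finset.mem_filter, Finset.mem_univ, true_and] at ht ⊢
    intro i
    rw [← ht i]
    unfold sm
    rw [← e.symm.sum_comp]
    rfl
  · intro t _ t' _ h
    funext x
    have := congrFun h (e x)
    simpa using this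
  · intro t ht
    refine ⟨t ∘ e, ?_, ?_⟩
    · simp only [Finset.mem_filter, Finset.mem_univ, true_and] at ht ⊢
      intro i
      rw [← ht i]
      unfold sm
      rw [← e.sum_comp]
      simp
    · funext x
      simp

end Crest.Agent.R2.F507
end

-- ▼ part R2/Front507b
section

/-!
# Row 2 (Theorem S), FRONT part b: the Fourier lower bound (F1) (helper507)
-/

namespace Crest.Agent.R2.F507

open Finset Complex
open Crest.Agent.R2.M750


theorem ft_add_int (A : Finset GaussianInt) (m : GaussianInt → ℝ) (x : ℂ) (h : GaussianInt) :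
    ft A m (x + GaussianInt.toComplex h) = ft A m x := by
  unfold ft
  exact Finset.sum_congr rfl fun z _ => by rw [chi_add_gaussian]

theorem ft_norm_le (A : Finset GaussianInt) (m : GaussianInt → ℝ) (hm : ∀ z ∈ A, 0 ≤ m z)
    (x : ℂ) : ‖ft A m x‖ ≤ ∑ z ∈ A, m z := by
  unfold ft
  refine (norm_sum_le _ _).trans (Finset.sum_le_sum fun z hz => ?_)
  rw [norm_mul, norm_chi, mul_one, Complex.norm_real, Real.norm_eq_abs, abs_of_nonneg (hm z hz)]

theorem ft_sq (A : Finset GaussianInt) (m : GaussianInt → ℝ) (x : ℂ) :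
    ((‖ft A m x‖ ^ 2 : ℝ) : ℂ) = ∑ z ∈ A, ∑ z' ∈ A, ((m z * m z' : ℝ) : ℂ) * chi (z - z') x := by
  have h1 : ((‖ft A m x‖ ^ 2 : ℝ) : ℂ) = ft A m x * (starRingEnd ℂ) (ft A m x) := by
    rw [Complex.mul_conj, Complex.normSq_eq_norm_sq]
  rw [h1]
  unfold ft
  rw [map_sum, Finset.sum_mul_sum]
  refine Finset.sum_congr rfl fun z _ => Finset.sum_congr rfl fun z' _ => ?_
  rw [chi_sub_left, map_mul, Complex.conj_ofReal]
  push_cast
  ring

theorem ft_sq' (A : Finset GaussianInt) (m : GaussianInt → ℝ) (x : ℂ) :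
    ((‖ft A m x‖ ^ 2 : ℝ) : ℂ)
      = ∑ z ∈ A ×ˢ A, ((m z.1 * m z.2 : ℝ) : ℂ) * chi (z.1 - z.2) x := by
  rw [ft_sq, Finset.sum_product]

/-- signs on `Fin k × Bool` -/
def sgn (k : ℕ) (x : Fin k × Bool) : ℤ := if x.2 then 1 else -1

theorem sgn_abs (k : ℕ) (x : Fin k × Bool) : |sgn k x| = 1 := by
  unfold sgn
  split_ifs <;> simp

/-- the random sum -/
noncomputable def Phi {ι : Type*} (k : ℕ) (al : ι → ℂ) (t : Fin k × Bool → ι) : ℂ :=
  ∑ x, (sgn k x : ℂ) * al (t x)

noncomputable def Fs {ι : Type*} [Fintype ι] (al : ι → ℂ) (w : GaussianInt) : ℂ :=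
  ∑ i, chi w (al i)

theorem sum_ch_Phi {ι : Type*} [Fintype ι] [DecidableEq ι] (k : ℕ) (al : ι → ℂ)
    (w : GaussianInt) :
    ∑ t : Fin k × Bool → ι, chi w (Phi k al t) = ((‖Fs al w‖ ^ (2 * k) : ℝ) : ℂ) := by
  have h1 : ∀ t : Fin k × Bool → ι, chi w (Phi k al t)
      = ∏ x, chi w ((sgn k x : ℂ) * al (t x)) := by
    intro t
    unfold Phi
    rw [chi_sum_right]
  simp only [h1]
  have h2 : ∑ t : Fin k × Bool → ι, ∏ x, chi w ((sgn k x : ℂ) * al (t x))
      = ∏ x : Fin k × Bool, ∑ i, chi w ((sgn k x : ℂ) * al i) := by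
    rw [Finset.prod_univ_sum]
    simp
  rw [h2, Fintype.prod_prod_type]
  have h3 : ∀ j : Fin k, ∏ b : Bool, ∑ i, chi w ((sgn k (j, b) : ℂ) * al i)
      = ((‖Fs al w‖ ^ 2 : ℝ) : ℂ) := by
    intro j
    rw [Fintype.prod_bool]
    have h4 : ∑ i, chi w ((sgn k (j, true) : ℂ) * al i) = Fs al w := by
      unfold Fs sgn
      simp
    have h5 : ∑ i, chi w ((sgn k (j, false) : ℂ) * al i) = (starRingEnd ℂ) (Fs al w) := by
      unfold Fs sgn
      rw [map_sum]
      refine Finset.sum_congr rfl fun i _ => ?_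
      rw [← chi_neg_right]
      simp
    rw [h4, h5, Complex.mul_conj, Complex.normSq_eq_norm_sq]
  simp only [h3]
  rw [Finset.prod_const]
  simp only [Finset.card_univ, Fintype.card_fin]
  rw [← Complex.ofReal_pow, ← pow_mul]

/-- positivity: dropping terms -/
theorem W_lower {ι : Type*} [Fintype ι] [DecidableEq ι] (k : ℕ) (al : ι → ℂ)
    (phi : ℂ → ℝ) (c : GaussianInt → ℝ) (hc0 : ∀ y, 0 ≤ c y)
    (hS : ∀ x, HasSum (fun y => (c y : ℂ) * chi y x) (phi x : ℂ))
    {β : Type*} (B : Finset β) (p : β → ℝ) (hp : ∀ b ∈ B, 0 ≤ p b) (v : β → GaussianInt)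
    (Y : Finset GaussianInt) :
    ∑ y ∈ Y, c y * ∑ b ∈ B, p b * ‖Fs al (y + v b)‖ ^ (2 * k)
      ≤ (∑ t : Fin k × Bool → ι, (phi (Phi k al t) : ℂ) *
          ∑ b ∈ B, (p b : ℂ) * chi (v b) (Phi k al t)).re := by
  have h1 : HasSum (fun y : GaussianInt => ∑ t : Fin k × Bool → ι,
      ((c y : ℂ) * chi y (Phi k al t)) * ∑ b ∈ B, (p b : ℂ) * chi (v b) (Phi k al t))
      (∑ t : Fin k × Bool → ι, (phi (Phi k al t) : ℂ) *
          ∑ b ∈ B, (p b : ℂ) * chi (v b) (Phi k al t)) := by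
    apply hasSum_sum
    intro t _
    exact (hS (Phi k al t)).mul_right _
  have h2 : ∀ y : GaussianInt, (∑ t : Fin k × Bool → ι,
      ((c y : ℂ) * chi y (Phi k al t)) * ∑ b ∈ B, (p b : ℂ) * chi (v b) (Phi k al t))
      = ((c y * ∑ b ∈ B, p b * ‖Fs al (y + v b)‖ ^ (2 * k) : ℝ) : ℂ) := by
    intro y
    have h3 : ∀ t : Fin k × Bool → ι,
        ((c y : ℂ) * chi y (Phi k al t)) * ∑ b ∈ B, (p b : ℂ) * chi (v b) (Phi k al t)
        = ∑ b ∈ B, ((c y : ℂ) * (p b : ℂ)) * chi (y + v b) (Phi k al t) := by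
      intro t
      rw [Finset.mul_sum]
      refine Finset.sum_congr rfl fun b _ => ?_
      rw [chi_add_left]
      ring
    simp only [h3]
    rw [Finset.sum_comm]
    push_cast
    rw [Finset.mul_sum]
    refine Finset.sum_congr rfl fun b _ => ?_
    rw [← Finset.mul_sum, sum_ch_Phi]
    push_cast
    ring
  simp only [h2] at h1
  have h4 : HasSum (fun y : GaussianInt => (((c y * ∑ b ∈ B, p b * ‖Fs al (y + v b)‖ ^ (2 * k)
      : ℝ) : ℂ)).re) _ := Complex.hasSum_re h1
  simp only [Complex.ofReal_re] at h4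
  apply sum_le_hasSum Y _ h4
  intro y _
  apply mul_nonneg (hc0 y)
  exact Finset.sum_nonneg fun b hb => mul_nonneg (hp b hb) (by positivity)

/-- Jensen over a finite probability -/
theorem jensen_norm {β : Type*} (B : Finset β) (p : β → ℝ) (hp : ∀ b ∈ B, 0 ≤ p b)
    (hp1 : ∑ b ∈ B, p b = 1) (f : β → ℂ) (n : ℕ) :
    ‖∑ b ∈ B, (p b : ℂ) * f b‖ ^ n ≤ ∑ b ∈ B, p b * ‖f b‖ ^ n := by
  have h1 : ‖∑ b ∈ B, (p b : ℂ) * f b‖ ≤ ∑ b ∈ B, p b * ‖f b‖ := by
    refine (norm_sum_le _ _).trans (le_of_eq (Finset.sum_congr rfl fun b hb => ?_))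
    rw [norm_mul, Complex.norm_real, Real.norm_eq_abs, abs_of_nonneg (hp b hb)]
  calc ‖∑ b ∈ B, (p b : ℂ) * f b‖ ^ n ≤ (∑ b ∈ B, p b * ‖f b‖) ^ n :=
        pow_le_pow_left₀ (norm_nonneg _) h1 n
    _ ≤ ∑ b ∈ B, p b * ‖f b‖ ^ n :=
        Real.pow_arith_mean_le_arith_mean_pow B p _ hp hp1 (fun b _ => norm_nonneg _) n

/-- **(F1)** -/
theorem W_lower' {ι : Type*} [Fintype ι] [DecidableEq ι] (k : ℕ) (al : ι → ℂ)
    (phi : ℂ → ℝ) (c : GaussianInt → ℝ) (hc0 : ∀ y, 0 ≤ c y)
    (hS : ∀ x, HasSum (fun y => (c y : ℂ) * chi y x) (phi x : ℂ))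
    (A₁ A₂ A₃ : Finset GaussianInt) (m₁ m₂ m₃ : GaussianInt → ℝ)
    (hm₁ : ∀ z ∈ A₁, 0 ≤ m₁ z) (hm₂ : ∀ z ∈ A₂, 0 ≤ m₂ z) (hm₃ : ∀ z ∈ A₃, 0 ≤ m₃ z)
    (hs₁ : ∑ z ∈ A₁, m₁ z = 1) (hs₂ : ∑ z ∈ A₂, m₂ z = 1) (hs₃ : ∑ z ∈ A₃, m₃ z = 1)
    (g : ℝ) (hg : ∀ z ∈ A₁, m₁ z ≤ g)
    (hc1 : ∀ z ∈ A₁, ∀ z' ∈ A₁, 1 / 10 ≤ c (z - z')) :
    (∑ i, ‖ft A₁ m₁ (al i)‖ ^ 2 * ‖ft A₂ m₂ (al i)‖ ^ 2 * ‖ft A₃ m₃ (al i)‖ ^ 2) ^ (2 * k)
      ≤ 10 * g * ∑ t : Fin k × Bool → ι, phi (Phi k al t) *
          (‖ft A₂ m₂ (Phi k al t)‖ ^ 2 * ‖ft A₃ m₃ (Phi k al t)‖ ^ 2) := by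
  classical
  -- the combined measure
  set B : Finset ((GaussianInt × GaussianInt) × (GaussianInt × GaussianInt)) :=
    (A₂ ×ˢ A₂) ×ˢ (A₃ ×ˢ A₃) with hB
  set p : (GaussianInt × GaussianInt) × (GaussianInt × GaussianInt) → ℝ :=
    fun b => (m₂ b.1.1 * m₂ b.1.2) * (m₃ b.2.1 * m₃ b.2.2) with hp
  set v : (GaussianInt × GaussianInt) × (GaussianInt × GaussianInt) → GaussianInt :=
    fun b => (b.1.1 - b.1.2) + (b.2.1 - b.2.2) with hv
  have hp0 : ∀ b ∈ B, 0 ≤ p b := by
    intro b hb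
    simp only [hB, Finset.mem_product] at hb
    simp only [hp]
    exact mul_nonneg (mul_nonneg (hm₂ _ hb.1.1) (hm₂ _ hb.1.2))
      (mul_nonneg (hm₃ _ hb.2.1) (hm₃ _ hb.2.2))
  have hp1 : ∑ b ∈ B, p b = 1 := by
    simp only [hB, hp]
    rw [Finset.sum_product]
    simp only [← Finset.mul_sum]
    rw [← Finset.sum_mul]
    rw [Finset.sum_product, Finset.sum_product]
    simp only [← Finset.mul_sum]
    rw [hs₂, hs₃]
    simp [hs₂, hs₃]
  have hH : ∀ x : ℂ, ∑ b ∈ B, (p b : ℂ) * chi (v b) x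
      = ((‖ft A₂ m₂ x‖ ^ 2 * ‖ft A₃ m₃ x‖ ^ 2 : ℝ) : ℂ) := by
    intro x
    rw [Complex.ofReal_mul, ft_sq', ft_sq', Finset.sum_mul_sum]
    simp only [hB, hp, hv]
    rw [Finset.sum_product]
    refine Finset.sum_congr rfl fun b _ => Finset.sum_congr rfl fun b' _ => ?_
    rw [chi_add_left]
    push_cast
    ring
  -- W
  have hW := fun Y => W_lower k al phi c hc0 hS B p hp0 v Y
  have hWre : (∑ t : Fin k × Bool → ι, (phi (Phi k al t) : ℂ) *
          ∑ b ∈ B, (p b : ℂ) * chi (v b) (Phi k al t)).re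
      = ∑ t : Fin k × Bool → ι, phi (Phi k al t) *
          (‖ft A₂ m₂ (Phi k al t)‖ ^ 2 * ‖ft A₃ m₃ (Phi k al t)‖ ^ 2) := by
    rw [Complex.re_sum]
    refine Finset.sum_congr rfl fun t _ => ?_
    rw [hH, ← Complex.ofReal_mul, Complex.ofReal_re]
  -- Y
  set Y : Finset GaussianInt := (A₁ ×ˢ A₁).image (fun z => z.1 - z.2) with hY
  set X : GaussianInt → ℝ := fun y => ∑ b ∈ B, p b * ‖Fs al (y + v b)‖ ^ (2 * k) with hX
  have hX0 : ∀ y, 0 ≤ X y := fun y =>
    Finset.sum_nonneg fun b hb => mul_nonneg (hp0 b hb) (by positivity)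
  have hY2 := hW Y
  rw [hWre] at hY2
  have hstep : ∑ z ∈ A₁ ×ˢ A₁, (m₁ z.1 * m₁ z.2) * X (z.1 - z.2)
      ≤ 10 * g * ∑ y ∈ Y, c y * X y := by
    have h1 : ∑ z ∈ A₁ ×ˢ A₁, (m₁ z.1 * m₁ z.2) * X (z.1 - z.2)
        = ∑ y ∈ Y, ∑ z ∈ (A₁ ×ˢ A₁).filter (fun z => z.1 - z.2 = y),
          (m₁ z.1 * m₁ z.2) * X (z.1 - z.2) := by
      rw [hY]
      rw [Finset.sum_fiberwise_of_maps_to]
      intro z hz
      exact Finset.mem_image_of_mem _ hz
    rw [h1, Finset.mul_sum]
    refine Finset.sum_le_sum fun y hy => ?_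
    have h2 : ∑ z ∈ (A₁ ×ˢ A₁).filter (fun z => z.1 - z.2 = y),
          (m₁ z.1 * m₁ z.2) * X (z.1 - z.2)
        = (∑ z ∈ (A₁ ×ˢ A₁).filter (fun z => z.1 - z.2 = y), m₁ z.1 * m₁ z.2) * X y := by
      rw [Finset.sum_mul]
      refine Finset.sum_congr rfl fun z hz => ?_
      rw [(Finset.mem_filter.mp hz).2]
    have h3 : ∑ z ∈ (A₁ ×ˢ A₁).filter (fun z => z.1 - z.2 = y), m₁ z.1 * m₁ z.2 ≤ g := by
      calc ∑ z ∈ (A₁ ×ˢ A₁).filter (fun z => z.1 - z.2 = y), m₁ z.1 * m₁ z.2
          ≤ ∑ z ∈ (A₁ ×ˢ A₁).filter (fun z => z.1 - z.2 = y), m₁ z.1 * g := by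
            refine Finset.sum_le_sum fun z hz => ?_
            have h4 := (Finset.mem_filter.mp hz).1
            rw [Finset.mem_product] at h4
            exact mul_le_mul_of_nonneg_left (hg _ h4.2) (hm₁ _ h4.1)
        _ = ∑ x ∈ ((A₁ ×ˢ A₁).filter (fun z => z.1 - z.2 = y)).image Prod.fst, m₁ x * g := by
            rw [Finset.sum_image]
            intro z hz z' hz' h
            have h5 := (Finset.mem_filter.mp hz).2
            have h6 := (Finset.mem_filter.mp hz').2
            apply Prod.ext h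
            have h7 : z.1 - z.2 = z'.1 - z'.2 := by rw [h5, h6]
            rw [h] at h7
            exact sub_right_injective h7
        _ ≤ ∑ x ∈ A₁, m₁ x * g := by
            apply Finset.sum_le_sum_of_subset_of_nonneg
            · intro x hx
              obtain ⟨z, hz, rfl⟩ := Finset.mem_image.mp hx
              exact (Finset.mem_product.mp (Finset.mem_filter.mp hz).1).1
            · intro x hx _
              exact mul_nonneg (hm₁ x hx) ((hm₁ x hx).trans (hg x hx))
        _ = g := by rw [← Finset.sum_mul, hs₁, one_mul]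
    have h5 : 1 / 10 ≤ c y := by
      obtain ⟨z, hz, rfl⟩ := Finset.mem_image.mp hy
      rw [Finset.mem_product] at hz
      exact hc1 _ hz.1 _ hz.2
    rw [h2]
    have hg0 : 0 ≤ g := le_trans (Finset.sum_nonneg fun z hz => by
      have h4 := (Finset.mem_filter.mp hz).1
      rw [Finset.mem_product] at h4
      exact mul_nonneg (hm₁ _ h4.1) (hm₁ _ h4.2)) h3
    calc (∑ z ∈ (A₁ ×ˢ A₁).filter (fun z => z.1 - z.2 = y), m₁ z.1 * m₁ z.2) * X y
        ≤ g * X y := mul_le_mul_of_nonneg_right h3 (hX0 y)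
      _ = 10 * g * (1 / 10 * X y) := by ring
      _ ≤ 10 * g * (c y * X y) := by
          apply mul_le_mul_of_nonneg_left _ (by positivity)
          exact mul_le_mul_of_nonneg_right h5 (hX0 y)
  -- Jensen
  set B' := (A₁ ×ˢ A₁) ×ˢ B with hB'
  have hp0' : ∀ b ∈ B', 0 ≤ (m₁ b.1.1 * m₁ b.1.2) * p b.2 := by
    intro b hb
    rw [hB', Finset.mem_product, Finset.mem_product] at hb
    exact mul_nonneg (mul_nonneg (hm₁ _ hb.1.1) (hm₁ _ hb.1.2)) (hp0 _ hb.2)
  have hp1' : ∑ b ∈ B', (m₁ b.1.1 * m₁ b.1.2) * p b.2 = 1 := by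
    rw [hB', Finset.sum_product]
    simp only [← Finset.mul_sum]
    rw [← Finset.sum_mul, hp1, Finset.sum_product]
    simp only [← Finset.mul_sum]
    simp [hs₁]
  have hJ := jensen_norm B' (fun b => (m₁ b.1.1 * m₁ b.1.2) * p b.2) hp0' hp1'
    (fun b => Fs al ((b.1.1 - b.1.2) + v b.2)) (2 * k)
  have hL : ∑ b ∈ B', (((m₁ b.1.1 * m₁ b.1.2) * p b.2 : ℝ) : ℂ) *
        Fs al ((b.1.1 - b.1.2) + v b.2)
      = ((∑ i, ‖ft A₁ m₁ (al i)‖ ^ 2 * ‖ft A₂ m₂ (al i)‖ ^ 2 * ‖ft A₃ m₃ (al i)‖ ^ 2 : ℝ) :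
        ℂ) := by
    unfold Fs
    simp only [Finset.mul_sum]
    rw [Finset.sum_comm]
    push_cast
    refine Finset.sum_congr rfl fun i _ => ?_
    have h1 := ft_sq' A₁ m₁ (al i)
    have h2 := hH (al i)
    push_cast at h1 h2
    rw [mul_assoc, ← h2, h1, Finset.sum_mul_sum, hB', Finset.sum_product]
    refine Finset.sum_congr rfl fun z _ => Finset.sum_congr rfl fun b _ => ?_
    rw [chi_add_left]
    ring
  have hR : ∑ b ∈ B', ((m₁ b.1.1 * m₁ b.1.2) * p b.2) *
        ‖Fs al ((b.1.1 - b.1.2) + v b.2)‖ ^ (2 * k)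
      = ∑ z ∈ A₁ ×ˢ A₁, (m₁ z.1 * m₁ z.2) * X (z.1 - z.2) := by
    rw [hB', Finset.sum_product]
    refine Finset.sum_congr rfl fun z _ => ?_
    simp only [hX]
    rw [Finset.mul_sum]
    refine Finset.sum_congr rfl fun b _ => ?_
    ring
  rw [hR] at hJ
  rw [hL, Complex.norm_real, Real.norm_eq_abs, abs_of_nonneg (by positivity)] at hJ
  refine hJ.trans (hstep.trans ?_)
  have hg0 : 0 ≤ g := by
    have : ∃ z, z ∈ A₁ := by
      by_contra hne
      push Not at hne
      have : A₁ = ∅ := Finset.eq_empty_of_forall_notMem hne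
      rw [this] at hs₁
      simp at hs₁
    obtain ⟨z, hz⟩ := this
    exact (hm₁ z hz).trans (hg z hz)
  exact mul_le_mul_of_nonneg_left hY2 (by positivity)

end Crest.Agent.R2.F507
end

-- ▼ part R2/Front507c
section

/-!
# Row 2 (Theorem S), FRONT part c: colouring pigeonhole and counting (helper507)
-/

namespace Crest.Agent.R2.F507

open Finset Complex
open Crest.Agent.R2.M750 Crest.Agent.R2.Gcd62

section colour

variable {ι : Type*} [Fintype ι] [DecidableEq ι] {J : Type*} [Fintype J] [DecidableEq J]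

/-- the tuple agrees with the colouring -/
def Agr (sg : J → ℤ) (ν : ι → ℤ) (t : J → ι) : Prop := ∀ p, sm sg t p ≠ 0 → sm sg t p = ν p

theorem sm_abs_le (sg : J → ℤ) (hsg : ∀ x, |sg x| = 1) (t : J → ι) (p : ι) :
    |sm sg t p| ≤ (Fintype.card J : ℤ) := by
  have h1 := sm_abs_sum_le sg hsg t
  have h2 : |sm sg t p| ≤ ∑ i, |sm sg t i| :=
    Finset.single_le_sum (f := fun i => |sm sg t i|) (fun i _ => abs_nonneg _) (Finset.mem_univ p)
  exact h2.trans h1

/-- support -/
def supp (sg : J → ℤ) (t : J → ι) : Finset ι := univ.filter (fun p => sm sg t p ≠ 0)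

theorem supp_card_le (sg : J → ℤ) (hsg : ∀ x, |sg x| = 1) (t : J → ι) :
    (supp sg t).card ≤ Fintype.card J := by
  have h1 := sm_abs_sum_le sg hsg t
  have h2 : ((supp sg t).card : ℤ) ≤ ∑ i, |sm sg t i| := by
    calc ((supp sg t).card : ℤ) = ∑ i ∈ supp sg t, (1 : ℤ) := by simp
      _ ≤ ∑ i ∈ supp sg t, |sm sg t i| := by
          refine Finset.sum_le_sum fun i hi => ?_
          exact Int.one_le_abs (Finset.mem_filter.mp hi).2
      _ ≤ ∑ i, |sm sg t i| := by
          apply Finset.sum_le_sum_of_subset_of_nonneg (Finset.subset_univ _)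
          intro i _ _
          exact abs_nonneg _
  exact_mod_cast h2.trans h1

open Classical in
theorem colour (sg : J → ℤ) (hsg : ∀ x, |sg x| = 1) (K : ℕ) (hK : Fintype.card J = K)
    (hK1 : 1 ≤ K) (E : Finset (J → ι)) (B : ℝ)
    (hB : ∀ ν : ι → ℤ, (∀ p, ν p ≠ 0 ∧ |ν p| ≤ (K : ℤ)) →
      ((E.filter (fun t => Agr sg ν t)).card : ℝ) ≤ B) :
    (E.card : ℝ) ≤ (2 * K : ℝ) ^ K * B := by
  set V : Finset ℤ := (Finset.Icc (-(K : ℤ)) K).erase 0 with hV
  have hVcard : V.card = 2 * K := by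
    rw [hV, Finset.card_erase_of_mem (by simp), Int.card_Icc]
    have : ((K : ℤ) + 1 - (-(K : ℤ))).toNat = 2 * K + 1 := by
      have : (K : ℤ) + 1 - (-(K : ℤ)) = ((2 * K + 1 : ℕ) : ℤ) := by push_cast; ring
      rw [this, Int.toNat_natCast]
    rw [this]
    simp
  set C : Finset (ι → ℤ) := Fintype.piFinset (fun _ : ι => V) with hC
  have hCcard : (C.card : ℝ) = (2 * K : ℝ) ^ (Fintype.card ι) := by
    rw [hC, Fintype.card_piFinset, Finset.prod_const, hVcard, Finset.card_univ]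
    push_cast
    ring
  have hK0 : (0 : ℝ) < 2 * K := by
    have : (1 : ℝ) ≤ K := by exact_mod_cast hK1
    linarith
  have hC0 : (0 : ℝ) < (C.card : ℝ) := by rw [hCcard]; positivity
  -- lower bound for the number of agreeing colourings
  have hlow : ∀ t : J → ι, (C.card : ℝ)
      ≤ (2 * K : ℝ) ^ K * ((C.filter (fun ν => Agr sg ν t)).card : ℝ) := by
    intro t
    set f : ι → Finset ℤ := fun p => if sm sg t p ≠ 0 then {sm sg t p} else V with hf
    have hsub : Fintype.piFinset f ⊆ C.filter (fun ν => Agr sg ν t) := by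
      intro ν hν
      rw [Fintype.mem_piFinset] at hν
      rw [Finset.mem_filter]
      constructor
      · rw [hC, Fintype.mem_piFinset]
        intro p
        have h1 := hν p
        simp only [hf] at h1
        split_ifs at h1 with h2
        · rw [Finset.mem_singleton] at h1
          rw [h1, hV, Finset.mem_erase]
          refine ⟨h2, ?_⟩
          have h3 := sm_abs_le sg hsg t p
          rw [hK, abs_le] at h3
          exact Finset.mem_Icc.mpr h3
        · exact h1
      · intro p hp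
        have h1 := hν p
        simp only [hf] at h1
        rw [if_pos hp, Finset.mem_singleton] at h1
        exact h1.symm
    have hcard1 : ((Fintype.piFinset f).card : ℝ)
        = ∏ p : ι, (if sm sg t p ≠ 0 then (1 : ℝ) else 2 * K) := by
      rw [Fintype.card_piFinset]
      push_cast
      refine Finset.prod_congr rfl fun p _ => ?_
      simp only [hf]
      split_ifs with h2
      · simp
      · rw [hVcard]; push_cast; ring
    have hcard2 : (2 * K : ℝ) ^ ((supp sg t).card)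
        = ∏ p : ι, (if sm sg t p ≠ 0 then (2 * K : ℝ) else 1) := by
      rw [Finset.prod_ite]
      simp only [Finset.prod_const_one, mul_one, Finset.prod_const]
      rfl
    have hcard3 : (C.card : ℝ) = (2 * K : ℝ) ^ ((supp sg t).card) * ((Fintype.piFinset f).card : ℝ) := by
      rw [hcard1, hcard2, ← Finset.prod_mul_distrib, hCcard]
      rw [← Finset.card_univ, ← Finset.prod_const]
      refine Finset.prod_congr rfl fun p _ => ?_
      split_ifs <;> ring
    rw [hcard3]
    have h4 : (2 * K : ℝ) ^ ((supp sg t).card) ≤ (2 * K : ℝ) ^ K := by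
      apply pow_le_pow_right₀
      · have : (1 : ℝ) ≤ K := by exact_mod_cast hK1
        linarith
      · rw [← hK]
        exact supp_card_le sg hsg t
    have h5 : ((Fintype.piFinset f).card : ℝ) ≤ ((C.filter (fun ν => Agr sg ν t)).card : ℝ) := by
      exact_mod_cast Finset.card_le_card hsub
    exact mul_le_mul h4 h5 (by positivity) (by positivity)
  -- double counting
  have hdc : ∑ t ∈ E, ((C.filter (fun ν => Agr sg ν t)).card : ℝ)
      = ∑ ν ∈ C, ((E.filter (fun t => Agr sg ν t)).card : ℝ) := by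
    simp only [Finset.card_filter]
    push_cast
    rw [Finset.sum_comm]
  have hup : ∑ ν ∈ C, ((E.filter (fun t => Agr sg ν t)).card : ℝ) ≤ (C.card : ℝ) * B := by
    calc ∑ ν ∈ C, ((E.filter (fun t => Agr sg ν t)).card : ℝ) ≤ ∑ ν ∈ C, B := by
          refine Finset.sum_le_sum fun ν hν => hB ν fun p => ?_
          rw [hC, Fintype.mem_piFinset] at hν
          have h1 := hν p
          rw [hV, Finset.mem_erase, Finset.mem_Icc] at h1
          exact ⟨h1.1, abs_le.mpr h1.2⟩
      _ = (C.card : ℝ) * B := by rw [Finset.sum_const, nsmul_eq_mul]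
  have hfin : (C.card : ℝ) * (E.card : ℝ) ≤ (C.card : ℝ) * ((2 * K : ℝ) ^ K * B) := by
    calc (C.card : ℝ) * (E.card : ℝ) = ∑ t ∈ E, (C.card : ℝ) := by
          rw [Finset.sum_const, nsmul_eq_mul]; ring
      _ ≤ ∑ t ∈ E, (2 * K : ℝ) ^ K * ((C.filter (fun ν => Agr sg ν t)).card : ℝ) :=
          Finset.sum_le_sum fun t _ => hlow t
      _ = (2 * K : ℝ) ^ K * ∑ ν ∈ C, ((E.filter (fun t => Agr sg ν t)).card : ℝ) := by
          rw [← Finset.mul_sum, hdc]
      _ ≤ (2 * K : ℝ) ^ K * ((C.card : ℝ) * B) := by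
          apply mul_le_mul_of_nonneg_left hup (by positivity)
      _ = (C.card : ℝ) * ((2 * K : ℝ) ^ K * B) := by ring
  exact le_of_mul_le_mul_left hfin hC0

open Classical in
theorem count_agr (s : ℝ) (hs : 1 ≤ s) (hcard : (Fintype.card ι : ℝ) ≤ s ^ 2) (sg : J → ℤ)
    (hsg : ∀ x, |sg x| = 1) (ν : ι → ℤ) (hν : ∀ p, ν p ≠ 0) (S : Finset ι) :
    ((univ.filter (fun t : J → ι => Agr sg ν t ∧ supp sg t = S)).card : ℝ)
      ≤ ((Fintype.card J + 1).factorial : ℝ) * s ^ ((Fintype.card J : ℤ) - (S.card : ℤ)) := by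
  have h1 := count_gen s hs hcard sg hsg (fun p => if p ∈ S then ν p else 0)
  have hsub : (univ.filter (fun t : J → ι => Agr sg ν t ∧ supp sg t = S))
      ⊆ (univ.filter (fun t : J → ι => ∀ i, sm sg t i = (fun p => if p ∈ S then ν p else 0) i)) := by
    intro t ht
    simp only [Finset.mem_filter, Finset.mem_univ, true_and] at ht ⊢
    intro i
    by_cases hi : i ∈ S
    · rw [if_pos hi]
      rw [← ht.2] at hi
      exact ht.1 i (Finset.mem_filter.mp hi).2
    · rw [if_neg hi]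
      rw [← ht.2] at hi
      by_contra hne
      exact hi (Finset.mem_filter.mpr ⟨Finset.mem_univ _, hne⟩)
  have h2 : ((univ.filter (fun t : J → ι => Agr sg ν t ∧ supp sg t = S)).card : ℝ)
      ≤ ((univ.filter (fun t : J → ι => ∀ i, sm sg t i
        = (fun p => if p ∈ S then ν p else 0) i)).card : ℝ) := by
    exact_mod_cast Finset.card_le_card hsub
  refine h2.trans (h1.trans ?_)
  apply mul_le_mul_of_nonneg_left _ (by positivity)
  apply zpow_le_zpow_right₀ hs
  have h3 : (S.card : ℤ) ≤ ∑ i, |(fun p => if p ∈ S then ν p else 0) i| := by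
    calc (S.card : ℤ) = ∑ i ∈ S, (1 : ℤ) := by simp
      _ ≤ ∑ i ∈ S, |(fun p => if p ∈ S then ν p else 0) i| := by
          refine Finset.sum_le_sum fun i hi => ?_
          simp only [if_pos hi]
          exact Int.one_le_abs (hν i)
      _ ≤ ∑ i, |(fun p => if p ∈ S then ν p else 0) i| := by
          apply Finset.sum_le_sum_of_subset_of_nonneg (Finset.subset_univ _)
          intro i _ _
          exact abs_nonneg _
  linarith

end colour

theorem Phi_eq {ι : Type*} [Fintype ι] [DecidableEq ι] (k : ℕ) (al : ι → ℂ)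
    (t : Fin k × Bool → ι) :
    Phi k al t = ∑ p, (sm (sgn k) t p : ℂ) * al p := by
  unfold Phi sm
  have h1 : ∀ p : ι, ((∑ x, if t x = p then sgn k x else 0 : ℤ) : ℂ) * al p
      = ∑ x, if t x = p then (sgn k x : ℂ) * al p else 0 := by
    intro p
    push_cast
    rw [Finset.sum_mul]
    refine Finset.sum_congr rfl fun x _ => ?_
    split_ifs <;> simp
  simp only [h1]
  rw [Finset.sum_comm]
  refine Finset.sum_congr rfl fun x _ => ?_
  rw [Finset.sum_ite_eq]
  simp

/-- extension of a colouring of `G` to all Gaussian integers -/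
noncomputable def ext (G : Finset GaussianInt) (ν : ↥G → ℤ) (g : GaussianInt) : ℤ :=
  open Classical in if h : g ∈ G then ν ⟨g, h⟩ else 1

theorem ext_coe (G : Finset GaussianInt) (ν : ↥G → ℤ) (p : ↥G) : ext G ν p = ν p := by
  unfold ext
  rw [dif_pos p.2]

/-- the numerators `ν_p a_p` -/
noncomputable def bb (G : Finset GaussianInt) (ν : ↥G → ℤ) (a : GaussianInt → GaussianInt)
    (g : GaussianInt) : GaussianInt := ((ext G ν g : ℤ) : GaussianInt) * a g

/-- support as a set of Gaussian integers -/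
noncomputable def Sv (G : Finset GaussianInt) {k : ℕ} (t : Fin k × Bool → ↥G) :
    Finset GaussianInt :=
  open Classical in (supp (sgn k) t).map (Function.Embedding.subtype _)

theorem Sv_subset (G : Finset GaussianInt) {k : ℕ} (t : Fin k × Bool → ↥G) : Sv G t ⊆ G := by
  intro g hg
  unfold Sv at hg
  rw [Finset.mem_map] at hg
  obtain ⟨p, _, rfl⟩ := hg
  exact p.2

noncomputable def al (G : Finset GaussianInt) (a : GaussianInt → GaussianInt) (p : ↥G) : ℂ :=
  GaussianInt.toComplex (a p) / GaussianInt.toComplex p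

open Classical in
theorem Phi_agr (G : Finset GaussianInt) (a : GaussianInt → GaussianInt) {k : ℕ}
    (t : Fin k × Bool → ↥G) (ν : ↥G → ℤ) (h : Agr (sgn k) ν t) :
    Phi k (al G a) t
      = ∑ p ∈ Sv G t, GaussianInt.toComplex (bb G ν a p) / GaussianInt.toComplex p := by
  rw [Phi_eq]
  unfold Sv
  rw [Finset.sum_map]
  unfold supp
  rw [Finset.sum_filter]
  refine Finset.sum_congr rfl fun p _ => ?_
  split_ifs with h1
  · rw [h p h1]
    unfold al bb
    simp only [Function.Embedding.subtype_apply]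
    rw [ext_coe, map_mul]
    simp
    ring
  · simp only [not_not] at h1
    rw [h1]
    simp

/-- if `Φ` is a Gaussian integer then all multiplicities cancel -/
theorem supp_empty_of_int (G : Finset GaussianInt) (hG : ∀ p ∈ G, Prime p)
    (hass : ∀ p ∈ G, ∀ q ∈ G, Associated p q → p = q)
    (a : GaussianInt → GaussianInt) {k : ℕ} (t : Fin k × Bool → ↥G)
    (hb : ∀ ν : ↥G → ℤ, (∀ p, ν p ≠ 0 ∧ |ν p| ≤ ((2 * k : ℕ) : ℤ)) → ∀ p ∈ G, ¬ p ∣ bb G ν a p)
    (hk : 1 ≤ k)
    (h : ∃ z : GaussianInt, Phi k (al G a) t = GaussianInt.toComplex z) :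
    ∀ p, sm (sgn k) t p = 0 := by
  classical
  set ν : ↥G → ℤ := fun p => if sm (sgn k) t p ≠ 0 then sm (sgn k) t p else 1 with hν
  have hagr : Agr (sgn k) ν t := by
    intro p hp
    simp only [hν]
    rw [if_pos hp]
  have hν1 : ∀ p, ν p ≠ 0 ∧ |ν p| ≤ ((2 * k : ℕ) : ℤ) := by
    intro p
    simp only [hν]
    split_ifs with h1
    · refine ⟨h1, ?_⟩
      have := sm_abs_le (sgn k) (sgn_abs k) t p
      simpa [mul_comm] using this
    · refine ⟨one_ne_zero, ?_⟩
      simp only [abs_one]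
      push_cast
      omega
  obtain ⟨z, hz⟩ := h
  have hS : Sv G t = ∅ := by
    rw [← MM_dvd_NN_iff hG hass (hb ν hν1) (Sv_subset G t)]
    have hp : ∀ p ∈ Sv G t, Prime p := fun p hp => hG p (Sv_subset G t hp)
    have h1 := NN_div_MM (bb G ν a) hp
    rw [← Phi_agr G a t ν hagr, hz] at h1
    have h2 : GaussianInt.toComplex (MM (Sv G t)) ≠ 0 := by
      rw [Ne, GaussianInt.toComplex_eq_zero]
      exact MM_ne_zero hp
    rw [div_eq_iff h2, ← map_mul] at h1
    have h3 := GaussianInt.toComplex_injective h1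
    rw [h3]
    exact dvd_mul_left _ _
  intro p
  by_contra hne
  have : (p : GaussianInt) ∈ Sv G t := by
    unfold Sv
    rw [Finset.mem_map]
    exact ⟨p, Finset.mem_filter.mpr ⟨Finset.mem_univ _, hne⟩, rfl⟩
  rw [hS] at this
  simp at this

end Crest.Agent.R2.F507
end

-- ▼ part R2/Front507d
section

/-!
# Row 2 (Theorem S), FRONT part d: the pigeonhole on colourings, numerators and supports (helper507)
-/

namespace Crest.Agent.R2.F507

open Finset Complex
open Crest.Agent.R2.M750 Crest.Agent.R2.Gcd62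

theorem ab_MM_le (S : Finset GaussianInt) {w : ℝ} (hw : 0 ≤ w) (h : ∀ p ∈ S, ab p ≤ 2 * w) :
    ab (MM S) ≤ (2 * w) ^ S.card := by
  rw [ab_MM, ← Finset.prod_const]
  exact Finset.prod_le_prod (fun p _ => ab_nonneg p) h

theorem Sv_card_le (G : Finset GaussianInt) {k : ℕ} (t : Fin k × Bool → ↥G) :
    (Sv G t).card ≤ 2 * k := by
  unfold Sv
  rw [Finset.card_map]
  have := supp_card_le (sgn k) (sgn_abs k) t
  simpa [mul_comm] using this

/-- the support determines the support in `↥G` -/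
theorem supp_eq_of_Sv (G : Finset GaussianInt) {k : ℕ} (t t' : Fin k × Bool → ↥G)
    (h : Sv G t = Sv G t') : supp (sgn k) t = supp (sgn k) t' := by
  unfold Sv at h
  exact Finset.map_injective _ h

open Classical in
theorem pigeon (G : Finset GaussianInt) (hG : ∀ p ∈ G, Prime p)
    (a : GaussianInt → GaussianInt) {k : ℕ} (hk : 1 ≤ k)
    (s : ℝ) (hs : 1 ≤ s) (hcard : (G.card : ℝ) ≤ s ^ 2)
    (w : ℝ) (hw1 : 1 ≤ w) (hw : ∀ p ∈ G, ab p ≤ 2 * w) (r : ℝ) (hr : 0 < r)
    (Z : ℝ) (hZ0 : 0 ≤ Z)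
    (hZ : ∀ S ⊆ G, 1 / (2 * r) ≤ ab (MM S) → s ^ (((2 * k : ℕ) : ℤ) - (S.card : ℤ)) ≤ Z)
    (E : Finset (Fin k × Bool → ↥G))
    (hE : ∀ t ∈ E, inR r (Phi k (al G a) t) ∧
      ¬ ∃ z : GaussianInt, Phi k (al G a) t = GaussianInt.toComplex z)
    (L : ℝ) (hL0 : 0 ≤ L)
    (hL : ∀ ν : ↥G → ℤ, (∀ p, ν p ≠ 0 ∧ |ν p| ≤ ((2 * k : ℕ) : ℤ)) →
      ∀ c : GaussianInt, c ≠ 0 → ab c ≤ 2 * r * (2 * w) ^ (2 * k) →
      ∀ F : Finset (Finset GaussianInt), (∀ S ∈ F, S ⊆ G ∧ MM S ∣ NN (bb G ν a) S - c ∧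
        ab (MM S) ≤ (2 * w) ^ (2 * k) ∧ 1 / (2 * r) ≤ ab (MM S) ∧
        ∃ t ∈ E, ∃ h : GaussianInt, Phi k (al G a) t
          = GaussianInt.toComplex c / GaussianInt.toComplex (MM S) + GaussianInt.toComplex h) →
      (F.card : ℝ) ≤ L) :
    (E.card : ℝ) ≤ (4 * k : ℝ) ^ (2 * k) *
      (((ball (2 * r * (2 * w) ^ (2 * k))).card : ℝ) *
        (L * (((2 * k + 1).factorial : ℝ) * Z))) := by
  have hcardJ : Fintype.card (Fin k × Bool) = 2 * k := by
    simp [mul_comm]
  have hcol := colour (ι := ↥G) (sgn k) (sgn_abs k) (2 * k) hcardJ (by omega) E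
    (((ball (2 * r * (2 * w) ^ (2 * k))).card : ℝ) * (L * (((2 * k + 1).factorial : ℝ) * Z))) ?_
  · refine hcol.trans (le_of_eq ?_)
    push_cast
    ring_nf
  intro ν hν
  set Eν := E.filter (fun t => Agr (sgn k) ν t) with hEν
  -- numerators
  have hnum : ∀ t ∈ Eν, ∃ c : GaussianInt, c ≠ 0 ∧ ab c ≤ 2 * r * (2 * w) ^ (2 * k) ∧
      MM (Sv G t) ∣ NN (bb G ν a) (Sv G t) - c ∧ ab (MM (Sv G t)) ≤ (2 * w) ^ (2 * k) ∧
      1 / (2 * r) ≤ ab (MM (Sv G t)) ∧
      ∃ h : GaussianInt, Phi k (al G a) t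
          = GaussianInt.toComplex c / GaussianInt.toComplex (MM (Sv G t))
            + GaussianInt.toComplex h := by
    intro t ht
    have ht1 := Finset.mem_filter.mp ht
    obtain ⟨⟨h, hre, him⟩, hne⟩ := hE t ht1.1
    set x : ℂ := Phi k (al G a) t - GaussianInt.toComplex h with hx
    have hxn : ‖x‖ ≤ 2 * r := by
      have h1 : |x.re| < r := by
        rw [hx, Complex.sub_re, ← GaussianInt.intCast_re]
        exact hre
      have h2 : |x.im| < r := by
        rw [hx, Complex.sub_im, ← GaussianInt.intCast_im]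
        exact him
      have h3 := Complex.norm_le_abs_re_add_abs_im x
      linarith
    have hprime : ∀ p ∈ Sv G t, Prime p := fun p hp => hG p (Sv_subset G t hp)
    have hPhi := Phi_agr G a t ν ht1.2
    have hsum : ∑ p ∈ Sv G t, GaussianInt.toComplex (bb G ν a p) / GaussianInt.toComplex p
        = GaussianInt.toComplex h + x := by
      rw [← hPhi, hx]
      ring
    obtain ⟨c, hc1, hc2⟩ := exists_num (bb G ν a) hprime hsum
    have hM0 : MM (Sv G t) ≠ 0 := MM_ne_zero hprime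
    have hM0' : GaussianInt.toComplex (MM (Sv G t)) ≠ 0 := by
      rw [Ne, GaussianInt.toComplex_eq_zero]
      exact hM0
    have hx0 : x ≠ 0 := by
      intro h0
      apply hne
      refine ⟨h, ?_⟩
      have := sub_eq_zero.mp (hx.symm.trans h0)
      exact this
    have hc0 : c ≠ 0 := by
      intro h0
      rw [h0, map_zero] at hc1
      rcases mul_eq_zero.mp hc1.symm with h3 | h3
      · exact hx0 h3
      · exact hM0' h3
    have hMle : ab (MM (Sv G t)) ≤ (2 * w) ^ (2 * k) := by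
      refine (ab_MM_le (Sv G t) (by linarith) fun p hp => hw p (Sv_subset G t hp)).trans ?_
      exact pow_le_pow_right₀ (by linarith) (Sv_card_le G t)
    have habc : ab c = ‖x‖ * ab (MM (Sv G t)) := by
      unfold ab
      rw [hc1, norm_mul]
    have hMpos : 0 < ab (MM (Sv G t)) := by
      have := one_le_ab hM0
      linarith
    refine ⟨c, hc0, ?_, hc2, hMle, ?_, h, ?_⟩
    · rw [habc]
      exact mul_le_mul hxn hMle hMpos.le (by positivity)
    · have h1 := one_le_ab hc0
      rw [habc] at h1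
      rw [div_le_iff₀ (by positivity)]
      nlinarith
    · rw [hc1, mul_div_assoc, div_self hM0', mul_one, hx]
      ring
  choose! cc hcc0 hccle hccdvd hccY hccr hccPhi using hnum
  -- fibres over numerators
  have hmaps : ∀ t ∈ Eν, cc t ∈ ball (2 * r * (2 * w) ^ (2 * k)) := fun t ht =>
    mem_ball.2 (hccle t ht)
  have hfib : ∀ c ∈ ball (2 * r * (2 * w) ^ (2 * k)),
      ((Eν.filter (fun t => cc t = c)).card : ℝ) ≤ L * (((2 * k + 1).factorial : ℝ) * Z) := by
    intro c _
    by_cases hc0 : c = 0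
    · have : Eν.filter (fun t => cc t = c) = ∅ := by
        apply Finset.filter_eq_empty_iff.mpr
        intro t ht h
        exact hcc0 t ht (h.trans hc0)
      rw [this]
      simp only [Finset.card_empty, Nat.cast_zero]
      positivity
    · set Ec := Eν.filter (fun t => cc t = c) with hEc
      rcases Ec.eq_empty_or_nonempty with he | hne'
      · rw [he]
        simp only [Finset.card_empty, Nat.cast_zero]
        positivity
      set F : Finset (Finset GaussianInt) := Ec.image (Sv G) with hF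
      have hFL : (F.card : ℝ) ≤ L := by
        obtain ⟨t₀, ht₀⟩ := hne'
        have ht₁ := Finset.mem_filter.mp ht₀
        apply hL ν hν c hc0 (by rw [← ht₁.2]; exact hccle t₀ ht₁.1)
        intro S hS
        obtain ⟨t, ht, rfl⟩ := Finset.mem_image.mp hS
        have ht' := Finset.mem_filter.mp ht
        have hcct := ht'.2
        refine ⟨Sv_subset G t, ?_, hccY t ht'.1, hccr t ht'.1, t,
          (Finset.mem_filter.mp ht'.1).1, ?_⟩
        · rw [← hcct]
          exact hccdvd t ht'.1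
        · rw [← hcct]
          exact hccPhi t ht'.1
      have hfib2 : ∀ S ∈ F, ((Ec.filter (fun t => Sv G t = S)).card : ℝ)
          ≤ ((2 * k + 1).factorial : ℝ) * Z := by
        intro S hS
        obtain ⟨t₁, ht₁, hSt⟩ := Finset.mem_image.mp hS
        have ht₁' := Finset.mem_filter.mp ht₁
        have hsub : Ec.filter (fun t => Sv G t = S) ⊆
            univ.filter (fun t : Fin k × Bool → ↥G =>
              Agr (sgn k) ν t ∧ supp (sgn k) t = supp (sgn k) t₁) := by
          intro t ht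
          rw [Finset.mem_filter] at ht
          have h1 := Finset.mem_filter.mp ht.1
          have h2 := Finset.mem_filter.mp h1.1
          rw [Finset.mem_filter]
          refine ⟨Finset.mem_univ _, h2.2, ?_⟩
          apply supp_eq_of_Sv G
          rw [ht.2, hSt]
        have h3 := count_agr (ι := ↥G) s hs (by simpa using hcard) (sgn k) (sgn_abs k) ν
          (fun p => (hν p).1) (supp (sgn k) t₁)
        have h4 : ((Ec.filter (fun t => Sv G t = S)).card : ℝ)
            ≤ ((univ.filter (fun t : Fin k × Bool → ↥G =>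
              Agr (sgn k) ν t ∧ supp (sgn k) t = supp (sgn k) t₁)).card : ℝ) := by
          exact_mod_cast Finset.card_le_card hsub
        refine h4.trans (h3.trans ?_)
        rw [hcardJ]
        apply mul_le_mul_of_nonneg_left _ (by positivity)
        have h5 : (supp (sgn k) t₁).card = S.card := by
          rw [← hSt]
          unfold Sv
          rw [Finset.card_map]
        rw [h5]
        apply hZ S
        · rw [← hSt]
          exact Sv_subset G t₁
        · rw [← hSt]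
          exact hccr t₁ ht₁'.1
      have hsumF : (Ec.card : ℝ) = ∑ S ∈ F, ((Ec.filter (fun t => Sv G t = S)).card : ℝ) := by
        have := Finset.card_eq_sum_card_image (Sv G) Ec
        exact_mod_cast this
      rw [hsumF]
      calc ∑ S ∈ F, ((Ec.filter (fun t => Sv G t = S)).card : ℝ)
          ≤ ∑ S ∈ F, ((2 * k + 1).factorial : ℝ) * Z := Finset.sum_le_sum hfib2
        _ = (F.card : ℝ) * (((2 * k + 1).factorial : ℝ) * Z) := by
            rw [Finset.sum_const, nsmul_eq_mul]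
        _ ≤ L * (((2 * k + 1).factorial : ℝ) * Z) :=
            mul_le_mul_of_nonneg_right hFL (by positivity)
  have hsum : (Eν.card : ℝ)
      = ∑ c ∈ ball (2 * r * (2 * w) ^ (2 * k)), ((Eν.filter (fun t => cc t = c)).card : ℝ) := by
    have := Finset.card_eq_sum_card_fiberwise hmaps
    exact_mod_cast this
  rw [hsum]
  calc ∑ c ∈ ball (2 * r * (2 * w) ^ (2 * k)), ((Eν.filter (fun t => cc t = c)).card : ℝ)
      ≤ ∑ c ∈ ball (2 * r * (2 * w) ^ (2 * k)), L * (((2 * k + 1).factorial : ℝ) * Z) :=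
        Finset.sum_le_sum hfib
    _ = _ := by rw [Finset.sum_const, nsmul_eq_mul]

end Crest.Agent.R2.F507
end

-- ▼ part R2/Front507e
section

/-!
# Row 2 (Theorem S), FRONT part e: numbers (helper507)
-/

namespace Crest.Agent.R2.F507

open Finset Complex
open Crest.Agent.R2.M750 Crest.Agent.R2.Gcd62

/-- the choice of `k` -/
theorem exists_k (ε U w : ℝ) (hε : 0 < ε) (hε1 : ε ≤ 1 / 1000) (hUε : 100 ≤ ε * U)
    (hwlow : Real.log U ≤ ε * Real.log w) (hwup : Real.log w ≤ ε ^ 2 * U) :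
    ∃ k : ℕ, 1 ≤ k ∧ (1 + 20 * ε) * U ≤ 2 * k * Real.log w ∧
      2 * k * Real.log w ≤ (1 + 21 * ε) * U ∧ (4 * k : ℝ) ≤ U ∧
      2 * k * Real.log U ≤ 1.1 * ε * U ∧ 1 ≤ Real.log U ∧ 1 / ε ≤ Real.log w := by
  have hU : 100000 ≤ U := by
    by_contra h
    push Not at h
    have : ε * U < 1 / 1000 * 100000 := by
      have h0 : 0 ≤ ε := hε.le
      calc ε * U < ε * 100000 := by nlinarith
        _ ≤ 1 / 1000 * 100000 := by nlinarith
    linarith
  have hlogU : 1 ≤ Real.log U := by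
    rw [Real.le_log_iff_exp_le (by linarith)]
    have := Real.exp_one_lt_d9
    linarith
  have hlw : 1 / ε ≤ Real.log w := by
    rw [div_le_iff₀ hε]
    linarith
  have hlw1000 : 1000 ≤ Real.log w := by
    refine le_trans ?_ hlw
    rw [le_div_iff₀ hε]
    linarith
  set lam := Real.log w with hlam
  have hl0 : 0 < lam := by linarith
  set k := ⌈(1 + 20 * ε) * U / (2 * lam)⌉₊ with hk
  have hx0 : 0 < (1 + 20 * ε) * U / (2 * lam) := by positivity
  have h1 : (1 + 20 * ε) * U / (2 * lam) ≤ k := Nat.le_ceil _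
  have h2 : (k : ℝ) < (1 + 20 * ε) * U / (2 * lam) + 1 := Nat.ceil_lt_add_one hx0.le
  have hk1 : (1 + 20 * ε) * U ≤ 2 * k * lam := by
    rw [div_le_iff₀ (by positivity)] at h1
    linarith
  have hk2 : 2 * k * lam ≤ (1 + 21 * ε) * U := by
    have h3 : (k : ℝ) * (2 * lam) ≤ ((1 + 20 * ε) * U / (2 * lam) + 1) * (2 * lam) :=
      mul_le_mul_of_nonneg_right h2.le (by positivity)
    rw [add_mul, div_mul_cancel₀ _ (by positivity)] at h3
    have h4 : 2 * (ε ^ 2 * U) ≤ ε * U := by nlinarith [mul_pos hε (by linarith : 0 < U)]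
    nlinarith
  have hk3 : 2 * (k : ℝ) ≤ (1 + 21 * ε) * U / lam := by
    rw [le_div_iff₀ hl0]
    exact hk2
  refine ⟨k, ?_, hk1, hk2, ?_, ?_, hlogU, hlw⟩
  · exact Nat.one_le_iff_ne_zero.mpr (by
      intro h0
      rw [h0] at h1
      simp only [Nat.cast_zero] at h1
      linarith)
  · -- 4k ≤ U
    have h5 : 4 * (k : ℝ) * 1000 ≤ U * 1000 := by
      calc 4 * (k : ℝ) * 1000 ≤ 4 * (k : ℝ) * lam := by
            apply mul_le_mul_of_nonneg_left hlw1000 (by positivity)
        _ = 2 * (2 * k * lam) := by ring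
        _ ≤ 2 * ((1 + 21 * ε) * U) := by linarith
        _ ≤ U * 1000 := by nlinarith
    linarith
  · calc 2 * (k : ℝ) * Real.log U ≤ 2 * (k : ℝ) * (ε * lam) :=
          mul_le_mul_of_nonneg_left hwlow (by positivity)
      _ = ε * (2 * k * lam) := by ring
      _ ≤ ε * ((1 + 21 * ε) * U) := mul_le_mul_of_nonneg_left hk2 hε.le
      _ ≤ 1.1 * ε * U := by nlinarith [mul_pos hε (by linarith : 0 < U)]

theorem pow_le_exp {x U M : ℝ} {n : ℕ} (hx0 : 0 < x) (hxU : x ≤ U) (h : n * Real.log U ≤ M) :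
    x ^ n ≤ Real.exp M := by
  have hU : 0 < U := by linarith
  calc x ^ n ≤ U ^ n := pow_le_pow_left₀ hx0.le hxU n
    _ = Real.exp (n * Real.log U) := by
        rw [mul_comm, Real.exp_mul, Real.exp_log hU, Real.rpow_natCast]
    _ ≤ Real.exp M := Real.exp_le_exp.mpr h

end Crest.Agent.R2.F507
end

-- ▼ part R2/Front507f

/-!
# Row 2 (Theorem S), FRONT: assembly (helper507)
-/

namespace Crest.Agent.R2.F507

open Finset Complex
open Crest.Agent.R2.M750 Crest.Agent.R2.Gcd62

theorem log_two_le_one : Real.log 2 ≤ 1 := by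
  have := Real.log_two_lt_d9
  linarith

/-- size of the support of a large denominator -/
theorem card_S_ge {ε U w : ℝ} (hε : 0 < ε) (hU : 0 ≤ U) (hw : 0 < w)
    (hlw : 1 / ε ≤ Real.log w) (S : Finset GaussianInt)
    (hS : ∀ p ∈ S, ab p ≤ 2 * w) (h : Real.exp U ≤ ab (MM S)) :
    (1 - ε) * U ≤ S.card * Real.log w := by
  have h1 := h.trans (ab_MM_le S hw.le hS)
  have h2 : U ≤ S.card * Real.log (2 * w) := by
    have h3 := Real.log_le_log (Real.exp_pos U) h1
    rwa [Real.log_exp, Real.log_pow] at h3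
  rw [Real.log_mul (by norm_num) hw.ne'] at h2
  have hl0 : 0 < Real.log w := lt_of_lt_of_le (by positivity) hlw
  have h4 : Real.log 2 ≤ ε * Real.log w := by
    have := log_two_le_one
    rw [div_le_iff₀ hε] at hlw
    linarith
  have hc0 : (0 : ℝ) ≤ S.card := by positivity
  set x := (S.card : ℝ) * Real.log w with hx
  have hx0 : 0 ≤ x := by positivity
  have h5 : U ≤ (1 + ε) * x := by
    calc U ≤ S.card * (Real.log 2 + Real.log w) := h2
      _ ≤ S.card * (ε * Real.log w + Real.log w) :=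
          mul_le_mul_of_nonneg_left (by linarith) hc0
      _ = (1 + ε) * x := by rw [hx]; ring
  by_cases hε1 : ε ≤ 1
  · have h6 := mul_le_mul_of_nonneg_left h5 (sub_nonneg.mpr hε1)
    have h7 : (1 - ε) * ((1 + ε) * x) = x - ε ^ 2 * x := by ring
    have h8 : 0 ≤ ε ^ 2 * x := by positivity
    linarith
  · push Not at hε1
    nlinarith

theorem Z_bound {ε U w n : ℝ} (hε : 0 < ε) (hε1 : ε ≤ 1 / 1000) (hU : 0 ≤ U) (hw : 0 < w)
    (hlw : 1 / ε ≤ Real.log w) {k : ℕ} (hk : (1 + 20 * ε) * U ≤ 2 * k * Real.log w)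
    (hn : Real.exp ((2 - ε) * Real.log w) ≤ n)
    (S : Finset GaussianInt)
    (hS : ∀ p ∈ S, ab p ≤ 2 * w) (h : Real.exp U ≤ ab (MM S)) :
    Real.sqrt n ^ (((2 * k : ℕ) : ℤ) - (S.card : ℤ)) ≤ n ^ (2 * k) * Real.exp (-(2 * U)) := by
  have hl0 : 0 < Real.log w := lt_of_lt_of_le (by positivity) hlw
  have hn0 : 0 < n := (Real.exp_pos _).trans_le hn
  have hs0 : 0 < Real.sqrt n := Real.sqrt_pos.mpr hn0
  have hsn : Real.sqrt n ^ 2 = n := Real.sq_sqrt hn0.le
  have hs1 : Real.exp ((1 - ε / 2) * Real.log w) ≤ Real.sqrt n := by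
    apply Real.le_sqrt_of_sq_le
    refine le_trans (le_of_eq ?_) hn
    rw [← Real.exp_nat_mul]
    congr 1
    push_cast
    ring
  have hcS := card_S_ge hε hU hw hlw S hS h
  have hpow : Real.exp (2 * U) ≤ Real.sqrt n ^ (2 * k + S.card) := by
    calc Real.exp (2 * U) ≤ Real.exp (((2 * k + S.card : ℕ) : ℝ) * ((1 - ε / 2) * Real.log w)) := by
          apply Real.exp_le_exp.mpr
          push_cast
          have h5 : (1 + 20 * ε) * U + (1 - ε) * U ≤ (2 * k + S.card) * Real.log w := by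
            have h50 := add_le_add hk hcS
            have h51 : 2 * (k : ℝ) * Real.log w + S.card * Real.log w
                = (2 * k + S.card) * Real.log w := by ring
            linarith
          have h6 : (1 - ε / 2) * ((1 + 20 * ε) * U + (1 - ε) * U)
              ≤ (1 - ε / 2) * ((2 * k + S.card) * Real.log w) :=
            mul_le_mul_of_nonneg_left h5 (by linarith)
          have h7 : 2 * U ≤ (1 - ε / 2) * ((1 + 20 * ε) * U + (1 - ε) * U) := by
            have h8 : (1 - ε / 2) * ((1 + 20 * ε) * U + (1 - ε) * U)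
                = 2 * U + ε * U * (18 - 19 / 2 * ε) := by ring
            rw [h8]
            have : 0 ≤ ε * U * (18 - 19 / 2 * ε) := by
              apply mul_nonneg (by positivity)
              linarith
            linarith
          calc 2 * U ≤ _ := h7
            _ ≤ _ := h6
            _ = _ := by ring
      _ = (Real.exp ((1 - ε / 2) * Real.log w)) ^ (2 * k + S.card) := by
          rw [← Real.exp_nat_mul]
      _ ≤ Real.sqrt n ^ (2 * k + S.card) := pow_le_pow_left₀ (Real.exp_pos _).le hs1 _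
  have heq : Real.sqrt n ^ (((2 * k : ℕ) : ℤ) - (S.card : ℤ)) * Real.sqrt n ^ (2 * k + S.card)
      = n ^ (2 * k) := by
    rw [← zpow_natCast (Real.sqrt n) (2 * k + S.card), ← zpow_add₀ hs0.ne']
    have : (((2 * k : ℕ) : ℤ) - (S.card : ℤ)) + ((2 * k + S.card : ℕ) : ℤ)
        = ((2 * (2 * k) : ℕ) : ℤ) := by
      push_cast
      ring
    rw [this, zpow_natCast, pow_mul, hsn]
  rw [Real.exp_neg, ← div_eq_mul_inv, le_div_iff₀ (Real.exp_pos _), ← heq]
  apply mul_le_mul_of_nonneg_left hpow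
  positivity

/-- Gaussian primes of `G` do not divide the numerators -/
theorem bb_ok {U w : ℝ} {k : ℕ} (G : Finset GaussianInt) (hG : ∀ p ∈ G, Prime p)
    (hwl : ∀ p ∈ G, w ≤ ab p) (hk : (4 * k : ℝ) ≤ U) (hk1 : 1 ≤ k) (hUw : U ≤ w)
    (a : GaussianInt → GaussianInt) (ha : ∀ p ∈ G, ¬ p ∣ a p) :
    ∀ ν : ↥G → ℤ, (∀ p, ν p ≠ 0 ∧ |ν p| ≤ ((2 * k : ℕ) : ℤ)) → ∀ p ∈ G, ¬ p ∣ bb G ν a p := by
  intro ν hν p hp
  unfold bb
  have h1 : ext G ν p = ν ⟨p, hp⟩ := ext_coe G ν ⟨p, hp⟩
  rw [h1]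
  apply not_dvd_mul (hG p hp) (hwl p hp) (hν ⟨p, hp⟩).1 _ (ha p hp)
  have h2 := (hν ⟨p, hp⟩).2
  have h3 : ((|ν ⟨p, hp⟩| : ℤ) : ℝ) ≤ ((2 * k : ℕ) : ℝ) := by exact_mod_cast h2
  push_cast at h3
  have h4 : (1 : ℝ) ≤ k := by exact_mod_cast hk1
  linarith

theorem ft_norm_le_one (A : Finset GaussianInt) (m : GaussianInt → ℝ) (hm : ∀ z ∈ A, 0 ≤ m z)
    (hs : ∑ z ∈ A, m z = 1) (x : ℂ) : ‖ft A m x‖ ≤ 1 := (ft_norm_le A m hm x).trans hs.le

open Classical in
/-- splitting of `W` -/
theorem W_upper (G : Finset GaussianInt) (a : GaussianInt → GaussianInt) (k : ℕ)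
    (r τ : ℝ) (hr : 0 < r)
    (A₂ A₃ : Finset GaussianInt) (m₂ m₃ : GaussianInt → ℝ)
    (hm₂ : ∀ z ∈ A₂, 0 ≤ m₂ z) (hm₃ : ∀ z ∈ A₃, 0 ≤ m₃ z)
    (hs₂ : ∑ z ∈ A₂, m₂ z = 1) (hs₃ : ∑ z ∈ A₃, m₃ z = 1) :
    ∑ t : Fin k × Bool → ↥G, phi r (Phi k (al G a) t) *
          (‖ft A₂ m₂ (Phi k (al G a) t)‖ ^ 2 * ‖ft A₃ m₃ (Phi k (al G a) t)‖ ^ 2)
      ≤ 1 / r ^ 2 * (((univ.filter (fun t : Fin k × Bool → ↥G =>
            ∃ z : GaussianInt, Phi k (al G a) t = GaussianInt.toComplex z)).card : ℝ)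
        + τ ^ 2 * ((univ.filter (fun t : Fin k × Bool → ↥G =>
            inR r (Phi k (al G a) t) ∧
            ¬ ∃ z : GaussianInt, Phi k (al G a) t = GaussianInt.toComplex z)).card : ℝ)
        + ((univ.filter (fun t : Fin k × Bool → ↥G =>
            inR r (Phi k (al G a) t) ∧
            (¬ ∃ z : GaussianInt, Phi k (al G a) t = GaussianInt.toComplex z) ∧
            τ ≤ ‖ft A₂ m₂ (Phi k (al G a) t)‖ ∧ τ ≤ ‖ft A₃ m₃ (Phi k (al G a) t)‖)).card : ℝ)) := by
  simp only [Finset.card_filter]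
  push_cast
  rw [Finset.mul_sum, ← Finset.sum_add_distrib, ← Finset.sum_add_distrib, Finset.mul_sum]
  refine Finset.sum_le_sum fun t _ => ?_
  set x := Phi k (al G a) t with hx
  have hφ0 := phi_nonneg hr x
  have hφ1 := phi_le hr x
  have h2 := ft_norm_le_one A₂ m₂ hm₂ hs₂ x
  have h3 := ft_norm_le_one A₃ m₃ hm₃ hs₃ x
  have h20 := norm_nonneg (ft A₂ m₂ x)
  have h30 := norm_nonneg (ft A₃ m₃ x)
  have h22 : ‖ft A₂ m₂ x‖ ^ 2 ≤ 1 := pow_le_one₀ h20 h2
  have h33 : ‖ft A₃ m₃ x‖ ^ 2 ≤ 1 := pow_le_one₀ h30 h3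
  have hr2 : 0 < 1 / r ^ 2 := by positivity
  have hprod1 : ‖ft A₂ m₂ x‖ ^ 2 * ‖ft A₃ m₃ x‖ ^ 2 ≤ 1 :=
    mul_le_one₀ h22 (by positivity) h33
  by_cases hz : ∃ z : GaussianInt, x = GaussianInt.toComplex z
  · rw [if_pos hz, if_neg (by tauto), if_neg (by tauto)]
    simp only [mul_zero, add_zero, mul_one]
    calc phi r x * (‖ft A₂ m₂ x‖ ^ 2 * ‖ft A₃ m₃ x‖ ^ 2) ≤ 1 / r ^ 2 * 1 :=
          mul_le_mul hφ1 hprod1 (by positivity) hr2.le
      _ = 1 / r ^ 2 := mul_one _
  · by_cases hin : inR r x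
    · rw [if_neg hz, if_pos ⟨hin, hz⟩]
      by_cases hg : τ ≤ ‖ft A₂ m₂ x‖ ∧ τ ≤ ‖ft A₃ m₃ x‖
      · rw [if_pos ⟨hin, hz, hg⟩]
        have : phi r x * (‖ft A₂ m₂ x‖ ^ 2 * ‖ft A₃ m₃ x‖ ^ 2) ≤ 1 / r ^ 2 * 1 :=
          mul_le_mul hφ1 hprod1 (by positivity) hr2.le
        refine this.trans ?_
        apply mul_le_mul_of_nonneg_left _ hr2.le
        have : 0 ≤ τ ^ 2 * 1 := by positivity
        linarith
      · rw [if_neg (by tauto)]
        have hsmall : ‖ft A₂ m₂ x‖ ^ 2 * ‖ft A₃ m₃ x‖ ^ 2 ≤ τ ^ 2 := by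
          by_cases h4 : τ ≤ ‖ft A₂ m₂ x‖
          · have h5 : ‖ft A₃ m₃ x‖ < τ := by
              by_contra h6
              exact hg ⟨h4, not_lt.mp h6⟩
            have h6 : ‖ft A₃ m₃ x‖ ^ 2 ≤ τ ^ 2 := pow_le_pow_left₀ h30 h5.le 2
            calc ‖ft A₂ m₂ x‖ ^ 2 * ‖ft A₃ m₃ x‖ ^ 2 ≤ 1 * τ ^ 2 :=
                  mul_le_mul h22 h6 (by positivity) (by norm_num)
              _ = τ ^ 2 := one_mul _
          · have h6 : ‖ft A₂ m₂ x‖ ^ 2 ≤ τ ^ 2 := pow_le_pow_left₀ h20 (not_le.mp h4).le 2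
            calc ‖ft A₂ m₂ x‖ ^ 2 * ‖ft A₃ m₃ x‖ ^ 2 ≤ τ ^ 2 * 1 :=
                  mul_le_mul h6 h33 (by positivity) (by positivity)
              _ = τ ^ 2 := mul_one _
        have : phi r x * (‖ft A₂ m₂ x‖ ^ 2 * ‖ft A₃ m₃ x‖ ^ 2) ≤ 1 / r ^ 2 * τ ^ 2 :=
          mul_le_mul hφ1 hsmall (by positivity) hr2.le
        refine this.trans ?_
        apply mul_le_mul_of_nonneg_left _ hr2.le
        linarith
    · have h0 := phi_eq_zero hr hin
      rw [h0, zero_mul]
      apply mul_nonneg hr2.le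
      positivity

open Classical in
/-- tuples with `Φ ≡ 0` -/
theorem T0_card (G : Finset GaussianInt) (hG : ∀ p ∈ G, Prime p)
    (hass : ∀ p ∈ G, ∀ q ∈ G, Associated p q → p = q)
    (a : GaussianInt → GaussianInt) {k : ℕ}
    (hb : ∀ ν : ↥G → ℤ, (∀ p, ν p ≠ 0 ∧ |ν p| ≤ ((2 * k : ℕ) : ℤ)) → ∀ p ∈ G, ¬ p ∣ bb G ν a p)
    (hk : 1 ≤ k) (s : ℝ) (hs : 1 ≤ s) (hcard : (G.card : ℝ) ≤ s ^ 2) :
    ((univ.filter (fun t : Fin k × Bool → ↥G =>
            ∃ z : GaussianInt, Phi k (al G a) t = GaussianInt.toComplex z)).card : ℝ)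
      ≤ ((2 * k + 1).factorial : ℝ) * s ^ (2 * k) := by
  have h1 := count_gen (ι := ↥G) s hs (by simpa using hcard) (sgn k) (sgn_abs k) (fun _ => 0)
  have hsub : (univ.filter (fun t : Fin k × Bool → ↥G =>
            ∃ z : GaussianInt, Phi k (al G a) t = GaussianInt.toComplex z)) ⊆
      (univ.filter (fun t : Fin k × Bool → ↥G => ∀ i, sm (sgn k) t i = (fun _ => (0 : ℤ)) i)) := by
    intro t ht
    rw [Finset.mem_filter] at ht ⊢
    refine ⟨Finset.mem_univ _, fun p => ?_⟩
    exact supp_empty_of_int G hG hass a t hb hk ht.2 p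
  have h2 : ((univ.filter (fun t : Fin k × Bool → ↥G =>
            ∃ z : GaussianInt, Phi k (al G a) t = GaussianInt.toComplex z)).card : ℝ)
      ≤ ((univ.filter (fun t : Fin k × Bool → ↥G => ∀ i, sm (sgn k) t i
        = (fun _ => (0 : ℤ)) i)).card : ℝ) := by
    exact_mod_cast Finset.card_le_card hsub
  refine h2.trans (h1.trans (le_of_eq ?_))
  have h3 : Fintype.card (Fin k × Bool) = 2 * k := by simp [mul_comm]
  rw [h3]
  simp only [abs_zero, Finset.sum_const_zero, sub_zero]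
  rw [zpow_natCast]

end Crest.Agent.R2.F507
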