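import Crest.Agent.R2.Kit123
import Crest.Agent.R2.K8Def587_Mg

-- ▼ part R2/Kac587a
section

/-!
# R2 (Gaussian moat), block K8, part a: the entropy lines of near-full Kac
-/

set_option autoImplicit false
set_option linter.unusedSectionVars false

namespace Crest.Agent.R2.K8

open Finset Crest.Agent.R055 Crest.Agent.R2.Kit Crest.Agent.R2.Gcd62

/-- Residue class of `z` modulo all `p ∈ S`, coded as a set. -/
def rs (S : Finset GaussianInt) (z : GaussianInt) : Set GaussianInt := {x | ∀ p ∈ S, p ∣ x - z}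

theorem rs_eq_iff {S : Finset GaussianInt} {z z' : GaussianInt} :
    rs S z = rs S z' ↔ ∀ p ∈ S, p ∣ z - z' := by
  constructor
  · intro h p hp
    have h1 : z ∈ rs S z := fun q _ => by simp
    rw [h] at h1
    exact h1 p hp
  · intro h
    ext x
    constructor
    · intro hx p hp
      have h1 := hx p hp
      have h2 := h p hp
      have h3 : x - z' = (x - z) + (z - z') := by ring
      rw [h3]; exact dvd_add h1 h2
    · intro hx p hp
      have h1 := hx p hp
      have h2 := h p hp
      have h3 : x - z = (x - z') - (z - z') := by ring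
      rw [h3]; exact dvd_sub h1 h2

section entropy

variable {Ω : Type*} [Fintype Ω] {P : Ω → ℝ}

/-- The one-line difference inequality (dependent Ruzsa triangle inequality). -/
theorem ruzsa (hP : IsProb P) (S : Finset GaussianInt) (z y y' : Ω → GaussianInt) :
    ent P (fun ω => rs S (y ω - y' ω)) ≤
      ent P (fun ω => rs S (z ω + y ω)) + ent P (fun ω => rs S (z ω + y' ω))
        + (ent P (fun ω => (y ω, y' ω)) - ent P (fun ω => (rs S (z ω), (y ω, y' ω)))) := by
  have h := ent_submod hP (fun ω => (rs S (z ω + y ω), rs S (z ω + y' ω)))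
    (fun ω => (y ω, y' ω)) (fun ω => rs S (y ω - y' ω))
  have h1 : ent P (fun ω => ((rs S (z ω + y ω), rs S (z ω + y' ω)), (y ω, y' ω),
      rs S (y ω - y' ω))) = ent P (fun ω => (rs S (z ω), (y ω, y' ω))) := by
    apply ent_congr
    intro a b
    simp only [Prod.mk.injEq]
    constructor
    · rintro ⟨⟨h1, -⟩, ⟨h2, h3⟩, -⟩
      refine ⟨?_, h2, h3⟩
      rw [rs_eq_iff] at h1 ⊢
      intro p hp
      have := h1 p hp
      rw [h2] at this
      simpa using this
    · rintro ⟨h1, h2, h3⟩
      refine ⟨⟨?_, ?_⟩, ⟨h2, h3⟩, ?_⟩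
      · rw [rs_eq_iff] at h1 ⊢
        intro p hp
        have := h1 p hp
        rw [h2]
        simpa using this
      · rw [rs_eq_iff] at h1 ⊢
        intro p hp
        have := h1 p hp
        rw [h3]
        simpa using this
      · rw [h2, h3]
  have h2 : ent P (fun ω => ((rs S (z ω + y ω), rs S (z ω + y' ω)), rs S (y ω - y' ω)))
      = ent P (fun ω => (rs S (z ω + y ω), rs S (z ω + y' ω))) := by
    apply ent_congr
    intro a b
    simp only [Prod.mk.injEq]
    constructor
    · rintro ⟨h1, -⟩; exact h1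
    · rintro ⟨h1, h2⟩
      refine ⟨⟨h1, h2⟩, ?_⟩
      rw [rs_eq_iff] at h1 h2 ⊢
      intro p hp
      have e : y b - y' b - (y a - y' a) = (z b + y b - (z a + y a)) - (z b + y' b - (z a + y' a)) := by
        ring
      rw [e]; exact dvd_sub (h1 p hp) (h2 p hp)
  have h3 : ent P (fun ω => ((y ω, y' ω), rs S (y ω - y' ω))) = ent P (fun ω => (y ω, y' ω)) := by
    apply ent_congr
    intro a b
    simp only [Prod.mk.injEq]
    constructor
    · rintro ⟨h1, -⟩; exact h1
    · rintro ⟨h1, h2⟩
      exact ⟨⟨h1, h2⟩, by rw [h1, h2]⟩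
  have h4 := ent_subadd hP (fun ω => rs S (z ω + y ω)) (fun ω => rs S (z ω + y' ω))
  rw [h1, h2, h3] at h
  linarith

/-- Conditional subadditivity over a union of blocks. -/
theorem cond_union {ι R : Type*} [DecidableEq ι] (hP : IsProb P) (U : Finset ι)
    (B : ι → Finset GaussianInt) (z : Ω → GaussianInt) (Y : Ω → R) :
    ent P (fun ω => (rs (U.biUnion B) (z ω), Y ω)) - ent P Y ≤
      ∑ u ∈ U, (ent P (fun ω => (rs (B u) (z ω), Y ω)) - ent P Y) := by
  classical
  induction U using Finset.induction_on with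
  | empty =>
    have : ent P (fun ω => (rs ((∅ : Finset ι).biUnion B) (z ω), Y ω)) = ent P Y := by
      apply ent_congr
      intro a b
      simp only [Prod.mk.injEq, and_iff_right_iff_imp]
      intro _
      rw [rs_eq_iff]
      simp
    rw [this]; simp
  | insert u U hu ih =>
    rw [Finset.sum_insert hu]
    have h1 : ent P (fun ω => (rs ((insert u U).biUnion B) (z ω), Y ω))
        = ent P (fun ω => ((rs (B u) (z ω), rs (U.biUnion B) (z ω)), Y ω)) := by
      apply ent_congr
      intro a b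
      simp only [Prod.mk.injEq, rs_eq_iff, Finset.biUnion_insert, Finset.mem_union]
      constructor
      · rintro ⟨h1, h2⟩
        exact ⟨⟨fun p hp => h1 p (Or.inl hp), fun p hp => h1 p (Or.inr hp)⟩, h2⟩
      · rintro ⟨⟨h1, h2⟩, h3⟩
        exact ⟨fun p hp => hp.elim (h1 p) (h2 p), h3⟩
    rw [h1]
    have h2 := cond_subadd hP (fun ω => rs (B u) (z ω)) (fun ω => rs (U.biUnion B) (z ω)) Y
    linarith

/-- The sum over the children of a parent block: near independence for free. -/
theorem children_le {ι R : Type*} [DecidableEq ι] (hP : IsProb P) (U : Finset ι)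
    (B : ι → Finset GaussianInt) (z : Ω → GaussianInt) (Y : Ω → R) :
    ∑ u ∈ U, (ent P Y - ent P (fun ω => (rs (B u) (z ω), Y ω))) ≤
      ent P Y - ent P (fun ω => rs (U.biUnion B) (z ω)) := by
  have h1 := cond_union hP U B z Y
  have h2 := ent_le_ent_pair_left hP (fun ω => rs (U.biUnion B) (z ω)) Y
  have h3 : ∑ u ∈ U, (ent P Y - ent P (fun ω => (rs (B u) (z ω), Y ω)))
      = - ∑ u ∈ U, (ent P (fun ω => (rs (B u) (z ω), Y ω)) - ent P Y) := by
    rw [← Finset.sum_neg_distrib]
    apply Finset.sum_congr rfl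
    intro u _; ring
  rw [h3]
  linarith

/-- `H(z mod S) ≤ log N(M_S)`. -/
theorem ent_rs_le (hP : IsProb P) (S : Finset GaussianInt) (hS : ∀ p ∈ S, p ≠ 0)
    (z : Ω → GaussianInt) :
    ent P (fun ω => rs S (z ω)) ≤ Real.log (∏ p ∈ S, ((p.norm : ℤ) : ℝ)) := by
  classical
  set M : GaussianInt := ∏ p ∈ S, p with hM
  have hM0 : M ≠ 0 := Finset.prod_ne_zero_iff.2 hS
  set iM : GaussianInt := ⟨0, 1⟩ * M with hiM
  have hdet : T635.det M iM = M.norm := by
    unfold T635.det
    rw [hiM, Zsqrtd.norm_def]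
    simp [Zsqrtd.re_mul, Zsqrtd.im_mul]
  have hdet0 : T635.det M iM ≠ 0 := by
    rw [hdet]
    exact ne_of_gt (GaussianInt.norm_pos.2 hM0)
  have hfin : Finite (GaussianInt ⧸ T635.Lat M iM) := T635.finite_quotient hdet0
  let _ : Fintype (GaussianInt ⧸ T635.Lat M iM) := Fintype.ofFinite _
  have h1 : ent P (fun ω => rs S (z ω)) ≤
      ent P (fun ω => (QuotientAddGroup.mk (z ω) : GaussianInt ⧸ T635.Lat M iM)) := by
    apply ent_mono hP.nonneg
    intro a b h
    rw [QuotientAddGroup.eq, T635.mem_Lat] at h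
    obtain ⟨s, t, h⟩ := h
    rw [rs_eq_iff]
    intro p hp
    have hpM : p ∣ M := Finset.dvd_prod_of_mem _ hp
    have h2 : z b - z a = -((s : GaussianInt) * M + (t : GaussianInt) * (⟨0, 1⟩ * M)) := by
      have h3 : z b - z a = -(-z b + z a) := by ring
      rw [h3, h]
      simp [hiM, zsmul_eq_mul]
    rw [h2]
    exact (dvd_neg).2 (dvd_add (hpM.mul_left _) ((hpM.mul_left _).mul_left _))
  have h2 := ent_le_log_card hP (fun ω => (QuotientAddGroup.mk (z ω) :
    GaussianInt ⧸ T635.Lat M iM))
  have h3 : (Fintype.card (GaussianInt ⧸ T635.Lat M iM) : ℝ) = ∏ p ∈ S, ((p.norm : ℤ) : ℝ) := by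
    have h4 := T635.card_quotient M iM hdet0
    rw [Nat.card_eq_fintype_card, hdet] at h4
    rw [h4]
    have h5 : (0 : ℤ) ≤ M.norm := GaussianInt.norm_nonneg M
    have h6 : ((M.norm.natAbs : ℕ) : ℝ) = ((M.norm : ℤ) : ℝ) := by
      rw [Nat.cast_natAbs, abs_of_nonneg h5]
    rw [h6, hM]
    have h7 : (∏ p ∈ S, p).norm = ∏ p ∈ S, p.norm := by
      exact map_prod (Zsqrtd.normMonoidHom) _ _
    rw [h7]; push_cast; rfl
  rw [h3] at h2
  linarith

end entropy

end Crest.Agent.R2.K8
end

-- ▼ part R2/Kac587b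
section

/-!
# R2 (Gaussian moat), block K8, part b: extension by a kernel, lower bound by fibres
-/

set_option autoImplicit false
set_option linter.unusedSectionVars false

namespace Crest.Agent.R2.K8

open Finset hiding ext
open Crest.Agent.R055 Crest.Agent.R2.Kit Crest.Agent.R2.Gcd62

section kernel

variable {Ω : Type*} [Fintype Ω] {P : Ω → ℝ} {T : Type*} [Fintype T] {κ : Ω → T → ℝ}

theorem cls_ext {S : Type*} (X : Ω → T → S) (ω : Ω) (t : T) :
    cls (ext P κ) (fun x => (X x.1 x.2, x.1)) (ω, t) = P ω * cls (κ ω) (X ω) t := by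
  classical
  unfold cls ext
  rw [Fintype.sum_prod_type, Finset.sum_eq_single ω]
  · rw [Finset.mul_sum]
    apply Finset.sum_congr rfl
    intro t' _
    by_cases h : X ω t' = X ω t
    · simp [h]
    · simp [h]
  · intro b _ hb
    apply Finset.sum_eq_zero
    intro t' _
    rw [if_neg]
    intro h
    exact hb (Prod.mk.inj h).2
  · intro h; exact absurd (Finset.mem_univ _) h

theorem cls_self (ω : Ω) : cls P (fun ω => ω) ω = P ω := by
  classical
  unfold cls
  rw [Finset.sum_ite_eq' Finset.univ ω P]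
  simp

/-- If every conditional fibre has mass `≤ exp (- h ω)` then `H(X) ≥ E h`. -/
theorem fibre {S : Type*} (hP : IsProb P) (hκ : ∀ ω, IsProb (κ ω)) (X : Ω → T → S) (h : Ω → ℝ)
    (hX : ∀ ω t, 0 < P ω → 0 < κ ω t → cls (κ ω) (X ω) t ≤ Real.exp (- h ω)) :
    ∑ ω, P ω * h ω ≤ ent (ext P κ) (fun x => X x.1 x.2) := by
  have hE := isProb_ext hP hκ
  have h1 := ent_subadd hE (fun x => X x.1 x.2) (fun x => x.1)
  have h2 : ent (ext P κ) (fun x : Ω × T => x.1) = ent P (fun ω => ω) :=
    (pushes_ext hκ).ent_eq (fun ω => ω)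
  have h3 : ent (ext P κ) (fun x : Ω × T => x.1) = ∑ x : Ω × T, ext P κ x * (- Real.log (P x.1)) := by
    rw [h2]
    unfold ent
    rw [← (pushes_ext hκ).sum_mul]
    apply Finset.sum_congr rfl
    intro x _
    rw [cls_self]
  have h4 : ent (ext P κ) (fun x : Ω × T => x.1) + ∑ ω, P ω * h ω ≤
      ent (ext P κ) (fun x => (X x.1 x.2, x.1)) := by
    rw [h3]
    have h5 : ∑ ω, P ω * h ω = ∑ x : Ω × T, ext P κ x * h x.1 :=
      ((pushes_ext hκ).sum_mul (P := P) h).symm
    rw [h5, ← Finset.sum_add_distrib]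
    unfold ent
    apply Finset.sum_le_sum
    rintro ⟨ω, t⟩ _
    rcases (hE.nonneg (ω, t)).lt_or_eq with hi | hi
    · rw [cls_ext]
      have hpos : 0 < P ω * κ ω t := hi
      have hP0 : 0 < P ω := by
        rcases (hP.nonneg ω).lt_or_eq with h' | h'
        · exact h'
        · rw [← h'] at hpos; simp at hpos
      have hκ0 : 0 < κ ω t := by
        rcases ((hκ ω).nonneg t).lt_or_eq with h' | h'
        · exact h'
        · rw [← h'] at hpos; simp at hpos
      have hc := hX ω t hP0 hκ0
      have hc0 : 0 < cls (κ ω) (X ω) t := cls_pos (hκ ω).nonneg _ hκ0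
      rw [← mul_add]
      apply mul_le_mul_of_nonneg_left _ hi.le
      rw [Real.log_mul hP0.ne' hc0.ne']
      have := Real.log_le_log hc0 hc
      rw [Real.log_exp] at this
      linarith
    · simp [← hi]
  linarith

end kernel

/-! ### uniform kernels on finsets -/

section unif

variable {Ω : Type*} [Fintype Ω]

open Classical in
/-- the finite type of all values -/
noncomputable def vals (F : Ω → Finset GaussianInt) : Finset GaussianInt := Finset.univ.biUnion F

open Classical in
/-- uniform kernel -/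
noncomputable def uk (F : Ω → Finset GaussianInt) (ω : Ω) (t : vals F) : ℝ :=
  if (t : GaussianInt) ∈ F ω then 1 / ((F ω).card : ℝ) else 0

theorem mem_vals {F : Ω → Finset GaussianInt} {ω : Ω} {d : GaussianInt} (h : d ∈ F ω) :
    d ∈ vals F := by
  classical
  unfold vals
  exact Finset.mem_biUnion.2 ⟨ω, Finset.mem_univ _, h⟩

theorem sum_uk (F : Ω → Finset GaussianInt) (ω : Ω) (f : GaussianInt → ℝ) :
    ∑ t : vals F, uk F ω t * f t = (∑ d ∈ F ω, f d) / ((F ω).card : ℝ) := by
  classical
  have h1 : ∑ t : vals F, uk F ω t * f t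
      = ∑ d ∈ vals F, (if d ∈ F ω then 1 / ((F ω).card : ℝ) else 0) * f d :=
    Finset.sum_coe_sort (vals F) (fun d => (if d ∈ F ω then 1 / ((F ω).card : ℝ) else 0) * f d)
  rw [h1]
  simp_rw [ite_mul, zero_mul]
  rw [← Finset.sum_filter]
  have h2 : (vals F).filter (fun d => d ∈ F ω) = F ω := by
    ext d
    simp only [Finset.mem_filter]
    exact ⟨fun h => h.2, fun h => ⟨mem_vals h, h⟩⟩
  rw [h2, Finset.sum_div]
  apply Finset.sum_congr rfl
  intro d _; ring

theorem isProb_uk (F : Ω → Finset GaussianInt) (hF : ∀ ω, (F ω).Nonempty) (ω : Ω) :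
    IsProb (uk F ω) := by
  classical
  constructor
  · intro t
    unfold uk
    split_ifs
    · positivity
    · exact le_rfl
  · have h := sum_uk F ω (fun _ => 1)
    simp only [mul_one, Finset.sum_const, nsmul_eq_mul] at h
    rw [h]
    have : ((F ω).card : ℝ) ≠ 0 := by
      exact_mod_cast (Finset.card_pos.2 (hF ω)).ne'
    exact div_self this

theorem uk_pos {F : Ω → Finset GaussianInt} {ω : Ω} {t : vals F} (h : 0 < uk F ω t) :
    (t : GaussianInt) ∈ F ω := by
  classical
  unfold uk at h
  by_contra hn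
  rw [if_neg hn] at h
  exact lt_irrefl _ h

/-- fibre of a function of the value, for the uniform kernel. -/
theorem cls_uk {S : Type*} (F : Ω → Finset GaussianInt) (ω : Ω) (X : GaussianInt → S)
    (t : vals F) [DecidablePred fun d : GaussianInt => X d = X t] :
    cls (uk F ω) (fun t => X t) t
      = (((F ω).filter fun d => X d = X t).card : ℝ) / ((F ω).card : ℝ) := by
  classical
  have h := sum_uk F ω (fun d => if X d = X t then 1 else 0)
  unfold cls
  have h1 : (∑ t' : vals F, if X t' = X t then uk F ω t' else 0)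
      = ∑ t' : vals F, uk F ω t' * (if X t' = X t then 1 else 0) := by
    apply Finset.sum_congr rfl
    intro t' _
    split_ifs <;> simp
  have h2 : (∑ t' : vals F, @ite ℝ (X t' = X t) (Classical.propDecidable _) (uk F ω t') 0)
      = (∑ t' : vals F, if X t' = X t then uk F ω t' else 0) := by
    apply Finset.sum_congr rfl
    intro t' _
    congr
  rw [h2, h1, h, Finset.sum_boole]

end unif

end Crest.Agent.R2.K8
end

-- ▼ part R2/Kac587c

/-!
# R2 (Gaussian moat), block K8, part c: the inequality at one level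
-/

set_option autoImplicit false
set_option linter.unusedSectionVars false

namespace Crest.Agent.R2.K8

open Finset hiding ext
open Crest.Agent.R055 Crest.Agent.R2.Kit Crest.Agent.R2.Gcd62

theorem isCoprime_of_primes {p q : GaussianInt} (hp : Prime p) (hq : Prime q)
    (h : ¬ Associated p q) : IsCoprime p q := by
  rcases EuclideanDomain.dvd_or_coprime p q hp.irreducible with h1 | h1
  · exact absurd (hp.associated_of_dvd hq h1) h
  · exact h1

theorem prod_dvd_of_rs {S : Finset GaussianInt} (hS : ∀ p ∈ S, Prime p)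
    (hass : ∀ p ∈ S, ∀ q ∈ S, Associated p q → p = q) {d t : GaussianInt}
    (h : rs S d = rs S t) : (∏ p ∈ S, p) ∣ d - t := by
  rw [rs_eq_iff] at h
  apply Finset.prod_dvd_of_coprime
  · intro p hp q hq hpq
    exact isCoprime_of_primes (hS p hp) (hS q hq) (fun h' => hpq (hass p hp q hq h'))
  · intro p hp; exact h p hp

theorem sum_range_mul (f : ℕ → ℝ) (m n' : ℕ) :
    ∑ j ∈ range (n' * m), f j = ∑ j' ∈ range n', ∑ u ∈ range m, f (j' * m + u) := by
  induction n' with
  | zero => simp
  | succ n ih =>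
    rw [Nat.succ_mul, Finset.sum_range_add, ih, Finset.sum_range_succ]

theorem log_ball {b : ℝ} (hb : 2 ≤ b) :
    Real.log ((ball (Real.exp (4 * b))).card : ℝ) ≤ 10 * b := by
  have h0 : (0 : ℝ) ≤ Real.exp (4 * b) := (Real.exp_pos _).le
  have h1 := card_ball h0
  have hne : 0 < ((ball (Real.exp (4 * b))).card : ℝ) := by
    have : (0 : GaussianInt) ∈ ball (Real.exp (4 * b)) := by
      rw [mem_ball]; rw [ab_zero]; exact h0
    exact_mod_cast Finset.card_pos.2 ⟨0, this⟩
  have h2 : (2 * Real.exp (4 * b) + 1) ^ 2 ≤ Real.exp (10 * b) := by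
    have h3 : (1 : ℝ) ≤ Real.exp (4 * b) := Real.one_le_exp (by linarith)
    have h4 : (3 : ℝ) ≤ Real.exp b := by
      have := Real.add_one_le_exp b
      linarith
    have h5 : Real.exp (10 * b) = (Real.exp b * Real.exp (4 * b)) ^ 2 := by
      rw [← Real.exp_add, ← Real.exp_nat_mul]
      congr 1; push_cast; ring
    rw [h5]
    have h6 : 2 * Real.exp (4 * b) + 1 ≤ Real.exp b * Real.exp (4 * b) := by nlinarith
    exact pow_le_pow_left₀ (by linarith) h6 2
  calc Real.log ((ball (Real.exp (4 * b))).card : ℝ) ≤ Real.log (Real.exp (10 * b)) :=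
        Real.log_le_log hne (h1.trans h2)
    _ = 10 * b := Real.log_exp _

/-- **The inequality at one level.**  `B j`, `j < n' * m`, are the blocks of the level, the parents
are the unions of `B (j' * m + u)`, `u < m`. -/
theorem level {Ω : Type} [Fintype Ω] {P : Ω → ℝ} (hP : IsProb P) (z : Ω → GaussianInt)
    (E : Set GaussianInt) {δ b L : ℝ} (hb : 2 ≤ b) (hL : δ * b ≤ L)
    (m n' : ℕ) (B : ℕ → Finset GaussianInt)
    (hprime : ∀ j < n' * m, ∀ p ∈ B j, Prime p)
    (hass : ∀ j < n' * m, ∀ p ∈ B j, ∀ q ∈ B j, Associated p q → p = q)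
    (hinj : ∀ j < n' * m, ∀ j' < n' * m, B j = B j' → j = j')
    (hLB : ∀ j < n' * m, L ≤ Real.log (∏ p ∈ B j, ((p.norm : ℤ) : ℝ)))
    (hmax : ∀ (T : Type) [Fintype T] (κ : Ω → T → ℝ), (∀ ω, IsProb (κ ω)) →
      ∀ (y : Ω → T → GaussianInt), (∀ ω t, 0 < P ω → 0 < κ ω t → z ω + y ω t ∈ E) →
      ent (ext P κ) (fun x => y x.1 x.2) ≤ 10 * b →
      ∑ j ∈ range (n' * m), ent (ext P κ) (fun x => rs (B j) (z x.1 + y x.1 x.2)) ≤
        ∑ j ∈ range (n' * m), ent P (fun ω => rs (B j) (z ω)) + (n' * m : ℕ) * (δ * b))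
    (hpair : ∀ ω, PairKernel δ b E (z ω) ((range (n' * m)).image B)) :
    (((n' * m : ℕ) : ℝ) - 1) * (L - δ * b) ≤
      2 * (∑ j ∈ range (n' * m), ent P (fun ω => rs (B j) (z ω)) + (n' * m : ℕ) * (δ * b))
        + n' * (20 * b)
        - ∑ j' ∈ range n', ent P (fun ω => rs ((range m).biUnion fun u => B (j' * m + u)) (z ω)) := by
  classical
  choose F y y' hFne hF bad hbad using hpair
  set κ : Ω → vals F → ℝ := uk F with hκdef
  have hκ : ∀ ω, IsProb (κ ω) := isProb_uk F hFne
  have hE := isProb_ext hP hκ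
  set Y : Ω × vals F → GaussianInt := fun x => y x.1 x.2 with hY
  set Y' : Ω × vals F → GaussianInt := fun x => y' x.1 x.2 with hY'
  have hposF : ∀ x : Ω × vals F, 0 < ext P κ x → (x.2 : GaussianInt) ∈ F x.1 := by
    intro x hx
    apply uk_pos
    have : 0 < P x.1 * κ x.1 x.2 := hx
    by_contra hn
    have h0 : κ x.1 x.2 = 0 := le_antisymm (not_lt.1 hn) ((hκ x.1).nonneg _)
    rw [h0] at this; simp at this
  have hentY : ent (ext P κ) Y ≤ 10 * b := by
    refine le_trans (ent_le_log_card_mem hE Y (ball (Real.exp (4 * b))) ?_) (log_ball hb)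
    intro x hx
    rw [mem_ball]
    exact (hF x.1 x.2 (hposF x hx)).2.2.2.1
  have hentY' : ent (ext P κ) Y' ≤ 10 * b := by
    refine le_trans (ent_le_log_card_mem hE Y' (ball (Real.exp (4 * b))) ?_) (log_ball hb)
    intro x hx
    rw [mem_ball]
    exact (hF x.1 x.2 (hposF x hx)).2.2.2.2
  have hYY : ent (ext P κ) (fun x => (Y x, Y' x)) ≤ 20 * b := by
    have := ent_subadd hE Y Y'
    linarith
  -- the two applications of the maximality
  have h1 := hmax (vals F) κ hκ (fun ω t => y ω t) (fun ω t _ hk => (hF ω t (uk_pos hk)).2.1) hentY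
  have h2 := hmax (vals F) κ hκ (fun ω t => y' ω t) (fun ω t _ hk => (hF ω t (uk_pos hk)).2.2.1)
    hentY'
  -- Ruzsa, summed
  have h3 : ∑ j ∈ range (n' * m), ent (ext P κ) (fun x => rs (B j) (Y x - Y' x)) ≤
      ∑ j ∈ range (n' * m), (ent (ext P κ) (fun x => rs (B j) (z x.1 + Y x))
        + ent (ext P κ) (fun x => rs (B j) (z x.1 + Y' x))
        + (ent (ext P κ) (fun x => (Y x, Y' x))
          - ent (ext P κ) (fun x => (rs (B j) (z x.1), (Y x, Y' x))))) := by
    apply Finset.sum_le_sum
    intro j _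
    exact ruzsa hE (B j) (fun x => z x.1) Y Y'
  rw [Finset.sum_add_distrib, Finset.sum_add_distrib] at h3
  -- children
  have h4 : ∑ j ∈ range (n' * m), (ent (ext P κ) (fun x => (Y x, Y' x))
          - ent (ext P κ) (fun x => (rs (B j) (z x.1), (Y x, Y' x))))
      ≤ ∑ j' ∈ range n', (ent (ext P κ) (fun x => (Y x, Y' x))
          - ent P (fun ω => rs ((range m).biUnion fun u => B (j' * m + u)) (z ω))) := by
    rw [sum_range_mul]
    apply Finset.sum_le_sum
    intro j' _
    have h5 := children_le hE (range m) (fun u => B (j' * m + u)) (fun x => z x.1)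
      (fun x => (Y x, Y' x))
    have h6 : ent (ext P κ) (fun x : Ω × vals F => rs ((range m).biUnion fun u => B (j' * m + u)) (z x.1))
        = ent P (fun ω => rs ((range m).biUnion fun u => B (j' * m + u)) (z ω)) :=
      (pushes_ext hκ).ent_eq (fun ω => rs ((range m).biUnion fun u => B (j' * m + u)) (z ω))
    rw [h6] at h5
    exact h5
  have h4' : ∑ j' ∈ range n', (ent (ext P κ) (fun x => (Y x, Y' x))
          - ent P (fun ω => rs ((range m).biUnion fun u => B (j' * m + u)) (z ω)))
      = n' * ent (ext P κ) (fun x => (Y x, Y' x))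
        - ∑ j' ∈ range n', ent P (fun ω => rs ((range m).biUnion fun u => B (j' * m + u)) (z ω)) := by
    rw [Finset.sum_sub_distrib, Finset.sum_const, card_range, nsmul_eq_mul]
  rw [h4'] at h4
  -- lower bound
  set h : Ω → ℕ → ℝ := fun ω j => if B j = bad ω then 0 else L - δ * b with hh
  have h7 : ∀ j ∈ range (n' * m), ∑ ω, P ω * h ω j ≤
      ent (ext P κ) (fun x => rs (B j) (Y x - Y' x)) := by
    intro j hj
    have hj' := Finset.mem_range.1 hj
    have e1 : ent (ext P κ) (fun x => rs (B j) (Y x - Y' x))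
        = ent (ext P κ) (fun x : Ω × vals F => rs (B j) (x.2 : GaussianInt)) := by
      apply ent_congr_pos hE.nonneg
      intro a c ha hc
      have ea := (hF a.1 a.2 (hposF a ha)).1
      have ec := (hF c.1 c.2 (hposF c hc)).1
      simp only [hY, hY', ea, ec]
    rw [e1]
    apply fibre hP hκ (fun _ (t : vals F) => rs (B j) (t : GaussianInt)) (fun ω => h ω j)
    intro ω t _ hk
    have hFω : (0 : ℝ) < ((F ω).card : ℝ) := by exact_mod_cast Finset.card_pos.2 (hFne ω)
    rw [hκdef, cls_uk F ω (rs (B j)) t]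
    by_cases hbj : B j = bad ω
    · have : h ω j = 0 := by simp [hh, hbj]
      rw [this, neg_zero, Real.exp_zero, div_le_one hFω]
      exact_mod_cast Finset.card_filter_le _ _
    · have hhj : h ω j = L - δ * b := by simp [hh, hbj]
      rw [hhj]
      have hb1 := hbad ω (B j) (Finset.mem_image_of_mem _ hj) hbj t
      have hprodpos : 0 < ∏ p ∈ B j, ((p.norm : ℤ) : ℝ) := by
        apply Finset.prod_pos
        intro p hp
        have : 0 < p.norm := GaussianInt.norm_pos.2 (hprime j hj' p hp).ne_zero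
        exact_mod_cast this
      have hcard : (((F ω).filter fun d => rs (B j) d = rs (B j) (t : GaussianInt)).card : ℝ) ≤
          (((F ω).filter fun d => (∏ p ∈ B j, p) ∣ d - (t : GaussianInt)).card : ℝ) := by
        have : ((F ω).filter fun d => rs (B j) d = rs (B j) (t : GaussianInt)) ⊆
            ((F ω).filter fun d => (∏ p ∈ B j, p) ∣ d - (t : GaussianInt)) := by
          intro d hd
          rw [Finset.mem_filter] at hd ⊢
          exact ⟨hd.1, prod_dvd_of_rs (hprime j hj') (hass j hj') hd.2⟩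
        exact_mod_cast Finset.card_le_card this
      rw [div_le_iff₀ hFω]
      have h8 : Real.exp (-(L - δ * b)) = Real.exp (δ * b) * Real.exp (-L) := by
        rw [← Real.exp_add]; congr 1; ring
      rw [h8]
      have h9 : Real.exp L ≤ ∏ p ∈ B j, ((p.norm : ℤ) : ℝ) := by
        calc Real.exp L ≤ Real.exp (Real.log (∏ p ∈ B j, ((p.norm : ℤ) : ℝ))) :=
              Real.exp_le_exp.2 (hLB j hj')
          _ = _ := Real.exp_log hprodpos
      have h10 : (((F ω).filter fun d => (∏ p ∈ B j, p) ∣ d - (t : GaussianInt)).card : ℝ)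
          * Real.exp L ≤ Real.exp (δ * b) * ((F ω).card : ℝ) := by
        refine le_trans (mul_le_mul_of_nonneg_left h9 (Nat.cast_nonneg _)) ?_
        convert hb1 using 4
      have h11 : Real.exp L * Real.exp (-L) = 1 := by
        rw [← Real.exp_add]; simp
      calc (((F ω).filter fun d => rs (B j) d = rs (B j) (t : GaussianInt)).card : ℝ)
          ≤ (((F ω).filter fun d => (∏ p ∈ B j, p) ∣ d - (t : GaussianInt)).card : ℝ) := hcard
        _ = (((F ω).filter fun d => (∏ p ∈ B j, p) ∣ d - (t : GaussianInt)).card : ℝ)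
            * Real.exp L * Real.exp (-L) := by rw [mul_assoc, h11, mul_one]
        _ ≤ (Real.exp (δ * b) * ((F ω).card : ℝ)) * Real.exp (-L) :=
            mul_le_mul_of_nonneg_right h10 (Real.exp_pos _).le
        _ = _ := by ring
  have h8 : (((n' * m : ℕ) : ℝ) - 1) * (L - δ * b) ≤
      ∑ j ∈ range (n' * m), ent (ext P κ) (fun x => rs (B j) (Y x - Y' x)) := by
    refine le_trans ?_ (Finset.sum_le_sum h7)
    rw [Finset.sum_comm]
    have h9 : ∀ ω, P ω * ((((n' * m : ℕ) : ℝ) - 1) * (L - δ * b)) ≤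
        ∑ j ∈ range (n' * m), P ω * h ω j := by
      intro ω
      rw [← Finset.mul_sum]
      apply mul_le_mul_of_nonneg_left _ (hP.nonneg ω)
      have h10 : ∑ j ∈ range (n' * m), h ω j
          = ∑ j ∈ range (n' * m), (L - δ * b) - ∑ j ∈ (range (n' * m)).filter (fun j => B j = bad ω),
            (L - δ * b) := by
        rw [Finset.sum_filter, ← Finset.sum_sub_distrib]
        apply Finset.sum_congr rfl
        intro j _
        by_cases hbj : B j = bad ω
        · simp [hh, hbj]
        · simp [hh, hbj]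
      rw [h10, Finset.sum_const, Finset.sum_const, card_range, nsmul_eq_mul, nsmul_eq_mul]
      have h11 : ((range (n' * m)).filter (fun j => B j = bad ω)).card ≤ 1 := by
        rw [Finset.card_le_one]
        intro i hi j hj
        rw [Finset.mem_filter, Finset.mem_range] at hi hj
        exact hinj i hi.1 j hj.1 (hi.2.trans hj.2.symm)
      have h12 : (((range (n' * m)).filter (fun j => B j = bad ω)).card : ℝ) ≤ 1 := by
        exact_mod_cast h11
      nlinarith
    calc (((n' * m : ℕ) : ℝ) - 1) * (L - δ * b)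
        = ∑ ω, P ω * ((((n' * m : ℕ) : ℝ) - 1) * (L - δ * b)) := by
          rw [← Finset.sum_mul, hP.sum_eq, one_mul]
      _ ≤ _ := Finset.sum_le_sum (fun ω _ => h9 ω)
  have h9 : (n' : ℝ) * ent (ext P κ) (fun x => (Y x, Y' x)) ≤ n' * (20 * b) :=
    mul_le_mul_of_nonneg_left hYY (Nat.cast_nonneg _)
  have e1 : ∑ j ∈ range (n' * m), ent (ext P κ) (fun x => rs (B j) (z x.1 + Y x)) ≤ _ := h1
  have e2 : ∑ j ∈ range (n' * m), ent (ext P κ) (fun x => rs (B j) (z x.1 + Y' x)) ≤ _ := h2
  linarith

end Crest.Agent.R2.K8
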