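import Mathlib
import Crest.Agent.R055.Ent
import Crest.Agent.R055.Law

/-! R2 (S0002): finite entropy kit (extends R055.Ent / R055.Law). `ent P X`: entropy of `X : Ω → S`
(any type `S`) under the weight `P` on the Fintype `Ω`; `IsProb P`; `Pushes φ P' P`. -/

set_option autoImplicit false
set_option linter.unusedSectionVars false
open Finset Real
open scoped Pointwise

namespace Crest.Agent.R2.Kit
open Crest.Agent.R055

open Classical in
/-- `φ` pushes the weight `P'` forward to `P`. -/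
def Pushes {Ω' Ω : Type*} [Fintype Ω'] (φ : Ω' → Ω) (P' : Ω' → ℝ) (P : Ω → ℝ) : Prop :=
  ∀ ω, (∑ ω', if φ ω' = ω then P' ω' else 0) = P ω


namespace Pushes

variable {Ω' Ω Ω₀ : Type*} [Fintype Ω'] [Fintype Ω] {φ : Ω' → Ω} {P' : Ω' → ℝ} {P : Ω → ℝ}

lemma sum_mul (h : Pushes φ P' P) (f : Ω → ℝ) :
    ∑ ω', P' ω' * f (φ ω') = ∑ ω, P ω * f ω := by
  classical
  have h1 : ∀ ω, P ω * f ω = ∑ ω', if φ ω' = ω then P' ω' * f (φ ω') else 0 := by
    intro ω
    rw [← h ω, Finset.sum_mul]
    apply Finset.sum_congr rfl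
    intro i _
    by_cases hi : φ i = ω
    · simp [hi]
    · simp [hi]
  simp_rw [h1]
  rw [Finset.sum_comm]
  apply Finset.sum_congr rfl
  intro i _
  simp

lemma sum_eq (h : Pushes φ P' P) : ∑ ω', P' ω' = ∑ ω, P ω := by
  have := h.sum_mul (fun _ => 1)
  simpa using this

lemma comp {ρ : Ω → Ω₀} {P₀ : Ω₀ → ℝ} (h : Pushes φ P' P) (h₀ : Pushes ρ P P₀) :
    Pushes (fun ω' => ρ (φ ω')) P' P₀ := by
  classical
  intro ω₀
  rw [← h₀ ω₀]
  have := h.sum_mul (fun ω => if ρ ω = ω₀ then (1 : ℝ) else 0)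
  simp only [mul_ite, mul_one, mul_zero] at this
  convert this using 1

lemma nonneg (h : Pushes φ P' P) (h' : ∀ ω', 0 ≤ P' ω') (ω : Ω) : 0 ≤ P ω := by
  classical
  rw [← h ω]
  apply Finset.sum_nonneg
  intro i _
  split_ifs
  · exact h' i
  · exact le_rfl


lemma cls_eq {S : Type*} (h : Pushes φ P' P) (X : Ω → S) (ω' : Ω') :
    cls P' (fun w => X (φ w)) ω' = cls P X (φ ω') := by
  classical
  have := h.sum_mul (fun ω => if X ω = X (φ ω') then (1 : ℝ) else 0)
  simp only [mul_ite, mul_one, mul_zero] at this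
  unfold cls
  convert this using 1

/-- entropy of a function of the push-forward. -/
lemma ent_eq {S : Type*} (h : Pushes φ P' P) (X : Ω → S) :
    ent P' (fun w => X (φ w)) = ent P X := by
  unfold ent
  rw [← h.sum_mul (fun ω => - Real.log (cls P X ω))]
  apply Finset.sum_congr rfl
  intro i _
  rw [h.cls_eq]



lemma id : Pushes (fun ω : Ω => ω) P P := by
  classical
  intro ω
  rw [Finset.sum_ite_eq' Finset.univ ω P]
  simp


end Pushes

/-! ### the entropy is `hl` of the law -/

section hl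

variable {Ω : Type*} [Fintype Ω] {S : Type*} [Fintype S] {P : Ω → ℝ}








end hl

/-! ### conditional Gibbs inequality, bounds by counting -/

section gibbs

variable {Ω : Type*} [Fintype Ω] {P : Ω → ℝ}

/-- Conditional Gibbs inequality: for any conditional sub-probability `q (· | z)`,
`H(X | Z) ≤ E[- log q(X | Z)]`. -/
lemma cond_gibbs {S R : Type*} [Fintype S] (hP : IsProb P) (X : Ω → S) (Z : Ω → R)
    (q : S → R → ℝ) (hq0 : ∀ ω s, 0 ≤ q s (Z ω)) (hq : ∀ ω, ∑ s, q s (Z ω) ≤ 1)
    (hpos : ∀ ω, 0 < P ω → 0 < q (X ω) (Z ω)) :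
    ent P (fun ω => (X ω, Z ω)) - ent P Z ≤ ∑ ω, P ω * (- Real.log (q (X ω) (Z ω))) := by
  classical
  have h0 := hP.nonneg
  set XZ : Ω → S × R := fun ω => (X ω, Z ω) with hXZ
  set r : Ω → ℝ := fun ω => q (X ω) (Z ω) * cls P Z ω / cls P XZ ω with hr
  have hrpos : ∀ ω, 0 < P ω → 0 < r ω := by
    intro ω hω
    have h1 := cls_pos h0 XZ hω
    have h2 := cls_pos h0 Z hω
    have h3 := hpos ω hω
    simp only [hr]
    positivity
  have key : ∑ ω, P ω * r ω ≤ 1 := by
    have e1 : ∀ ω, P ω * r ω = ∑ ω', P ω' *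
        ((∑ s, if (s, Z ω') = XZ ω then q s (Z ω') else 0) * (P ω / cls P XZ ω)) := by
      intro ω
      have hh : (∑ ω', if Z ω' = Z ω then P ω' else 0) = cls P Z ω := by
        unfold cls; apply Finset.sum_congr rfl; intro i _; congr
      have : P ω * r ω = (∑ ω', if Z ω' = Z ω then P ω' else 0) *
          (q (X ω) (Z ω) * (P ω / cls P XZ ω)) := by
        rw [hh]
        simp only [hr]
        ring
      rw [this, Finset.sum_mul]
      apply Finset.sum_congr rfl
      intro ω' _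
      by_cases hz : Z ω' = Z ω
      · simp only [hz, if_true, hXZ, Prod.mk.injEq, and_true]
        simp
      · simp only [hz, if_false, hXZ, Prod.mk.injEq, and_false]
        simp
    simp_rw [e1]
    rw [Finset.sum_comm]
    simp_rw [← Finset.mul_sum]
    have e2 : ∀ ω', ∑ ω, (∑ s, if (s, Z ω') = XZ ω then q s (Z ω') else 0) * (P ω / cls P XZ ω)
        ≤ 1 := by
      intro ω'
      simp_rw [Finset.sum_mul]
      rw [Finset.sum_comm]
      refine le_trans (Finset.sum_le_sum (fun s _ => ?_)) (hq ω')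
      have : ∑ ω, (if (s, Z ω') = XZ ω then q s (Z ω') else 0) * (P ω / cls P XZ ω)
          = q s (Z ω') * ∑ ω, (if XZ ω = (s, Z ω') then P ω / cls P XZ ω else 0) := by
        rw [Finset.mul_sum]
        apply Finset.sum_congr rfl
        intro ω _
        by_cases h : XZ ω = (s, Z ω')
        · rw [if_pos h, if_pos h.symm]
        · rw [if_neg h, if_neg (fun h' => h h'.symm)]
          simp
      rw [this]
      exact mul_le_of_le_one_right (hq0 ω' s) (sum_div_cls_le P XZ (s, Z ω'))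
    calc _ ≤ ∑ ω', P ω' * 1 :=
          Finset.sum_le_sum (fun ω' _ => mul_le_mul_of_nonneg_left (e2 ω') (h0 ω'))
      _ = 1 := by simp [hP.sum_eq]
  have h5 := sum_mul_log_le (w := P) (r := r) h0 hrpos
  rw [hP.sum_eq] at h5
  have h6 : ∑ ω, P ω * Real.log (r ω) =
      ent P XZ - ent P Z - ∑ ω, P ω * (- Real.log (q (X ω) (Z ω))) := by
    unfold ent
    rw [← Finset.sum_sub_distrib, ← Finset.sum_sub_distrib]
    apply Finset.sum_congr rfl
    intro ω _
    rcases (h0 ω).lt_or_eq with hi | hi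
    · have h1 := cls_pos h0 XZ hi
      have h2 := cls_pos h0 Z hi
      have h3 := hpos ω hi
      simp only [hr]
      rw [Real.log_div (by positivity) h1.ne', Real.log_mul h3.ne' h2.ne']
      ring
    · simp [← hi]
  linarith

lemma cls_const {R : Type*} (hP : IsProb P) (z : R) (ω : Ω) : cls P (fun _ => z) ω = 1 := by
  classical
  unfold cls
  simp [hP.sum_eq]

lemma ent_const {R : Type*} (hP : IsProb P) (z : R) : ent P (fun _ : Ω => z) = 0 := by
  unfold ent
  simp [cls_const hP z]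

/-- Gibbs' inequality. -/
lemma gibbs {S : Type*} [Fintype S] (hP : IsProb P) (X : Ω → S) (q : S → ℝ)
    (hq0 : ∀ s, 0 ≤ q s) (hq : ∑ s, q s ≤ 1) (hpos : ∀ ω, 0 < P ω → 0 < q (X ω)) :
    ent P X ≤ ∑ ω, P ω * (- Real.log (q (X ω))) := by
  have h := cond_gibbs hP X (fun _ => ()) (fun s _ => q s) (fun _ s => hq0 s) (fun _ => hq) hpos
  rw [ent_const hP] at h
  have h2 : ent P (fun ω => (X ω, ())) = ent P X := ent_congr (by intro a b; simp)
  rw [h2] at h
  linarith

/-- `H(X | Z) ≤ E log N(Z)` if `X` takes values in a finite set `A (Z)` of size `≤ N(Z)`. -/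
lemma cond_ent_le_card {S R : Type*} [Fintype S] (hP : IsProb P) (X : Ω → S) (Z : Ω → R)
    (A : R → Finset S) (hA : ∀ ω, 0 < P ω → X ω ∈ A (Z ω)) :
    ent P (fun ω => (X ω, Z ω)) - ent P Z ≤ ∑ ω, P ω * Real.log ((A (Z ω)).card : ℝ) := by
  classical
  refine le_trans (cond_gibbs hP X Z (fun s z => if s ∈ A z then 1 / ((A z).card : ℝ) else 0)
    ?_ ?_ ?_) (le_of_eq ?_)
  · intro ω s
    split_ifs
    · positivity
    · exact le_rfl
  · intro ω
    rw [← Finset.sum_filter]
    rw [Finset.filter_mem_eq_inter, Finset.univ_inter, Finset.sum_const, nsmul_eq_mul]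
    rw [mul_one_div]
    exact div_self_le_one _
  · intro ω hω
    have h := hA ω hω
    simp only [h, if_true]
    have : 0 < (A (Z ω)).card := Finset.card_pos.mpr ⟨_, h⟩
    positivity
  · apply Finset.sum_congr rfl
    intro ω _
    rcases (hP.nonneg ω).lt_or_eq with hi | hi
    · have h := hA ω hi
      simp only [h, if_true]
      rw [Real.log_div one_ne_zero, Real.log_one]
      · ring
      · have : 0 < (A (Z ω)).card := Finset.card_pos.mpr ⟨_, h⟩
        positivity
    · simp [← hi]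

lemma ent_le_log_card' {S : Type*} [Fintype S] (hP : IsProb P) (X : Ω → S) (A : Finset S)
    (hA : ∀ ω, 0 < P ω → X ω ∈ A) : ent P X ≤ Real.log (A.card : ℝ) := by
  have h := cond_ent_le_card hP X (fun _ => ()) (fun _ => A) hA
  rw [ent_const hP] at h
  have h2 : ent P (fun ω => (X ω, ())) = ent P X := ent_congr (by intro a b; simp)
  rw [h2, ← Finset.sum_mul, hP.sum_eq] at h
  linarith

lemma ent_le_log_card {S : Type*} [Fintype S] (hP : IsProb P) (X : Ω → S) :
    ent P X ≤ Real.log (Fintype.card S : ℝ) :=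
  ent_le_log_card' hP X Finset.univ (fun _ _ => Finset.mem_univ _)



end gibbs

/-! ### Shannon inequalities in conditional form -/

section shannon

variable {Ω : Type*} [Fintype Ω] {P : Ω → ℝ} {S₁ S₂ S₃ S₄ : Type*}


lemma ent_le_ent_pair_left (hP : IsProb P) (X : Ω → S₁) (Z : Ω → S₂) :
    ent P X ≤ ent P (fun ω => (X ω, Z ω)) :=
  ent_mono hP.nonneg (by intro a b h; exact (Prod.mk.inj h).1)

/-- subadditivity -/
lemma ent_subadd (hP : IsProb P) (X : Ω → S₁) (Y : Ω → S₂) :
    ent P (fun ω => (X ω, Y ω)) ≤ ent P X + ent P Y := by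
  have h := ent_submod hP X Y (fun _ => ())
  rw [ent_const hP] at h
  have h1 : ent P (fun ω => (X ω, Y ω, ())) = ent P (fun ω => (X ω, Y ω)) :=
    ent_congr (by intro a b; simp)
  have h2 : ent P (fun ω => (X ω, ())) = ent P X := ent_congr (by intro a b; simp)
  have h3 : ent P (fun ω => (Y ω, ())) = ent P Y := ent_congr (by intro a b; simp)
  rw [h1, h2, h3] at h
  linarith

/-- conditional subadditivity: `H(X,Y|Z) ≤ H(X|Z) + H(Y|Z)` -/
lemma cond_subadd (hP : IsProb P) (X : Ω → S₁) (Y : Ω → S₂) (Z : Ω → S₃) :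
    ent P (fun ω => ((X ω, Y ω), Z ω)) - ent P Z ≤
      (ent P (fun ω => (X ω, Z ω)) - ent P Z) + (ent P (fun ω => (Y ω, Z ω)) - ent P Z) := by
  have h := ent_submod hP X Y Z
  have h1 : ent P (fun ω => ((X ω, Y ω), Z ω)) = ent P (fun ω => (X ω, Y ω, Z ω)) :=
    ent_congr (by intro a b; simp [and_assoc])
  rw [h1]
  linarith





end shannon

/-! ### extra lemmas: arbitrary target types, kernels -/

section extra

variable {Ω : Type*} [Fintype Ω] {P : Ω → ℝ} {S S' R : Type*}

lemma cls_congr_pos (hP : ∀ ω, 0 ≤ P ω) {X : Ω → S} {Y : Ω → S'} {ω : Ω}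
    (h : ∀ ω', 0 < P ω' → (X ω' = X ω ↔ Y ω' = Y ω)) : cls P X ω = cls P Y ω := by
  classical
  unfold cls
  apply Finset.sum_congr rfl
  intro i _
  rcases (hP i).lt_or_eq with hi | hi
  · simp [h i hi]
  · simp [← hi]

/-- `ent` only sees the points of positive weight. -/
lemma ent_congr_pos (hP : ∀ ω, 0 ≤ P ω) {X : Ω → S} {Y : Ω → S'}
    (h : ∀ ω ω', 0 < P ω → 0 < P ω' → (X ω' = X ω ↔ Y ω' = Y ω)) : ent P X = ent P Y := by
  unfold ent
  apply Finset.sum_congr rfl
  intro i _
  rcases (hP i).lt_or_eq with hi | hi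
  · rw [cls_congr_pos hP (fun ω' h' => h i ω' hi h')]
  · simp [← hi]


/-- `H(X | Z) ≤ E log #A(Z)` for arbitrary target types. -/
lemma cond_ent_le_card_mem (hP : IsProb P) (X : Ω → S) (Z : Ω → R)
    (A : R → Finset S) (hA : ∀ ω, 0 < P ω → X ω ∈ A (Z ω)) :
    ent P (fun ω => (X ω, Z ω)) - ent P Z ≤ ∑ ω, P ω * Real.log ((A (Z ω)).card : ℝ) := by
  classical
  -- restrict to the finite set of values
  set V : Finset S := Finset.univ.image X with hV
  have hX : ∀ ω, X ω ∈ V := fun ω => Finset.mem_image_of_mem _ (Finset.mem_univ ω)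
  set X' : Ω → V := fun ω => ⟨X ω, hX ω⟩ with hX'
  have h1 : ent P (fun ω => (X' ω, Z ω)) = ent P (fun ω => (X ω, Z ω)) := by
    apply ent_congr
    intro a b
    simp [hX', Subtype.ext_iff]
  rw [← h1]
  refine le_trans (cond_ent_le_card hP X' Z (fun z => (A z).subtype (· ∈ V)) ?_) ?_
  · intro ω hω
    rw [Finset.mem_subtype]
    exact hA ω hω
  · apply Finset.sum_le_sum
    intro ω _
    rcases (hP.nonneg ω).lt_or_eq with hi | hi
    · apply mul_le_mul_of_nonneg_left _ hi.le
      apply Real.log_le_log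
      · have : 0 < ((A (Z ω)).subtype (· ∈ V)).card :=
          Finset.card_pos.mpr ⟨X' ω, by rw [Finset.mem_subtype]; exact hA ω hi⟩
        exact_mod_cast this
      · have : ((A (Z ω)).subtype (· ∈ V)).card ≤ (A (Z ω)).card := by
          rw [Finset.card_subtype]
          exact Finset.card_filter_le _ _
        exact_mod_cast this
    · simp [← hi]

lemma ent_le_log_card_mem (hP : IsProb P) (X : Ω → S) (A : Finset S)
    (hA : ∀ ω, 0 < P ω → X ω ∈ A) : ent P X ≤ Real.log (A.card : ℝ) := by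
  have h := cond_ent_le_card_mem hP X (fun _ => ()) (fun _ => A) hA
  rw [ent_const hP] at h
  have h2 : ent P (fun ω => (X ω, ())) = ent P X := ent_congr (by intro a b; simp)
  rw [h2, ← Finset.sum_mul, hP.sum_eq] at h
  linarith

/-- extension of a finite probability space by a kernel `κ : Ω → T → ℝ`. -/
noncomputable def ext {T : Type*} (P : Ω → ℝ) (κ : Ω → T → ℝ) : Ω × T → ℝ :=
  fun x => P x.1 * κ x.1 x.2

lemma isProb_ext {T : Type*} [Fintype T] (hP : IsProb P) {κ : Ω → T → ℝ}
    (hκ : ∀ ω, IsProb (κ ω)) : IsProb (ext P κ) := by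
  constructor
  · intro x; exact mul_nonneg (hP.nonneg _) ((hκ _).nonneg _)
  · rw [Fintype.sum_prod_type]
    simp only [ext]
    simp_rw [← Finset.mul_sum, (hκ _).sum_eq, mul_one]
    exact hP.sum_eq

lemma pushes_ext {T : Type*} [Fintype T] {κ : Ω → T → ℝ}
    (hκ : ∀ ω, IsProb (κ ω)) : Pushes (fun x : Ω × T => x.1) (ext P κ) P := by
  classical
  intro ω
  rw [Fintype.sum_prod_type]
  rw [Finset.sum_eq_single ω]
  · simp only [ext, if_true]
    rw [← Finset.mul_sum, (hκ _).sum_eq, mul_one]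
  · intro b _ hb
    simp [hb]
  · intro h; exact absurd (Finset.mem_univ _) h


end extra

end Crest.Agent.R2.Kit
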