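import Crest.Agent.R2.Kac587c
import Mathlib
import Crest.Agent.R2.Kit123
import Crest.Agent.R2.Defs149

-- ▼ part R2/Kac587d
section

/-!
# R2 (Gaussian moat), block K8, part d: hierarchical blocks of a finset
-/

set_option autoImplicit false
set_option linter.unusedSectionVars false

namespace Crest.Agent.R2.K8

open Finset hiding ext

/-- index of `x` in `G` -/
noncomputable def idx (G : Finset GaussianInt) (x : GaussianInt) : ℕ :=
  if h : x ∈ G then (G.equivFin ⟨x, h⟩ : ℕ) else 0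


theorem idx_inj {G : Finset GaussianInt} {x y : GaussianInt} (hx : x ∈ G) (hy : y ∈ G)
    (h : idx G x = idx G y) : x = y := by
  unfold idx at h
  rw [dif_pos hx, dif_pos hy] at h
  have := G.equivFin.injective (Fin.ext h)
  simpa using this

theorem idx_surj {G : Finset GaussianInt} {i : ℕ} (hi : i < G.card) : ∃ x ∈ G, idx G x = i := by
  refine ⟨(G.equivFin.symm ⟨i, hi⟩ : G), (G.equivFin.symm ⟨i, hi⟩).2, ?_⟩
  unfold idx
  rw [dif_pos (G.equivFin.symm ⟨i, hi⟩).2]
  simp

/-- the `j`-th block of size `q` of `G`. -/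
noncomputable def blk (G : Finset GaussianInt) (q j : ℕ) : Finset GaussianInt :=
  G.filter fun x => idx G x / q = j

theorem blk_subset (G : Finset GaussianInt) (q j : ℕ) : blk G q j ⊆ G := Finset.filter_subset _ _

theorem card_blk {G : Finset GaussianInt} {q j : ℕ} (hq : 0 < q) (h : (j + 1) * q ≤ G.card) :
    (blk G q j).card = q := by
  classical
  have h1 : (blk G q j).image (idx G) = Finset.Ico (j * q) ((j + 1) * q) := by
    ext i
    simp only [blk, Finset.mem_image, Finset.mem_filter, Finset.mem_Ico]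
    constructor
    · rintro ⟨x, ⟨_, hx2⟩, rfl⟩
      rw [Nat.div_eq_iff hq] at hx2
      constructor
      · exact hx2.1
      · have := hx2.2
        rw [Nat.succ_mul]
        omega
    · rintro ⟨hi1, hi2⟩
      obtain ⟨x, hx, rfl⟩ := idx_surj (G := G) (i := i) (by omega)
      refine ⟨x, ⟨hx, ?_⟩, rfl⟩
      rw [Nat.div_eq_iff hq]
      constructor
      · exact hi1
      · rw [Nat.succ_mul] at hi2; omega
  have h2 : ((blk G q j).image (idx G)).card = (blk G q j).card := by
    apply Finset.card_image_of_injOn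
    intro x hx y hy hxy
    exact idx_inj (blk_subset _ _ _ hx) (blk_subset _ _ _ hy) hxy
  rw [← h2, h1, Nat.card_Ico, Nat.succ_mul]
  omega

theorem blk_disjoint {G : Finset GaussianInt} {q j j' : ℕ} (h : j ≠ j') :
    Disjoint (blk G q j) (blk G q j') := by
  rw [Finset.disjoint_left]
  intro x hx hx'
  simp only [blk, Finset.mem_filter] at hx hx'
  exact h (hx.2.symm.trans hx'.2)

theorem blk_inj {G : Finset GaussianInt} {q j j' : ℕ} (hq : 0 < q) (h : (j + 1) * q ≤ G.card)
    (he : blk G q j = blk G q j') : j = j' := by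
  by_contra hne
  have h1 := blk_disjoint (G := G) (q := q) hne
  rw [← he, Finset.disjoint_self_iff_empty] at h1
  have h2 := card_blk hq h
  rw [h1] at h2
  simp at h2
  omega

theorem blk_parent {G : Finset GaussianInt} {q m j : ℕ} (hm : 0 < m) :
    (range m).biUnion (fun u => blk G q (j * m + u)) = blk G (m * q) j := by
  classical
  ext x
  simp only [blk, Finset.mem_biUnion, Finset.mem_range, Finset.mem_filter]
  have h1 : idx G x / (m * q) = (idx G x / q) / m := by
    rw [Nat.mul_comm m q, Nat.div_div_eq_div_mul]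
  constructor
  · rintro ⟨u, hu, hx, hx2⟩
    refine ⟨hx, ?_⟩
    rw [h1, hx2, Nat.mul_comm j m, Nat.mul_add_div hm, Nat.div_eq_of_lt hu, Nat.add_zero]
  · rintro ⟨hx, hx2⟩
    rw [h1] at hx2
    refine ⟨(idx G x / q) % m, Nat.mod_lt _ hm, hx, ?_⟩
    rw [← hx2]
    exact (Nat.div_add_mod' _ _).symm

end Crest.Agent.R2.K8
end

-- ▼ part R2/Max123
section

/-! R2 (S0002), block K2 = STEP 1 of #11294: the (near-)maximal law. -/

set_option autoImplicit false
open Finset Real

namespace Crest.Agent.R2.E123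
open Crest.Agent.R055 Crest.Agent.R2.Kit

open Classical in
/-- two finite probability spaces with the same law of a variable -/
def SameLaw {Ω Ω' G : Type*} [Fintype Ω] [Fintype Ω'] (P : Ω → ℝ) (z : Ω → G)
    (P' : Ω' → ℝ) (z' : Ω' → G) : Prop :=
  ∀ x, (∑ ω, if z ω = x then P ω else 0) = ∑ ω, if z' ω = x then P' ω else 0

section law
variable {Ω Ω' Ω'' G : Type*} [Fintype Ω] [Fintype Ω'] [Fintype Ω'']
  {P : Ω → ℝ} {z : Ω → G} {P' : Ω' → ℝ} {z' : Ω' → G} {P'' : Ω'' → ℝ} {z'' : Ω'' → G}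

open Classical in
lemma sum_fiber (P : Ω → ℝ) (z : Ω → G) (φ : G → ℝ) (V : Finset G) (hV : ∀ ω, z ω ∈ V) :
    ∑ ω, P ω * φ (z ω) = ∑ x ∈ V, (∑ ω, if z ω = x then P ω else 0) * φ x := by
  simp_rw [Finset.sum_mul]
  rw [Finset.sum_comm]
  apply Finset.sum_congr rfl
  intro ω _
  rw [Finset.sum_eq_single (z ω)]
  · simp
  · intro b _ hb
    rw [if_neg (fun h => hb h.symm), zero_mul]
  · intro h; exact absurd (hV ω) h

lemma SameLaw.refl (P : Ω → ℝ) (z : Ω → G) : SameLaw P z P z := fun _ => rfl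

lemma SameLaw.symm (h : SameLaw P z P' z') : SameLaw P' z' P z := fun x => (h x).symm

lemma SameLaw.trans (h : SameLaw P z P' z') (h' : SameLaw P' z' P'' z'') :
    SameLaw P z P'' z'' := fun x => (h x).trans (h' x)

lemma SameLaw.sum_mul (h : SameLaw P z P' z') (φ : G → ℝ) :
    ∑ ω, P ω * φ (z ω) = ∑ ω, P' ω * φ (z' ω) := by
  classical
  set V : Finset G := Finset.univ.image z ∪ Finset.univ.image z' with hVdef
  have h1 : ∀ ω, z ω ∈ V := fun ω =>
    Finset.mem_union_left _ (Finset.mem_image_of_mem _ (Finset.mem_univ ω))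
  have h2 : ∀ ω, z' ω ∈ V := fun ω =>
    Finset.mem_union_right _ (Finset.mem_image_of_mem _ (Finset.mem_univ ω))
  rw [sum_fiber P z φ V h1, sum_fiber P' z' φ V h2]
  apply Finset.sum_congr rfl
  intro x _
  rw [h x]

/-- entropies of functions of the variable only depend on its law -/
lemma SameLaw.ent_eq (h : SameLaw P z P' z') {S : Type*} (f : G → S) :
    ent P (fun ω => f (z ω)) = ent P' (fun ω => f (z' ω)) := by
  classical
  set Ψ : G → ℝ := fun x => ∑ ω', P ω' * (if f (z ω') = f x then 1 else 0) with hΨ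
  have e1 : ∀ ω, cls P (fun ω => f (z ω)) ω = Ψ (z ω) := by
    intro ω
    unfold cls
    rw [hΨ]
    apply Finset.sum_congr rfl
    intro i _
    by_cases hi : f (z i) = f (z ω) <;> simp [hi]
  have e2 : ∀ ω, cls P' (fun ω => f (z' ω)) ω = Ψ (z' ω) := by
    intro ω
    have : Ψ (z' ω) = ∑ ω', P' ω' * (if f (z' ω') = f (z' ω) then 1 else 0) :=
      h.sum_mul (fun y => if f y = f (z' ω) then 1 else 0)
    rw [this]
    unfold cls
    apply Finset.sum_congr rfl
    intro i _
    by_cases hi : f (z' i) = f (z' ω) <;> simp [hi]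
  unfold ent
  simp_rw [e1, e2]
  exact h.sum_mul (fun x => - Real.log (Ψ x))

/-- a kernel extension has the same law of the old variable -/
lemma sameLaw_of_pushes {φ : Ω' → Ω} (h : Pushes φ P' P) : SameLaw P z P' (fun ω => z (φ ω)) := by
  classical
  intro x
  have := h.sum_mul (fun ω => if z ω = x then (1 : ℝ) else 0)
  simp only [mul_ite, mul_one, mul_zero] at this
  convert this.symm using 1

end law

lemma geo_le {q : ℝ} (h0 : 0 ≤ q) (h1 : q ≤ 1 / 2) (N : ℕ) :
    ∑ j ∈ range N, q ^ (j + 1) ≤ 2 * q := by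
  have h : ∀ N : ℕ, ∑ j ∈ range N, q ^ (j + 1) ≤ 2 * q - 2 * q ^ (N + 1) + (2 * q) * 0 := by
    intro N
    induction N with
    | zero => simp
    | succ N ih =>
      rw [Finset.sum_range_succ]
      have : q ^ (N + 1 + 1) = q * q ^ (N + 1) := by ring
      have h2 : 0 ≤ q ^ (N + 1) := by positivity
      nlinarith
  have := h N
  have h2 : 0 ≤ q ^ (N + 1) := by positivity
  linarith

section main

variable {G β : Type} [AddCommGroup G] {Q : β → Type}

/-- average over the blocks of level `t` of the entropy of the residue of `z` -/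
noncomputable def avgH (blk : ℕ → Finset β) (res : (s : β) → G → Q s)
    {Ω : Type} [Fintype Ω] (P : Ω → ℝ) (z : Ω → G) (t : ℕ) : ℝ :=
  (∑ s ∈ blk t, ent P (fun ω => res s (z ω))) / ((blk t).card : ℝ)

/-- the potential -/
noncomputable def Phi (blk : ℕ → Finset β) (res : (s : β) → G → Q s) (b : ℕ → ℝ) (n : ℕ) (θ : ℝ)
    {Ω : Type} [Fintype Ω] (P : Ω → ℝ) (z : Ω → G) : ℝ :=
  ∑ t ∈ range n, (θ⁻¹) ^ t * (avgH blk res P z t / b t)

variable {blk : ℕ → Finset β} {res : (s : β) → G → Q s} {b : ℕ → ℝ} {n : ℕ}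

lemma avgH_nonneg {Ω : Type} [Fintype Ω] {P : Ω → ℝ} (hP : IsProb P) (z : Ω → G) (t : ℕ) :
    0 ≤ avgH blk res P z t := by
  unfold avgH
  apply div_nonneg _ (Nat.cast_nonneg _)
  exact Finset.sum_nonneg (fun s _ => ent_nonneg hP _)

lemma avgH_le {Ω : Type} [Fintype Ω] {P : Ω → ℝ} {z : Ω → G} {t : ℕ}
    (hne : (blk t).Nonempty) {B : ℝ}
    (h : ∀ s ∈ blk t, ent P (fun ω => res s (z ω)) ≤ B) :
    avgH blk res P z t ≤ B := by
  unfold avgH
  have hc : (0 : ℝ) < (blk t).card := by exact_mod_cast hne.card_pos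
  rw [div_le_iff₀ hc]
  calc _ ≤ ∑ _s ∈ blk t, B := Finset.sum_le_sum h
    _ = B * (blk t).card := by rw [Finset.sum_const, nsmul_eq_mul]; ring

lemma avgH_mono_add {Ω Ω' : Type} [Fintype Ω] [Fintype Ω'] {P : Ω → ℝ} {P' : Ω' → ℝ}
    {z : Ω → G} {z' : Ω' → G} {t : ℕ}
    (hne : (blk t).Nonempty) {c : ℝ}
    (h : ∀ s ∈ blk t, ent P (fun ω => res s (z ω)) ≤ ent P' (fun ω => res s (z' ω)) + c) :
    avgH blk res P z t ≤ avgH blk res P' z' t + c := by
  unfold avgH
  have hc : (0 : ℝ) < (blk t).card := by exact_mod_cast hne.card_pos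
  rw [div_add' _ _ _ hc.ne', div_le_div_iff_of_pos_right hc]
  calc _ ≤ ∑ s ∈ blk t, (ent P' (fun ω => res s (z' ω)) + c) := Finset.sum_le_sum h
    _ = _ := by rw [Finset.sum_add_distrib, Finset.sum_const, nsmul_eq_mul]; ring

lemma avgH_congr {Ω Ω' : Type} [Fintype Ω] [Fintype Ω'] {P : Ω → ℝ} {P' : Ω' → ℝ}
    {z : Ω → G} {z' : Ω' → G} {t : ℕ}
    (h : ∀ s ∈ blk t, ent P (fun ω => res s (z ω)) = ent P' (fun ω => res s (z' ω))) :
    avgH blk res P z t = avgH blk res P' z' t := by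
  unfold avgH
  rw [Finset.sum_congr rfl h]

/-- **K2 (STEP 1): the near-maximal law.**  There is one finite probability space `(Ω, P, z)` with
values in `E` such that for every level `t < n` and every displacement `y` (on any space carrying a
copy of `z`, with `z + y ∈ E` a.s.) of entropy `≤ C0 * b t`, the average entropy of the residues of
`z + y` at level `t` exceeds that of `z` by at most `δ * b t`. -/
theorem near_max (E : Set G) (hE : E.Nonempty) (n : ℕ) (b : ℕ → ℝ) (blk : ℕ → Finset β)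
    (res : (s : β) → G → Q s) (m δ C0 : ℝ)
    (hδ : 0 < δ) (hδ1 : δ ≤ 1) (hC0 : 1 ≤ C0) (hm : 36 * C0 / δ ^ 2 ≤ m)
    (hb : ∀ t < n, 0 < b t)
    (hratio : ∀ t t', t < t' → t' < n → m ^ (t' - t) * b t ≤ b t')
    (hne : ∀ t < n, (blk t).Nonempty)
    (hres : ∀ t < n, ∀ s ∈ blk t, ∀ z z' y : G, res s (z + y) = res s (z' + y) → res s z = res s z')
    (hle : ∀ t < n, ∀ s ∈ blk t, ∀ (Ω : Type) [Fintype Ω] (P : Ω → ℝ) (z : Ω → G), IsProb P →
      ent P (fun ω => res s (z ω)) ≤ b t) :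
    ∃ (Ω : Type) (_ : Fintype Ω) (P : Ω → ℝ) (z : Ω → G), IsProb P ∧ (∀ ω, z ω ∈ E) ∧
      ∀ t < n, ∀ (Ω' : Type) [Fintype Ω'] (P' : Ω' → ℝ) (z' y' : Ω' → G), IsProb P' →
        SameLaw P z P' z' → (∀ ω, 0 < P' ω → z' ω + y' ω ∈ E) → ent P' y' ≤ C0 * b t →
        avgH blk res P' (fun ω => z' ω + y' ω) t ≤ avgH blk res P z t + δ * b t := by
  classical
  set θ : ℝ := δ / 6 with hθ
  have hθ0 : 0 < θ := by positivity
  have hθ1 : θ ≤ 1 / 2 := by rw [hθ]; linarith
  have hmpos : 0 < m := lt_of_lt_of_le (by positivity) hm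
  have hθm : 6 * C0 / δ ≤ θ * m := by
    calc 6 * C0 / δ = θ * (36 * C0 / δ ^ 2) := by rw [hθ]; field_simp; ring
      _ ≤ θ * m := mul_le_mul_of_nonneg_left hm hθ0.le
  have hθm6 : 6 ≤ θ * m := by
    refine le_trans ?_ hθm
    rw [le_div_iff₀ hδ]
    nlinarith
  set q : ℝ := (θ * m)⁻¹ with hq
  have hq0 : 0 ≤ q := by positivity
  have hq1 : q ≤ 1 / 2 := by
    rw [hq]
    calc (θ * m)⁻¹ ≤ (6 : ℝ)⁻¹ := inv_anti₀ (by norm_num) hθm6
      _ ≤ 1 / 2 := by norm_num
  have hqC : C0 * (2 * q) ≤ δ / 3 := by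
    have h1 : q ≤ (6 * C0 / δ)⁻¹ := inv_anti₀ (by positivity) hθm
    have h2 : (6 * C0 / δ)⁻¹ = δ / (6 * C0) := by rw [inv_div]
    rw [h2] at h1
    calc C0 * (2 * q) ≤ C0 * (2 * (δ / (6 * C0))) := by
          apply mul_le_mul_of_nonneg_left _ (by linarith)
          linarith
      _ = δ / 3 := by field_simp; ring
  -- the set of values
  set V : Set ℝ := {v | ∃ (Ω : Type) (_ : Fintype Ω) (P : Ω → ℝ) (z : Ω → G), IsProb P ∧
    (∀ ω, z ω ∈ E) ∧ v = Phi blk res b n θ P z} with hV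
  obtain ⟨e0, he0⟩ := hE
  have hVne : V.Nonempty := by
    refine ⟨_, Unit, inferInstance, fun _ => 1, fun _ => e0, ?_, fun _ => he0, rfl⟩
    exact ⟨fun _ => zero_le_one, by simp⟩
  have hh1 : ∀ t < n, ∀ (Ω : Type) [Fintype Ω] (P : Ω → ℝ) (z : Ω → G), IsProb P →
      avgH blk res P z t / b t ≤ 1 := by
    intro t ht Ω _ P z hP
    rw [div_le_one (hb t ht)]
    exact avgH_le (hne t ht) (fun s hs => hle t ht s hs Ω P z hP)
  have hh0 : ∀ t < n, ∀ (Ω : Type) [Fintype Ω] (P : Ω → ℝ) (z : Ω → G), IsProb P →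
      0 ≤ avgH blk res P z t / b t := by
    intro t ht Ω _ P z hP
    exact div_nonneg (avgH_nonneg hP z t) (hb t ht).le
  have hVbdd : BddAbove V := by
    refine ⟨∑ t ∈ range n, (θ⁻¹) ^ t, ?_⟩
    rintro v ⟨Ω, _, P, z, hP, _, rfl⟩
    unfold Phi
    apply Finset.sum_le_sum
    intro t ht
    rw [Finset.mem_range] at ht
    have h0 : 0 ≤ (θ⁻¹) ^ t := by positivity
    calc _ ≤ (θ⁻¹) ^ t * 1 := mul_le_mul_of_nonneg_left (hh1 t ht Ω P z hP) h0
      _ = _ := mul_one _
  obtain ⟨v, hvV, hv⟩ := exists_lt_of_lt_csSup hVne (show sSup V - δ / 3 < sSup V by linarith)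
  obtain ⟨Ω, _, P, z, hP, hzE, rfl⟩ := hvV
  refine ⟨Ω, inferInstance, P, z, hP, hzE, ?_⟩
  intro t ht Ω' _ P' z' y' hP' hlaw hE' hy'
  -- the new law
  set x' : Ω' → G := fun ω => if 0 < P' ω then z' ω + y' ω else e0 with hx'
  have hx'E : ∀ ω, x' ω ∈ E := by
    intro ω
    simp only [hx']
    split_ifs with h
    · exact hE' ω h
    · exact he0
  have hent : ∀ s, ent P' (fun ω => res s (x' ω)) = ent P' (fun ω => res s (z' ω + y' ω)) := by
    intro s
    apply ent_congr_pos hP'.nonneg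
    intro a c ha hc
    simp only [hx', if_pos ha, if_pos hc]
  have hnew : Phi blk res b n θ P' x' ≤ sSup V :=
    le_csSup hVbdd ⟨Ω', inferInstance, P', x', hP', hx'E, rfl⟩
  have htot : Phi blk res b n θ P' x' - Phi blk res b n θ P z ≤ δ / 3 := by linarith
  set h : ℕ → ℝ := fun t => avgH blk res P z t / b t with hhdef
  set h' : ℕ → ℝ := fun t => avgH blk res P' x' t / b t with hh'def
  have htot' : ∑ t' ∈ range n, (θ⁻¹) ^ t' * (h' t' - h t') ≤ δ / 3 := by
    have : ∑ t' ∈ range n, (θ⁻¹) ^ t' * (h' t' - h t')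
        = Phi blk res b n θ P' x' - Phi blk res b n θ P z := by
      unfold Phi
      rw [← Finset.sum_sub_distrib]
      apply Finset.sum_congr rfl
      intro i _
      simp only [hhdef, hh'def]
      ring
    rw [this]; exact htot
  -- lower bounds for the other levels
  have hlow : ∀ t' < t, -(1 : ℝ) ≤ h' t' - h t' := by
    intro t' ht'
    have h1 := hh1 t' (lt_trans ht' ht) Ω P z hP
    have h2 := hh0 t' (lt_trans ht' ht) Ω' P' x' hP'
    simp only [hhdef, hh'def]
    linarith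
  have hhigh : ∀ t', t < t' → t' < n → -(C0 * (m⁻¹) ^ (t' - t)) ≤ h' t' - h t' := by
    intro t' htt' ht'
    have hbt' := hb t' ht'
    have h1 : avgH blk res P z t' ≤ avgH blk res P' x' t' + C0 * b t := by
      apply avgH_mono_add (hne t' ht')
      intro s hs
      rw [hent s, hlaw.ent_eq (fun x => res s x)]
      have h3 : ent P' (fun ω => res s (z' ω)) ≤
          ent P' (fun ω => (res s (z' ω + y' ω), y' ω)) := by
        apply ent_mono hP'.nonneg
        intro a c hac
        simp only [Prod.mk.injEq] at hac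
        have h4 := hac.1
        rw [hac.2] at h4
        exact hres t' ht' s hs _ _ _ h4
      have h5 := ent_subadd hP' (fun ω => res s (z' ω + y' ω)) y'
      linarith
    have h2 : C0 * b t / b t' ≤ C0 * (m⁻¹) ^ (t' - t) := by
      rw [div_le_iff₀ hbt']
      have h3 := hratio t t' htt' ht'
      have h4 : (m⁻¹) ^ (t' - t) * (m ^ (t' - t) * b t) ≤ (m⁻¹) ^ (t' - t) * b t' :=
        mul_le_mul_of_nonneg_left h3 (by positivity)
      have h5 : (m⁻¹) ^ (t' - t) * (m ^ (t' - t) * b t) = b t := by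
        rw [← mul_assoc, ← mul_pow, inv_mul_cancel₀ hmpos.ne', one_pow, one_mul]
      rw [h5] at h4
      nlinarith
    have h6 : h t' ≤ h' t' + C0 * b t / b t' := by
      simp only [hhdef, hh'def]
      rw [← add_div]
      exact div_le_div_of_nonneg_right h1 hbt'.le
    linarith
  -- split the sum
  have hsplit : ∑ t' ∈ range n, (θ⁻¹) ^ t' * (h' t' - h t')
      = ∑ t' ∈ range t, (θ⁻¹) ^ t' * (h' t' - h t') + (θ⁻¹) ^ t * (h' t - h t)
        + ∑ j ∈ range (n - (t + 1)), (θ⁻¹) ^ (t + 1 + j) * (h' (t + 1 + j) - h (t + 1 + j)) := by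
    have hn : n = (t + 1) + (n - (t + 1)) := by omega
    conv_lhs => rw [hn]
    rw [Finset.sum_range_add, Finset.sum_range_succ]
  rw [hsplit] at htot'
  have hθt : 0 < (θ⁻¹) ^ t := by positivity
  have hA : -((θ⁻¹) ^ t * (2 * θ)) ≤ ∑ t' ∈ range t, (θ⁻¹) ^ t' * (h' t' - h t') := by
    have h1 : ∑ t' ∈ range t, θ ^ ((t - 1 - t') + 1) ≤ 2 * θ := by
      rw [Finset.sum_range_reflect (fun j => θ ^ (j + 1)) t]
      exact geo_le hθ0.le hθ1 t
    have h2 : ∀ t' ∈ range t, -((θ⁻¹) ^ t * θ ^ ((t - 1 - t') + 1))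
        ≤ (θ⁻¹) ^ t' * (h' t' - h t') := by
      intro t' ht'
      rw [Finset.mem_range] at ht'
      have h3 : (θ⁻¹) ^ t * θ ^ ((t - 1 - t') + 1) = (θ⁻¹) ^ t' := by
        have : t = t' + ((t - 1 - t') + 1) := by omega
        conv_lhs => rw [this]
        have h8 : t' + (t - 1 - t' + 1) - 1 - t' + 1 = (t - 1 - t' + 1) := by omega
        rw [h8, pow_add, mul_assoc, ← mul_pow, inv_mul_cancel₀ hθ0.ne', one_pow, mul_one]
      rw [h3]
      have h4 := hlow t' ht'
      have h5 : 0 ≤ (θ⁻¹) ^ t' := by positivity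
      nlinarith
    calc -((θ⁻¹) ^ t * (2 * θ)) ≤ -((θ⁻¹) ^ t * ∑ t' ∈ range t, θ ^ ((t - 1 - t') + 1)) := by
          apply neg_le_neg
          exact mul_le_mul_of_nonneg_left h1 hθt.le
      _ = ∑ t' ∈ range t, -((θ⁻¹) ^ t * θ ^ ((t - 1 - t') + 1)) := by
          rw [Finset.mul_sum, Finset.sum_neg_distrib]
      _ ≤ _ := Finset.sum_le_sum h2
  have hB : -((θ⁻¹) ^ t * (C0 * (2 * q))) ≤
      ∑ j ∈ range (n - (t + 1)), (θ⁻¹) ^ (t + 1 + j) * (h' (t + 1 + j) - h (t + 1 + j)) := by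
    have h1 := geo_le hq0 hq1 (n - (t + 1))
    have h2 : ∀ j ∈ range (n - (t + 1)), -((θ⁻¹) ^ t * (C0 * q ^ (j + 1)))
        ≤ (θ⁻¹) ^ (t + 1 + j) * (h' (t + 1 + j) - h (t + 1 + j)) := by
      intro j hj
      rw [Finset.mem_range] at hj
      have h3 := hhigh (t + 1 + j) (by omega) (by omega)
      have h4 : t + 1 + j - t = j + 1 := by omega
      rw [h4] at h3
      have h5 : (θ⁻¹) ^ (t + 1 + j) * (C0 * (m⁻¹) ^ (j + 1)) = (θ⁻¹) ^ t * (C0 * q ^ (j + 1)) := by
        rw [hq, mul_inv, mul_pow]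
        have : t + 1 + j = t + (j + 1) := by ring
        rw [this, pow_add]
        ring
      rw [← h5]
      have h6 : 0 ≤ (θ⁻¹) ^ (t + 1 + j) := by positivity
      nlinarith
    calc -((θ⁻¹) ^ t * (C0 * (2 * q)))
        ≤ -((θ⁻¹) ^ t * (C0 * ∑ j ∈ range (n - (t + 1)), q ^ (j + 1))) := by
          apply neg_le_neg
          apply mul_le_mul_of_nonneg_left _ hθt.le
          exact mul_le_mul_of_nonneg_left h1 (by linarith)
      _ = ∑ j ∈ range (n - (t + 1)), -((θ⁻¹) ^ t * (C0 * q ^ (j + 1))) := by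
          rw [Finset.mul_sum, Finset.mul_sum, Finset.sum_neg_distrib]
      _ ≤ _ := Finset.sum_le_sum h2
  have hfin : (θ⁻¹) ^ t * (h' t - h t) ≤ δ / 3 + (θ⁻¹) ^ t * (2 * θ) + (θ⁻¹) ^ t * (δ / 3) := by
    have : (θ⁻¹) ^ t * (C0 * (2 * q)) ≤ (θ⁻¹) ^ t * (δ / 3) :=
      mul_le_mul_of_nonneg_left hqC hθt.le
    linarith
  have hone : 1 ≤ (θ⁻¹) ^ t := one_le_pow₀ (by
    rw [one_le_inv₀ hθ0]; linarith)
  have hfin2 : (θ⁻¹) ^ t * (h' t - h t) ≤ (θ⁻¹) ^ t * δ := by
    have h1 : δ / 3 ≤ (θ⁻¹) ^ t * (δ / 3) := by nlinarith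
    have h2 : 2 * θ = δ / 3 := by rw [hθ]; ring
    rw [h2] at hfin
    nlinarith
  have hfin3 : h' t - h t ≤ δ := le_of_mul_le_mul_left hfin2 hθt
  have hbt := hb t ht
  have h7 : avgH blk res P' x' t ≤ avgH blk res P z t + δ * b t := by
    simp only [hhdef, hh'def] at hfin3
    have h8 : avgH blk res P' x' t / b t ≤ (avgH blk res P z t + δ * b t) / b t := by
      rw [add_div, mul_div_cancel_right₀ _ hbt.ne']
      linarith
    exact (div_le_div_iff_of_pos_right hbt).mp h8
  have h8 : avgH blk res P' x' t = avgH blk res P' (fun ω => z' ω + y' ω) t :=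
    avgH_congr (fun s _ => hent s)
  rw [← h8]
  exact h7

end main

end Crest.Agent.R2.E123
end

-- ▼ part R2/Kac587e
section

/-!
# R2 (Gaussian moat), block K8, part e: assembly of near-full Kac
-/

set_option autoImplicit false
set_option linter.unusedSectionVars false

namespace Crest.Agent.R2.K8

open Finset hiding ext
open Crest.Agent.R055 Crest.Agent.R2.Kit Crest.Agent.R2.Gcd62 Crest.Agent.R2.E123

/-! ### arithmetic of the block sizes -/

theorem q_spec {g m I i : ℕ} (hm : 0 < m) (hd : m ^ I ∣ g) (hg : 0 < g) (hi : i ≤ I) :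
    0 < g / m ^ i ∧ m ^ i * (g / m ^ i) = g := by
  have h1 : m ^ i ∣ g := (pow_dvd_pow m hi).trans hd
  refine ⟨Nat.div_pos (Nat.le_of_dvd hg h1) (pow_pos hm i), Nat.mul_div_cancel' h1⟩

theorem q_succ {g m I i : ℕ} (hm : 0 < m) (hd : m ^ I ∣ g) (hg : 0 < g) (hi : i + 1 ≤ I) :
    m * (g / m ^ (i + 1)) = g / m ^ i := by
  have h1 := (q_spec hm hd hg hi).2
  have h2 := (q_spec hm hd hg (Nat.le_of_succ_le hi)).2
  have h3 : m ^ i * (m * (g / m ^ (i + 1))) = m ^ i * (g / m ^ i) := by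
    rw [h2, ← mul_assoc, ← pow_succ, h1]
  exact Nat.eq_of_mul_eq_mul_left (pow_pos hm i) h3

theorem q_cast {g m I i : ℕ} (hm : 0 < m) (hd : m ^ I ∣ g) (hg : 0 < g) (hi : i ≤ I) :
    ((g / m ^ i : ℕ) : ℝ) = (g : ℝ) / (m : ℝ) ^ i := by
  have h := (q_spec hm hd hg hi).2
  have hm' : (0 : ℝ) < (m : ℝ) ^ i := by positivity
  rw [eq_div_iff hm'.ne', mul_comm]
  have : ((m ^ i * (g / m ^ i) : ℕ) : ℝ) = (g : ℝ) := by rw [h]
  push_cast at this ⊢
  exact this

theorem lk_eq {I k r : ℕ} (h : r < I + 1) : (k * (I + 1) + r) / (I + 1) = k := by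
  rw [Nat.mul_comm, Nat.mul_add_div (Nat.succ_pos _), Nat.div_eq_of_lt h, Nat.add_zero]

theorem lr_eq {I k r : ℕ} (h : r < I + 1) : (k * (I + 1) + r) % (I + 1) = r := by
  rw [Nat.mul_comm, Nat.mul_add_mod, Nat.mod_eq_of_lt h]

theorem ratio_of_step {b : ℕ → ℝ} {m : ℝ} {n : ℕ} (hm : 0 ≤ m)
    (h : ∀ t, t + 1 < n → m * b t ≤ b (t + 1)) :
    ∀ t t', t < t' → t' < n → m ^ (t' - t) * b t ≤ b t' := by
  intro t t' htt' ht'
  obtain ⟨d, rfl⟩ := Nat.exists_eq_add_of_lt htt'
  induction d with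
  | zero =>
    have := h t (by omega)
    simpa using this
  | succ d ih =>
    have h1 := ih (by omega) (by omega)
    have h2 := h (t + d + 1) (by omega)
    have e1 : t + (d + 1) + 1 - t = d + 1 + 1 := by omega
    have e2 : t + d + 1 - t = d + 1 := by omega
    rw [e1]
    rw [e2] at h1
    calc m ^ (d + 1 + 1) * b t = m * (m ^ (d + 1) * b t) := by ring
      _ ≤ m * b (t + d + 1) := mul_le_mul_of_nonneg_left h1 hm
      _ ≤ b (t + d + 1 + 1) := h2
      _ = b (t + (d + 1) + 1) := by congr 1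

theorem exists_small_step (g : ℕ → ℝ) {I : ℕ} (hI : 0 < I) (h : g I - g 0 ≤ 1) :
    ∃ i < I, g (i + 1) - g i ≤ 1 / (I : ℝ) := by
  by_contra hcon
  push Not at hcon
  have h1 : ∑ i ∈ range I, (1 / (I : ℝ)) < ∑ i ∈ range I, (g (i + 1) - g i) := by
    apply Finset.sum_lt_sum_of_nonempty
    · exact ⟨0, Finset.mem_range.2 hI⟩
    · intro i hi; exact hcon i (Finset.mem_range.1 hi)
  rw [Finset.sum_range_sub, Finset.sum_const, card_range, nsmul_eq_mul] at h1
  have hI' : (0 : ℝ) < I := by exact_mod_cast hI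
  rw [mul_one_div, div_self hI'.ne'] at h1
  linarith

/-! ### logarithms of norms -/

theorem norm_pos_of_prime {p : GaussianInt} (hp : Prime p) : (0 : ℝ) < (p.norm : ℝ) := by
  have : 0 < p.norm := GaussianInt.norm_pos.2 hp.ne_zero
  exact_mod_cast this

theorem log_prod {S : Finset GaussianInt} (hS : ∀ p ∈ S, Prime p) :
    Real.log (∏ p ∈ S, ((p.norm : ℤ) : ℝ)) = ∑ p ∈ S, Real.log (p.norm : ℝ) :=
  Real.log_prod (fun p hp => (norm_pos_of_prime (hS p hp)).ne')

theorem sum_log_le {w : ℝ} {G S : Finset GaussianInt} (h : X149.Blk w G) (hS : S ⊆ G) :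
    ∑ p ∈ S, Real.log (p.norm : ℝ) ≤ S.card * Real.log (4 * w) := by
  rw [← nsmul_eq_mul]
  apply Finset.sum_le_card_nsmul
  intro p hp
  exact Real.log_le_log (norm_pos_of_prime (h.prime p (hS hp))) (h.hi p (hS hp))

theorem le_sum_log {w : ℝ} (hw : 0 < w) {G S : Finset GaussianInt} (h : X149.Blk w G)
    (hS : S ⊆ G) : S.card * Real.log w ≤ ∑ p ∈ S, Real.log (p.norm : ℝ) := by
  rw [← nsmul_eq_mul]
  apply Finset.card_nsmul_le_sum
  intro p hp
  exact Real.log_le_log hw (h.lo p (hS hp)).le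

/-- entropy modulo the product = entropy of `rs`. -/
theorem ent_cl_eq {Ω : Type*} [Fintype Ω] (P : Ω → ℝ) {S : Finset GaussianInt}
    (hS : ∀ p ∈ S, Prime p) (hass : ∀ p ∈ S, ∀ q ∈ S, Associated p q → p = q)
    (z : Ω → GaussianInt) :
    ent P (fun ω => X149.cl (∏ p ∈ S, p) (z ω)) = ent P (fun ω => rs S (z ω)) := by
  apply ent_congr
  intro a b
  rw [X149.cl_eq_iff]
  constructor
  · intro h
    rw [rs_eq_iff]
    intro p hp
    exact (Finset.dvd_prod_of_mem _ hp).trans h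
  · intro h
    exact prod_dvd_of_rs hS hass h

/-- block `j` of level `i` of `G k`. -/
noncomputable def Bl (G : ℕ → Finset GaussianInt) (m k i j : ℕ) : Finset GaussianInt :=
  blk (G k) ((G k).card / m ^ i) j

/-- log-size of the blocks of level `i` of `G k`. -/
noncomputable def bb (G : ℕ → Finset GaussianInt) (w : ℕ → ℝ) (m k i : ℕ) : ℝ :=
  ((G k).card : ℝ) / (m : ℝ) ^ i * Real.log (4 * w k)

section scale

variable {G : ℕ → Finset GaussianInt} {w : ℕ → ℝ} {m I k i : ℕ}

theorem card_Bl (hm : 0 < m) (hd : m ^ I ∣ (G k).card) (hg : 0 < (G k).card) (hi : i ≤ I)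
    {j : ℕ} (hj : j < m ^ i) : (Bl G m k i j).card = (G k).card / m ^ i := by
  have h := q_spec hm hd hg hi
  apply card_blk h.1
  calc (j + 1) * ((G k).card / m ^ i) ≤ m ^ i * ((G k).card / m ^ i) :=
        Nat.mul_le_mul_right _ hj
    _ = (G k).card := h.2

theorem Bl_inj (hm : 0 < m) (hd : m ^ I ∣ (G k).card) (hg : 0 < (G k).card) (hi : i ≤ I)
    {j j' : ℕ} (hj : j < m ^ i) (he : Bl G m k i j = Bl G m k i j') : j = j' := by
  have h := q_spec hm hd hg hi
  apply blk_inj h.1 _ he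
  calc (j + 1) * ((G k).card / m ^ i) ≤ m ^ i * ((G k).card / m ^ i) :=
        Nat.mul_le_mul_right _ hj
    _ = (G k).card := h.2

theorem Bl_parent (hm : 0 < m) (hd : m ^ I ∣ (G k).card) (hg : 0 < (G k).card) (hi : i + 1 ≤ I)
    (j : ℕ) : (range m).biUnion (fun u => Bl G m k (i + 1) (j * m + u)) = Bl G m k i j := by
  unfold Bl
  rw [blk_parent hm, q_succ hm hd hg hi]

theorem bb_succ (hm : 0 < m) : (m : ℝ) * bb G w m k (i + 1) = bb G w m k i := by
  unfold bb
  have : (0 : ℝ) < m := by exact_mod_cast hm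
  field_simp
  ring

theorem ent_Bl_le (hB : X149.Blk (w k) (G k)) (hm : 0 < m) (hd : m ^ I ∣ (G k).card)
    (hg : 0 < (G k).card) (hi : i ≤ I) {j : ℕ} (hj : j < m ^ i)
    {Ω : Type} [Fintype Ω] {P : Ω → ℝ} (hP : IsProb P) (z : Ω → GaussianInt) :
    ent P (fun ω => rs (Bl G m k i j) (z ω)) ≤ bb G w m k i := by
  have hsub : Bl G m k i j ⊆ G k := blk_subset _ _ _
  have hpr : ∀ p ∈ Bl G m k i j, Prime p := fun p hp => hB.prime p (hsub hp)
  have h1 := ent_rs_le hP (Bl G m k i j) (fun p hp => (hpr p hp).ne_zero) z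
  rw [log_prod hpr] at h1
  have h2 := sum_log_le hB hsub
  rw [card_Bl hm hd hg hi hj, q_cast hm hd hg hi] at h2
  unfold bb
  linarith

end scale

end Crest.Agent.R2.K8
end

-- ▼ part R2/Kac587f

/-!
# R2 (Gaussian moat), block K8, part f: near-full Kac from the pair kernel
-/

set_option autoImplicit false
set_option linter.unusedSectionVars false

namespace Crest.Agent.R2.K8

open Finset hiding ext
open Crest.Agent.R055 Crest.Agent.R2.Kit Crest.Agent.R2.Gcd62 Crest.Agent.R2.E123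

/-- numbers at one scale -/
theorem scale_numbers {c0 δ b₀ W : ℝ} {m I g : ℕ} {w : ℝ} (hc0 : 0 < c0) (hδ : 0 < δ)
    (_hδ1 : δ ≤ 1) (hm : 0 < m)
    (hW : W = max (max 4 (Real.exp (Real.log 4 / δ))) ((m : ℝ) ^ I * max b₀ 2 / c0))
    (hw : W ≤ w) (hlow : c0 * w / Real.log w ≤ g) (hup : (g : ℝ) ≤ 2 * c0 * w / Real.log w) :
    0 < w ∧ 0 < Real.log w ∧ (1 - δ) * Real.log (4 * w) ≤ Real.log w ∧ 0 < g ∧
      c0 * w ≤ g * Real.log (4 * w) ∧ g * Real.log (4 * w) ≤ 4 * c0 * w ∧
      max b₀ 2 ≤ (g : ℝ) / (m : ℝ) ^ I * Real.log (4 * w) := by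
  have h4 : 4 ≤ w := by
    refine le_trans ?_ hw; rw [hW]; exact (le_max_left _ _).trans (le_max_left _ _)
  have hexp : Real.exp (Real.log 4 / δ) ≤ w := by
    refine le_trans ?_ hw; rw [hW]; exact (le_max_right _ _).trans (le_max_left _ _)
  have hbig : (m : ℝ) ^ I * max b₀ 2 / c0 ≤ w := by
    refine le_trans ?_ hw; rw [hW]; exact le_max_right _ _
  have hw0 : 0 < w := by linarith
  have hlog : 0 < Real.log w := Real.log_pos (by linarith)
  have hlog4 : Real.log (4 * w) = Real.log 4 + Real.log w :=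
    Real.log_mul (by norm_num) hw0.ne'
  have hl4 : 0 < Real.log 4 := Real.log_pos (by norm_num)
  have h1 : Real.log 4 ≤ δ * Real.log w := by
    have := (Real.le_log_iff_exp_le hw0).2 hexp
    rw [div_le_iff₀ hδ] at this
    linarith
  have h2 : (1 - δ) * Real.log (4 * w) ≤ Real.log w := by
    rw [hlog4]; nlinarith
  have h3 : Real.log 4 ≤ Real.log w := Real.log_le_log (by norm_num) h4
  have hg0 : (0 : ℝ) < g := lt_of_lt_of_le (by positivity) hlow
  have hg : 0 < g := by exact_mod_cast hg0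
  have h5 : c0 * w ≤ g * Real.log (4 * w) := by
    rw [div_le_iff₀ hlog] at hlow
    have : (g : ℝ) * Real.log w ≤ g * Real.log (4 * w) := by
      apply mul_le_mul_of_nonneg_left _ hg0.le
      rw [hlog4]; linarith
    linarith
  have h6 : g * Real.log (4 * w) ≤ 4 * c0 * w := by
    rw [le_div_iff₀ hlog] at hup
    have : (g : ℝ) * Real.log (4 * w) ≤ g * (2 * Real.log w) := by
      apply mul_le_mul_of_nonneg_left _ hg0.le
      rw [hlog4]; linarith
    linarith
  refine ⟨hw0, hlog, h2, hg, h5, h6, ?_⟩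
  have hmI : (0 : ℝ) < (m : ℝ) ^ I := by positivity
  rw [div_mul_eq_mul_div, le_div_iff₀ hmI]
  rw [div_le_iff₀ hc0] at hbig
  linarith

/-- **Near-full Kac** from the per-point kernel. -/
theorem kacStmt_of_pair (hpair : PairKernelStmt) : X149.KacStmt := by
  intro D c0 τ hD hc0 hτ hτ1
  classical
  set δ : ℝ := τ / 8 with hδdef
  have hδ : 0 < δ := by positivity
  have hδ1 : δ ≤ 1 := by rw [hδdef]; linarith
  obtain ⟨b₀, hb₀⟩ := hpair D hD δ hδ
  set m : ℕ := ⌈36 * 10 / δ ^ 2⌉₊ + 2 with hmdef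
  have hm : 0 < m := by omega
  have hmR : 36 * 10 / δ ^ 2 ≤ (m : ℝ) := by
    rw [hmdef]; push_cast
    have := Nat.le_ceil (36 * 10 / δ ^ 2)
    linarith
  have hm0 : (0 : ℝ) < m := by exact_mod_cast hm
  have hm20 : 20 / (m : ℝ) ≤ δ := by
    rw [div_le_iff₀ hm0]
    have h1 : 36 * 10 ≤ (m : ℝ) * δ ^ 2 := by
      rw [div_le_iff₀ (by positivity)] at hmR; exact hmR
    nlinarith
  have hm1 : 1 / (m : ℝ) ≤ δ := by
    refine le_trans ?_ hm20
    apply div_le_div_of_nonneg_right _ hm0.le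
    norm_num
  set I : ℕ := ⌈1 / δ⌉₊ with hIdef
  have hI : 0 < I := Nat.ceil_pos.2 (by positivity)
  have hIδ : 1 / (I : ℝ) ≤ δ := by
    have h1 := Nat.le_ceil (1 / δ)
    have hI0 : (0 : ℝ) < I := by exact_mod_cast hI
    rw [div_le_iff₀ hI0]
    rw [← hIdef, div_le_iff₀ hδ] at h1
    linarith
  set W0 : ℝ := max (max 4 (Real.exp (Real.log 4 / δ))) ((m : ℝ) ^ I * max b₀ 2 / c0) with hW0
  refine ⟨m, I, 4 * (m : ℝ) ^ (I + 1), W0, hm, ?_⟩
  intro n w G hW hκ hBlk hdvd hlow hup E hEne hEcl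
  have hnum : ∀ k < n, _ := fun k hk =>
    scale_numbers (b₀ := b₀) (I := I) hc0 hδ hδ1 hm hW0 (hW k hk) (hlow k hk) (hup k hk)
  -- levels
  set bt : ℕ → ℝ := fun t => bb G w m (t / (I + 1)) (I - t % (I + 1)) with hbt
  set bl : ℕ → Finset (Finset GaussianInt) := fun t =>
    (range (m ^ (I - t % (I + 1)))).image (fun j => Bl G m (t / (I + 1)) (I - t % (I + 1)) j)
    with hbl
  have hk_of : ∀ t < n * (I + 1), t / (I + 1) < n := fun t ht =>
    Nat.div_lt_of_lt_mul (by rw [Nat.mul_comm]; exact ht)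
  have hbpos : ∀ k < n, ∀ i, 0 < bb G w m k i := by
    intro k hk i
    obtain ⟨h1, h2, h3, h4, h5, h6, h7⟩ := hnum k hk
    unfold bb
    have h8 : (0 : ℝ) < ((G k).card : ℝ) := by exact_mod_cast h4
    have h9 : 0 < ((G k).card : ℝ) * Real.log (4 * w k) := lt_of_lt_of_le (by positivity) h5
    have h10 : 0 < Real.log (4 * w k) := (mul_pos_iff_of_pos_left h8).1 h9
    positivity
  have hbbig : ∀ k < n, ∀ i ≤ I, max b₀ 2 ≤ bb G w m k i := by
    intro k hk i hi
    obtain ⟨h1, h2, h3, h4, h5, h6, h7⟩ := hnum k hk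
    refine le_trans h7 ?_
    unfold bb
    have h9 : 0 < ((G k).card : ℝ) * Real.log (4 * w k) := lt_of_lt_of_le (by positivity) h5
    rw [div_mul_eq_mul_div, div_mul_eq_mul_div]
    apply div_le_div_of_nonneg_left h9.le (by positivity)
    apply pow_le_pow_right₀ _ hi
    exact_mod_cast hm
  have hstep : ∀ t, t + 1 < n * (I + 1) → (m : ℝ) * bt t ≤ bt (t + 1) := by
    intro t ht
    set k := t / (I + 1) with hk
    set r := t % (I + 1) with hr
    have hrI : r < I + 1 := Nat.mod_lt _ (Nat.succ_pos _)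
    have htkr : t = k * (I + 1) + r := (Nat.div_add_mod' t (I + 1)).symm
    by_cases hrc : r < I
    · have e1 : t + 1 = k * (I + 1) + (r + 1) := by omega
      have e2 : (t + 1) / (I + 1) = k := by rw [e1]; exact lk_eq (by omega)
      have e3 : (t + 1) % (I + 1) = r + 1 := by rw [e1]; exact lr_eq (by omega)
      have e4 : I - r = (I - (r + 1)) + 1 := by omega
      have e5 : bt t = bb G w m k (I - r) := rfl
      have e6 : bt (t + 1) = bb G w m k (I - (r + 1)) := by simp only [hbt, e2, e3]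
      rw [e5, e6, e4, bb_succ hm]
    · have hrI' : r = I := by omega
      have e1 : t + 1 = (k + 1) * (I + 1) + 0 := by rw [htkr, hrI']; ring
      have e2 : (t + 1) / (I + 1) = k + 1 := by rw [e1]; exact lk_eq (by omega)
      have e3 : (t + 1) % (I + 1) = 0 := by rw [e1]; exact lr_eq (by omega)
      have hk1 : k + 1 < n := by rw [← e2]; exact hk_of _ ht
      have e5 : bt t = bb G w m k 0 := by
        have : bt t = bb G w m k (I - r) := rfl
        rw [this, hrI', Nat.sub_self]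
      have e6 : bt (t + 1) = bb G w m (k + 1) I := by simp only [hbt, e2, e3, Nat.sub_zero]
      rw [e5, e6]
      obtain ⟨h1, h2, h3, h4, h5, h6, h7⟩ := hnum k (by omega)
      obtain ⟨h1', h2', h3', h4', h5', h6', h7'⟩ := hnum (k + 1) hk1
      have hκ' := hκ k hk1
      unfold bb
      rw [pow_zero, div_one, div_mul_eq_mul_div, le_div_iff₀ (by positivity)]
      calc (m : ℝ) * (((G k).card : ℝ) * Real.log (4 * w k)) * (m : ℝ) ^ I
          ≤ (m : ℝ) * (4 * c0 * w k) * (m : ℝ) ^ I := by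
            apply mul_le_mul_of_nonneg_right _ (by positivity)
            exact mul_le_mul_of_nonneg_left h6 hm0.le
        _ = c0 * (4 * (m : ℝ) ^ (I + 1) * w k) := by ring
        _ ≤ c0 * w (k + 1) := mul_le_mul_of_nonneg_left hκ' hc0.le
        _ ≤ _ := h5'
  have hratio := ratio_of_step hm0.le hstep
  have hBlinj : ∀ k < n, ∀ i ≤ I, Set.InjOn (fun j => Bl G m k i j) (range (m ^ i)) := by
    intro k hk i hi j hj j' _ he
    obtain ⟨h1, h2, h3, h4, h5, h6, h7⟩ := hnum k hk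
    exact Bl_inj hm (hdvd k hk) h4 hi (by simpa using hj) he
  -- the near-maximal law
  obtain ⟨Ω, hΩ, P, z, hP, hzE, hmaxl⟩ := near_max (β := Finset GaussianInt)
    (Q := fun _ => Set GaussianInt) E hEne (n * (I + 1)) bt bl (fun S x => rs S x) (m : ℝ) δ 10
    hδ hδ1 (by norm_num) hmR
    (fun t ht => hbpos _ (hk_of t ht) _) hratio
    (by
      intro t _
      rw [hbl]
      apply Finset.Nonempty.image
      exact ⟨0, Finset.mem_range.2 (pow_pos hm _)⟩)
    (by
      intro t _ S _ x x' y h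
      rw [rs_eq_iff] at h ⊢
      intro p hp
      have := h p hp
      simpa using this)
    (by
      intro t ht S hS Ω _ P z hP
      rw [hbl] at hS
      simp only [Finset.mem_image, Finset.mem_range] at hS
      obtain ⟨j, hj, rfl⟩ := hS
      have hk := hk_of t ht
      obtain ⟨h1, h2, h3, h4, h5, h6, h7⟩ := hnum _ hk
      exact ent_Bl_le (hBlk _ hk) hm (hdvd _ hk) h4 (Nat.sub_le _ _) hj hP z)
  refine ⟨Ω, hΩ, P, z, hP, hzE, ?_⟩
  intro k hk
  obtain ⟨hw0, hlogw, hlog4, hg0, h5, h6, h7⟩ := hnum k hk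
  have hB := hBlk k hk
  have hd := hdvd k hk
  -- the averages
  set g : ℕ → ℝ := fun i => (∑ j ∈ range (m ^ i), ent P (fun ω => rs (Bl G m k i j) (z ω))) /
    ((m : ℝ) ^ i * bb G w m k i) with hgdef
  have hgI : g I ≤ 1 := by
    rw [hgdef]
    have hb := hbpos k hk I
    rw [div_le_one (by positivity)]
    calc ∑ j ∈ range (m ^ I), ent P (fun ω => rs (Bl G m k I j) (z ω))
        ≤ ∑ _j ∈ range (m ^ I), bb G w m k I := by
          apply Finset.sum_le_sum
          intro j hj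
          exact ent_Bl_le hB hm hd hg0 le_rfl (Finset.mem_range.1 hj) hP z
      _ = (m : ℝ) ^ I * bb G w m k I := by
          rw [Finset.sum_const, card_range, nsmul_eq_mul]; push_cast; ring
  have hg00 : 0 ≤ g 0 := by
    rw [hgdef]
    have hb := hbpos k hk 0
    apply div_nonneg _ (by positivity)
    exact Finset.sum_nonneg (fun j _ => ent_nonneg hP _)
  obtain ⟨i, hiI, hgi⟩ := exists_small_step g hI (by linarith)
  have hgi' : g (i + 1) - g i ≤ δ := hgi.trans hIδ
  set b : ℝ := bb G w m k (i + 1) with hbdef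
  have hbpos' : 0 < b := hbpos k hk _
  have hbb := hbbig k hk (i + 1) hiI
  have hb2 : 2 ≤ b := (le_max_right _ _).trans hbb
  have hb0 : b₀ ≤ b := (le_max_left _ _).trans hbb
  have hcard : ∀ j < m ^ (i + 1), (Bl G m k (i + 1) j).card = (G k).card / m ^ (i + 1) :=
    fun j hj => card_Bl hm hd hg0 hiI hj
  have hsub : ∀ j, Bl G m k (i + 1) j ⊆ G k := fun j => blk_subset _ _ _
  have hcast : (((G k).card / m ^ (i + 1) : ℕ) : ℝ) = ((G k).card : ℝ) / (m : ℝ) ^ (i + 1) :=
    q_cast hm hd hg0 hiI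
  have hpw : m ^ i * m = m ^ (i + 1) := (pow_succ m i).symm
  -- apply the level inequality
  have hlev := level hP z E (δ := δ) (b := b) (L := (1 - δ) * b) hb2 (by
      have : 2 * δ ≤ 1 := by rw [hδdef]; linarith
      nlinarith) m (m ^ i) (fun j => Bl G m k (i + 1) j)
    (fun j _ p hp => hB.prime p (hsub j hp))
    (fun j _ p hp q hq h => hB.assoc p (hsub j hp) q (hsub j hq) h)
    (by
      intro j hj j' _ he
      rw [hpw] at hj
      exact Bl_inj hm hd hg0 hiI hj he)
    (by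
      intro j hj
      rw [hpw] at hj
      rw [log_prod (fun p hp => hB.prime p (hsub j hp))]
      have h8 := le_sum_log hw0 hB (hsub j)
      rw [hcard j hj, hcast] at h8
      refine le_trans ?_ h8
      rw [hbdef]
      unfold bb
      have h9 : (0 : ℝ) ≤ ((G k).card : ℝ) / (m : ℝ) ^ (i + 1) := by positivity
      calc (1 - δ) * (((G k).card : ℝ) / (m : ℝ) ^ (i + 1) * Real.log (4 * w k))
          = ((G k).card : ℝ) / (m : ℝ) ^ (i + 1) * ((1 - δ) * Real.log (4 * w k)) := by ring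
        _ ≤ _ := mul_le_mul_of_nonneg_left hlog4 h9)
    (by
      intro T _ κ hκT y hy hyent
      set t : ℕ := k * (I + 1) + (I - (i + 1)) with ht
      have ht1 : t / (I + 1) = k := lk_eq (by omega)
      have ht2 : t % (I + 1) = I - (i + 1) := lr_eq (by omega)
      have ht3 : I - (I - (i + 1)) = i + 1 := by omega
      have htn : t < n * (I + 1) := by
        have : (k + 1) * (I + 1) ≤ n * (I + 1) := Nat.mul_le_mul_right _ hk
        rw [Nat.succ_mul] at this
        omega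
      have ebt : bt t = b := by simp only [hbt, ht1, ht2, ht3, hbdef]
      have h8 := hmaxl t htn (Ω × T) (ext P κ) (fun x => z x.1) (fun x => y x.1 x.2)
        (isProb_ext hP hκT) (sameLaw_of_pushes (pushes_ext hκT))
        (by
          intro x hx
          have hx' : 0 < P x.1 * κ x.1 x.2 := hx
          have hP0 : 0 < P x.1 := by
            rcases (hP.nonneg x.1).lt_or_eq with h' | h'
            · exact h'
            · rw [← h'] at hx'; simp at hx'
          have hκ0 : 0 < κ x.1 x.2 := by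
            rcases ((hκT x.1).nonneg x.2).lt_or_eq with h' | h'
            · exact h'
            · rw [← h'] at hx'; simp at hx'
          exact hy x.1 x.2 hP0 hκ0)
        (by rw [ebt]; exact hyent)
      rw [ebt] at h8
      have ebl : bl t = (range (m ^ (i + 1))).image (fun j => Bl G m k (i + 1) j) := by
        simp only [hbl, ht1, ht2, ht3]
      have hinj := hBlinj k hk (i + 1) hiI
      have ecard : ((bl t).card : ℝ) = (m : ℝ) ^ (i + 1) := by
        rw [ebl, Finset.card_image_of_injOn hinj, card_range]; push_cast; rfl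
      unfold avgH at h8
      rw [ecard, ebl, Finset.sum_image hinj, Finset.sum_image hinj] at h8
      have hmi : (0 : ℝ) < (m : ℝ) ^ (i + 1) := by positivity
      rw [div_le_iff₀ hmi, add_mul, div_mul_cancel₀ _ hmi.ne'] at h8
      rw [hpw]
      have e9 : ((m ^ (i + 1) : ℕ) : ℝ) * (δ * b) = δ * b * (m : ℝ) ^ (i + 1) := by
        push_cast; ring
      rw [e9]
      exact h8)
    (by
      intro ω
      rw [hpw]
      apply hb₀ b hb0 E hEcl (z ω) (hzE ω)
      · constructor
        · intro S hS p hp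
          simp only [Finset.mem_image, Finset.mem_range] at hS
          obtain ⟨j, hj, rfl⟩ := hS
          exact hB.prime p (hsub j hp)
        · intro S hS S' hS' p hp q hq
          simp only [Finset.mem_image, Finset.mem_range] at hS hS'
          obtain ⟨j, hj, rfl⟩ := hS
          obtain ⟨j', hj', rfl⟩ := hS'
          exact hB.conj p (hsub j hp) q (hsub j' hq)
        · intro S hS S' hS' p hp q hq
          simp only [Finset.mem_image, Finset.mem_range] at hS hS'
          obtain ⟨j, hj, rfl⟩ := hS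
          obtain ⟨j', hj', rfl⟩ := hS'
          exact hB.assoc p (hsub j hp) q (hsub j' hq)
        · intro S hS S' hS' hne
          simp only [Finset.mem_image, Finset.mem_range] at hS hS'
          obtain ⟨j, hj, rfl⟩ := hS
          obtain ⟨j', hj', rfl⟩ := hS'
          apply blk_disjoint
          intro h
          exact hne (by rw [h])
      · intro S hS
        simp only [Finset.mem_image, Finset.mem_range] at hS
        obtain ⟨j, hj, rfl⟩ := hS
        have hpr : ∀ p ∈ Bl G m k (i + 1) j, Prime p := fun p hp => hB.prime p (hsub j hp)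
        have hpos : 0 < ∏ p ∈ Bl G m k (i + 1) j, ((p.norm : ℤ) : ℝ) :=
          Finset.prod_pos (fun p hp => norm_pos_of_prime (hpr p hp))
        rw [← Real.log_le_iff_le_exp hpos, log_prod hpr]
        have h8 := sum_log_le hB (hsub j)
        rw [hcard j hj, hcast] at h8
        exact h8)
  -- rewrite in terms of g
  have hmi : (0 : ℝ) < (m : ℝ) ^ (i + 1) := by positivity
  have hmi' : (0 : ℝ) < (m : ℝ) ^ i := by positivity
  have hs1 : ∑ j ∈ range (m ^ i * m), ent P (fun ω => rs (Bl G m k (i + 1) j) (z ω))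
      = (m : ℝ) ^ (i + 1) * b * g (i + 1) := by
    rw [hpw, hgdef]
    simp only
    rw [← hbdef]
    field_simp
  have hbi : bb G w m k i = m * b := by rw [hbdef, bb_succ hm]
  have hs2 : ∑ j' ∈ range (m ^ i), ent P (fun ω => rs ((range m).biUnion
        fun u => Bl G m k (i + 1) (j' * m + u)) (z ω)) = (m : ℝ) ^ (i + 1) * b * g i := by
    have e1 : ∀ j' ∈ range (m ^ i), ent P (fun ω => rs ((range m).biUnion
        fun u => Bl G m k (i + 1) (j' * m + u)) (z ω)) = ent P (fun ω => rs (Bl G m k i j') (z ω)) := by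
      intro j' _
      rw [Bl_parent hm hd hg0 hiI]
    rw [Finset.sum_congr rfl e1, hgdef]
    simp only
    rw [hbi, pow_succ]
    field_simp
  rw [hs1, hs2] at hlev
  have e3 : (((m ^ i * m : ℕ) : ℕ) : ℝ) = (m : ℝ) ^ (i + 1) := by push_cast; ring
  have e4 : (((m ^ i : ℕ) : ℕ) : ℝ) * (20 * b) = (m : ℝ) ^ (i + 1) * b * (20 / m) := by
    push_cast
    rw [pow_succ]
    field_simp
  rw [e3, e4] at hlev
  have hmi1 : 1 ≤ δ * (m : ℝ) ^ (i + 1) := by
    have h8 : (m : ℝ) ≤ (m : ℝ) ^ (i + 1) := by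
      calc (m : ℝ) = (m : ℝ) ^ 1 := (pow_one _).symm
        _ ≤ (m : ℝ) ^ (i + 1) := pow_le_pow_right₀ (by exact_mod_cast hm) (by omega)
    rw [div_le_iff₀ hm0] at hm1
    nlinarith
  -- conclusion g (i+1) ≥ 1 - τ
  have hg1 : 1 - τ ≤ g (i + 1) := by
    set A : ℝ := (m : ℝ) ^ (i + 1) with hA
    have hAb : 0 < A * b := by positivity
    -- (A - 1) (1 - 2δ) b ≤ A b (g(i+1) + 4 δ)
    have h8 : (A - 1) * ((1 - δ) * b - δ * b) ≤ A * b * (2 * g (i + 1) + 2 * δ + 20 / m - g i) := by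
      calc (A - 1) * ((1 - δ) * b - δ * b) ≤ _ := hlev
        _ = _ := by ring
    have h9 : A * b * (2 * g (i + 1) + 2 * δ + 20 / m - g i) ≤ A * b * (g (i + 1) + 4 * δ) := by
      apply mul_le_mul_of_nonneg_left _ hAb.le
      linarith
    have h10 : A * b * (1 - 3 * δ) ≤ (A - 1) * ((1 - δ) * b - δ * b) := by
      have e5 : (A - 1) * ((1 - δ) * b - δ * b) = A * b * (1 - 2 * δ) - b * (1 - 2 * δ) := by ring
      rw [e5]
      have h11 : b * (1 - 2 * δ) ≤ A * b * δ := by
        have : b * (1 - 2 * δ) ≤ b * 1 := mul_le_mul_of_nonneg_left (by linarith) hbpos'.le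
        have h12 : b * 1 ≤ b * (δ * A) := mul_le_mul_of_nonneg_left hmi1 hbpos'.le
        linarith
      linarith
    have h11 : A * b * (1 - 3 * δ) ≤ A * b * (g (i + 1) + 4 * δ) := h10.trans (h8.trans h9)
    have h12 := le_of_mul_le_mul_left h11 hAb
    rw [hδdef] at h12
    linarith
  -- choose the best block
  have hex : ∃ j ∈ range (m ^ (i + 1)), (1 - τ) * b ≤ ent P (fun ω => rs (Bl G m k (i + 1) j) (z ω)) := by
    by_contra hcon
    push Not at hcon
    have h8 : ∑ j ∈ range (m ^ (i + 1)), ent P (fun ω => rs (Bl G m k (i + 1) j) (z ω))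
        < ∑ _j ∈ range (m ^ (i + 1)), (1 - τ) * b :=
      Finset.sum_lt_sum_of_nonempty ⟨0, Finset.mem_range.2 (pow_pos hm _)⟩ hcon
    rw [hpw] at hs1
    rw [hs1, Finset.sum_const, card_range, nsmul_eq_mul] at h8
    push_cast at h8
    have h9 : (m : ℝ) ^ (i + 1) * b * (1 - τ) ≤ (m : ℝ) ^ (i + 1) * b * g (i + 1) :=
      mul_le_mul_of_nonneg_left hg1 (by positivity)
    linarith
  obtain ⟨j, hj, hjent⟩ := hex
  rw [Finset.mem_range] at hj
  refine ⟨Bl G m k (i + 1) j, hsub j, ?_, ?_⟩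
  · rw [hcard j hj]
    calc (G k).card = m ^ (i + 1) * ((G k).card / m ^ (i + 1)) := (q_spec hm hd hg0 hiI).2.symm
      _ ≤ m ^ I * ((G k).card / m ^ (i + 1)) :=
          Nat.mul_le_mul_right _ (Nat.pow_le_pow_right hm hiI)
  · rw [ent_cl_eq P (fun p hp => hB.prime p (hsub j hp))
      (fun p hp q hq h => hB.assoc p (hsub j hp) q (hsub j hq) h) z]
    refine le_trans ?_ hjent
    apply mul_le_mul_of_nonneg_left _ (by linarith)
    have h8 := sum_log_le hB (hsub j)
    rw [hcard j hj, hcast] at h8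
    exact h8

end Crest.Agent.R2.K8
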