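import Mathlib
import Crest.Agent.R2.K8Def587_Mg

-- ▼ part R2/Rect297
section

/-!
# R2 (Gaussian moat), block K7: counting Gaussian integers in rectangles and the two block claim
(Step 6 of the near full Kac argument, helper149 #11294).
-/

set_option autoImplicit false

namespace Crest.Agent.R2.Rect297

open Finset

/-- absolute value of a Gaussian integer -/
noncomputable abbrev ab (z : GaussianInt) : ℝ := ‖GaussianInt.toComplex z‖

/-- determinant of two Gaussian integers -/
def det (u v : GaussianInt) : ℤ := u.re * v.im - u.im * v.re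

/-- scalar product of two Gaussian integers -/
def dot (u v : GaussianInt) : ℤ := u.re * v.re + u.im * v.im

theorem ab_nonneg (z : GaussianInt) : 0 ≤ ab z := norm_nonneg _

theorem ab_sq (z : GaussianInt) : ab z ^ 2 = ((dot z z : ℤ) : ℝ) := by
  unfold ab dot
  rw [← Complex.normSq_eq_norm_sq, ← GaussianInt.intCast_real_norm, Zsqrtd.norm_def]
  push_cast
  ring

theorem ab_mul (z w : GaussianInt) : ab (z * w) = ab z * ab w := by
  unfold ab; rw [map_mul, norm_mul]

theorem ab_sub_le (z w : GaussianInt) : ab (z - w) ≤ ab z + ab w := by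
  unfold ab; rw [map_sub]; exact norm_sub_le _ _

theorem dot_self_nonneg (z : GaussianInt) : 0 ≤ dot z z := by
  unfold dot; nlinarith [sq_nonneg z.re, sq_nonneg z.im]

theorem dot_self_pos {z : GaussianInt} (hz : z ≠ 0) : 0 < dot z z := by
  rcases (dot_self_nonneg z).lt_or_eq with h | h
  · exact h
  · exfalso
    apply hz
    unfold dot at h
    have h1 : z.re = 0 := by nlinarith [sq_nonneg z.re, sq_nonneg z.im]
    have h2 : z.im = 0 := by nlinarith [sq_nonneg z.re, sq_nonneg z.im]
    exact Zsqrtd.ext h1 h2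

theorem one_le_ab {z : GaussianInt} (hz : z ≠ 0) : 1 ≤ ab z := by
  have h1 : (1 : ℤ) ≤ dot z z := dot_self_pos hz
  have h2 : (1 : ℝ) ≤ ab z ^ 2 := by rw [ab_sq]; exact_mod_cast h1
  have h0 := ab_nonneg z
  by_contra h
  push Not at h
  nlinarith

theorem lagrange (a b : GaussianInt) : dot a b ^ 2 + det a b ^ 2 = dot a a * dot b b := by
  unfold dot det; ring

theorem det_mul (a b u : GaussianInt) :
    det a b * dot u u = dot a u * det u b - det u a * dot b u := by
  unfold dot det; ring

theorem det_mul_left (m a b : GaussianInt) : det (m * a) (m * b) = dot m m * det a b := by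
  unfold dot det
  simp only [Zsqrtd.re_mul, Zsqrtd.im_mul]
  ring



/-- separated integers in an interval -/
theorem card_sep (T : Finset ℤ) (n L : ℤ) (hn : 0 < n) (hL : 0 ≤ L)
    (hsep : ∀ a ∈ T, ∀ b ∈ T, a < b → n ≤ b - a) (hd : ∀ a ∈ T, ∀ b ∈ T, b - a ≤ L) :
    (T.card : ℤ) ≤ L / n + 1 := by
  have hq : 0 ≤ L / n := Int.ediv_nonneg hL hn.le
  rcases T.eq_empty_or_nonempty with rfl | hT
  · simp; omega
  · set m := T.min' hT with hm
    have hmem : m ∈ T := T.min'_mem hT
    have hmap : ∀ a ∈ T, (a - m) / n ∈ Finset.Icc (0 : ℤ) (L / n) := by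
      intro a ha
      have h1 : m ≤ a := T.min'_le a ha
      rw [Finset.mem_Icc]
      exact ⟨Int.ediv_nonneg (by omega) hn.le, Int.ediv_le_ediv hn (hd m hmem a ha)⟩
    have hinj : Set.InjOn (fun a => (a - m) / n) (T : Set ℤ) := by
      intro a ha b hb hab
      simp only at hab
      by_contra hne
      rcases lt_or_gt_of_ne hne with h | h
      · have h1 := hsep a ha b hb h
        have h2 : (a - m) / n + 1 ≤ (b - m) / n := by
          have h3 : (a - m + n) / n = (a - m) / n + 1 := by
            rw [Int.add_ediv_of_dvd_right (dvd_refl n), Int.ediv_self hn.ne']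
          rw [← h3]
          apply Int.ediv_le_ediv hn
          omega
        omega
      · have h1 := hsep b hb a ha h
        have h2 : (b - m) / n + 1 ≤ (a - m) / n := by
          have h3 : (b - m + n) / n = (b - m) / n + 1 := by
            rw [Int.add_ediv_of_dvd_right (dvd_refl n), Int.ediv_self hn.ne']
          rw [← h3]
          apply Int.ediv_le_ediv hn
          omega
        omega
    have hc := Finset.card_le_card_of_injOn _ hmap hinj
    rw [Int.card_Icc] at hc
    have : ((L / n + 1 - 0).toNat : ℤ) = L / n + 1 := by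
      rw [Int.toNat_of_nonneg (by omega)]; ring
    omega

/-- the fibre of `det · v` over `k` -/
theorem card_fibre_le (F : Finset GaussianInt) (v : GaussianInt) (hv : v ≠ 0) (L : ℤ) (hL : 0 ≤ L)
    (hmin : ∀ x ∈ F, ∀ y ∈ F, x ≠ y → dot v v ≤ dot (x - y) (x - y))
    (hpar : ∀ x ∈ F, ∀ y ∈ F, det (x - y) v = 0)
    (hd : ∀ x ∈ F, ∀ y ∈ F, dot (x - y) v ≤ L) :
    (F.card : ℤ) ≤ L / dot v v + 1 := by
  have hn := dot_self_pos hv
  have hsub : ∀ x y : GaussianInt, dot x v - dot y v = dot (x - y) v := by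
    intro x y
    unfold dot
    simp only [Zsqrtd.re_sub, Zsqrtd.im_sub]
    ring
  -- key: distinct points have dot difference at least `dot v v`
  have key : ∀ x ∈ F, ∀ y ∈ F, x ≠ y → dot v v ≤ |dot x v - dot y v| := by
    intro x hx y hy hxy
    have h1 := lagrange (x - y) v
    rw [hpar x hx y hy] at h1
    have h2 := hmin x hx y hy hxy
    rw [hsub]
    have h3 : (dot v v) ^ 2 ≤ (dot (x - y) v) ^ 2 := by nlinarith
    calc dot v v = |dot v v| := (abs_of_pos hn).symm
      _ ≤ _ := sq_le_sq.1 h3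
  have hinj : Set.InjOn (fun x => dot x v) (F : Set GaussianInt) := by
    intro x hx y hy hxy
    by_contra hne
    have := key x hx y hy hne
    simp only at hxy
    rw [hxy, sub_self, abs_zero] at this
    omega
  have hc : (F.image (fun x => dot x v)).card = F.card := Finset.card_image_of_injOn hinj
  rw [← hc]
  apply card_sep _ _ _ hn hL
  · intro a ha b hb hab
    simp only [Finset.mem_image] at ha hb
    obtain ⟨x, hx, rfl⟩ := ha
    obtain ⟨y, hy, rfl⟩ := hb
    have hne : x ≠ y := by rintro rfl; omega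
    have := key x hx y hy hne
    rw [abs_of_neg (by omega)] at this
    omega
  · intro a ha b hb
    simp only [Finset.mem_image] at ha hb
    obtain ⟨x, hx, rfl⟩ := ha
    obtain ⟨y, hy, rfl⟩ := hb
    rw [hsub]
    exact hd y hy x hx

/-- shortest nonzero difference of a finite set with two points -/
theorem exists_min_diff (F : Finset GaussianInt) (hF : 1 < F.card) :
    ∃ x₀ ∈ F, ∃ y₀ ∈ F, x₀ ≠ y₀ ∧
      ∀ x ∈ F, ∀ y ∈ F, x ≠ y → dot (x₀ - y₀) (x₀ - y₀) ≤ dot (x - y) (x - y) := by
  have hne : F.offDiag.Nonempty := by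
    rw [Finset.one_lt_card] at hF
    obtain ⟨a, ha, b, hb, hab⟩ := hF
    exact ⟨(a, b), by simp [ha, hb, hab]⟩
  obtain ⟨p, hp, hmin⟩ := Finset.exists_min_image F.offDiag
    (fun p => dot (p.1 - p.2) (p.1 - p.2)) hne
  rw [Finset.mem_offDiag] at hp
  refine ⟨p.1, hp.1, p.2, hp.2.1, hp.2.2, ?_⟩
  intro x hx y hy hxy
  exact hmin (x, y) (by simp [hx, hy, hxy])

/-- **K7a**: a non collinear finite set of Gaussian integers has at most `4 B` elements, if all
determinants of differences are at most `B`. -/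
theorem card_le_of_noncollinear (F : Finset GaussianInt) (B : ℤ)
    (hnc : ∃ x ∈ F, ∃ y ∈ F, ∃ z ∈ F, det (y - x) (z - x) ≠ 0)
    (hB : ∀ x ∈ F, ∀ x' ∈ F, ∀ y ∈ F, ∀ y' ∈ F, |det (x - x') (y - y')| ≤ B) :
    (F.card : ℤ) ≤ 4 * B := by
  classical
  obtain ⟨p, hp, q, hq, s, hs, hpqs⟩ := hnc
  have hpq : p ≠ q := by
    rintro rfl
    apply hpqs
    unfold det; simp
  have hcard : 1 < F.card := Finset.one_lt_card.2 ⟨p, hp, q, hq, hpq⟩
  obtain ⟨x₀, hx₀, y₀, hy₀, hxy₀, hmin⟩ := exists_min_diff F hcard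
  set v := x₀ - y₀ with hv
  have hv0 : v ≠ 0 := sub_ne_zero.2 hxy₀
  have hn := dot_self_pos hv0
  set n := dot v v with hnv
  -- the functions
  set g : GaussianInt → ℤ := fun x => det x v with hg
  have hFne : F.Nonempty := ⟨p, hp⟩
  obtain ⟨xa, hxa, hxamax⟩ := Finset.exists_max_image F g hFne
  obtain ⟨xb, hxb, hxbmin⟩ := Finset.exists_min_image F g hFne
  have hgsub : ∀ x y : GaussianInt, g x - g y = det (x - y) v := by
    intro x y
    simp only [hg]
    unfold det
    simp only [Zsqrtd.re_sub, Zsqrtd.im_sub]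
    ring
  set K := g xa - g xb with hK
  have hK0 : 0 ≤ K := by have := hxamax xb hxb; omega
  -- largest difference along v within fibres
  set P := (F ×ˢ F).filter (fun p => g p.1 = g p.2) with hP
  have hPne : P.Nonempty := ⟨(x₀, y₀), by
    rw [hP, Finset.mem_filter]
    refine ⟨Finset.mk_mem_product hx₀ hy₀, ?_⟩
    have := hgsub x₀ y₀
    have h2 : det (x₀ - y₀) v = 0 := by
      rw [← hv]; unfold det; ring
    simp only
    omega⟩
  obtain ⟨c, hc, hcmax⟩ := Finset.exists_max_image P (fun p => dot (p.1 - p.2) v) hPne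
  rw [hP, Finset.mem_filter, Finset.mem_product] at hc
  set L := dot (c.1 - c.2) v with hL
  have hLn : n ≤ L := by
    have h := hcmax (x₀, y₀) (by
      rw [hP, Finset.mem_filter]
      refine ⟨Finset.mk_mem_product hx₀ hy₀, ?_⟩
      have := hgsub x₀ y₀
      have h2 : det (x₀ - y₀) v = 0 := by
        rw [← hv]; unfold det; ring
      simp only
      omega)
    simpa [hv, hnv] using h
  -- image size
  have himg : ((F.image g).card : ℤ) ≤ K + 1 := by
    have h1 : F.image g ⊆ Finset.Icc (g xb) (g xa) := by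
      intro k hk
      rw [Finset.mem_image] at hk
      obtain ⟨x, hx, rfl⟩ := hk
      rw [Finset.mem_Icc]
      exact ⟨hxbmin x hx, hxamax x hx⟩
    have h2 := Finset.card_le_card h1
    rw [Int.card_Icc] at h2
    have h3 : ((g xa + 1 - g xb).toNat : ℤ) = g xa + 1 - g xb := Int.toNat_of_nonneg (by omega)
    omega
  -- fibres
  have hfib : ∀ k ∈ F.image g, ((F.filter (fun x => g x = k)).card : ℤ) ≤ L / n + 1 := by
    intro k _
    apply card_fibre_le _ v hv0 L (by omega)
    · intro x hx y hy hxy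
      rw [Finset.mem_filter] at hx hy
      exact hmin x hx.1 y hy.1 hxy
    · intro x hx y hy
      rw [Finset.mem_filter] at hx hy
      rw [← hgsub, hx.2, hy.2, sub_self]
    · intro x hx y hy
      rw [Finset.mem_filter] at hx hy
      exact hcmax (x, y) (by
        rw [hP, Finset.mem_filter]
        exact ⟨Finset.mk_mem_product hx.1 hy.1, by simp only; rw [hx.2, hy.2]⟩)
  have hq0 : 0 ≤ L / n := Int.ediv_nonneg (by omega) hn.le
  have htot : (F.card : ℤ) ≤ (L / n + 1) * (K + 1) := by
    have h1 := Finset.card_le_mul_card_image (s := F) (f := g) ((L / n + 1).toNat) (by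
      intro k hk
      have := hfib k hk
      omega)
    have h2 : (((L / n + 1).toNat * (F.image g).card : ℕ) : ℤ) = (L / n + 1) * (F.image g).card := by
      push_cast
      rw [Int.toNat_of_nonneg (by omega)]
    have h3 : (F.card : ℤ) ≤ (L / n + 1) * (F.image g).card := by
      rw [← h2]; exact_mod_cast h1
    have h4 : (L / n + 1) * ((F.image g).card : ℤ) ≤ (L / n + 1) * (K + 1) :=
      mul_le_mul_of_nonneg_left himg (by omega)
    omega
  -- K ≥ 1
  have hK1 : 1 ≤ K := by
    by_contra hcon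
    have hK00 : K = 0 := by omega
    have hall : ∀ x ∈ F, ∀ y ∈ F, det (x - y) v = 0 := by
      intro x hx y hy
      rw [← hgsub]
      have h1 := hxamax x hx
      have h2 := hxamax y hy
      have h3 := hxbmin x hx
      have h4 := hxbmin y hy
      omega
    apply hpqs
    have h1 := hall q hq p hp
    have h2 := hall s hs p hp
    have h3 := det_mul (q - p) (s - p) v
    have h4 : det v (s - p) = 0 := by
      have : det v (s - p) = - det (s - p) v := by unfold det; ring
      rw [this, h2, neg_zero]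
    have h5 : det v (q - p) = 0 := by
      have : det v (q - p) = - det (q - p) v := by unfold det; ring
      rw [this, h1, neg_zero]
    rw [h4, h5] at h3
    have h6 : det (q - p) (s - p) * dot v v = 0 := by rw [h3]; ring
    rcases mul_eq_zero.1 h6 with h | h
    · exact h
    · exact absurd h hn.ne'
  -- K * L / n ≤ B
  have hKL : K * L ≤ B * n := by
    have h1 := det_mul (xa - xb) (c.1 - c.2) v
    have h2 : det v (c.1 - c.2) = 0 := by
      have : det v (c.1 - c.2) = - det (c.1 - c.2) v := by unfold det; ring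
      rw [this, ← hgsub, hc.2, sub_self, neg_zero]
    have h3 : det v (xa - xb) = -K := by
      have : det v (xa - xb) = - det (xa - xb) v := by unfold det; ring
      rw [this, ← hgsub]
    rw [h2, h3] at h1
    have h4 : det (xa - xb) (c.1 - c.2) * n = K * L := by
      rw [← hnv] at h1; rw [h1]; ring
    have h5 := hB xa hxa xb hxb c.1 hc.1.1 c.2 hc.1.2
    have h6 := le_trans (le_abs_self _) h5
    rw [← h4]
    exact mul_le_mul_of_nonneg_right h6 hn.le
  have hq1 : 1 ≤ L / n := by
    rw [Int.le_ediv_iff_mul_le hn]; omega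
  have h7 : (L / n) * n ≤ L := Int.ediv_mul_le L hn.ne'
  have h8 : K * (L / n) ≤ B := by
    have : (K * (L / n)) * n ≤ B * n := by
      calc (K * (L / n)) * n = K * ((L / n) * n) := by ring
        _ ≤ K * L := mul_le_mul_of_nonneg_left h7 hK0
        _ ≤ B * n := hKL
    exact le_of_mul_le_mul_right this hn
  nlinarith

/-- collinear version: the points are separated along the line by the shortest difference `v`. -/
theorem collinear_min (F : Finset GaussianInt) (hF : 1 < F.card)
    (hc : ∀ x ∈ F, ∀ y ∈ F, ∀ z ∈ F, det (y - x) (z - x) = 0) :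
    ∃ v : GaussianInt, v ≠ 0 ∧ ∃ x ∈ F, ∃ y ∈ F, ∃ t : ℝ, (F.card : ℝ) - 1 ≤ t ∧
      ((x - y).re : ℝ) = t * v.re ∧ ((x - y).im : ℝ) = t * v.im := by
  classical
  obtain ⟨x₀, hx₀, y₀, hy₀, hxy₀, hmin⟩ := exists_min_diff F hF
  set v := x₀ - y₀ with hv
  have hv0 : v ≠ 0 := sub_ne_zero.2 hxy₀
  have hn := dot_self_pos hv0
  have hpar : ∀ x ∈ F, ∀ y ∈ F, det (x - y) v = 0 := by
    intro x hx y hy
    have h1 := hc y₀ hy₀ x₀ hx₀ x hx
    have h2 := hc y₀ hy₀ x₀ hx₀ y hy
    have : det (x - y) v = - det (x₀ - y₀) (x - y₀) + det (x₀ - y₀) (y - y₀) := by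
      rw [hv]
      unfold det
      simp only [Zsqrtd.re_sub, Zsqrtd.im_sub]
      ring
    rw [this, h1, h2]; ring
  have hPne : (F ×ˢ F).Nonempty := ⟨(x₀, y₀), Finset.mk_mem_product hx₀ hy₀⟩
  obtain ⟨c, hcm, hcmax⟩ := Finset.exists_max_image (F ×ˢ F) (fun p => dot (p.1 - p.2) v) hPne
  rw [Finset.mem_product] at hcm
  have hL0 : 0 ≤ dot (c.1 - c.2) v := by
    have h := hcmax (x₀, y₀) (Finset.mk_mem_product hx₀ hy₀)
    simp only at h
    rw [← hv] at h
    omega
  have hcount := card_fibre_le F v hv0 (dot (c.1 - c.2) v) hL0 hmin hpar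
    (fun x hx y hy => hcmax (x, y) (Finset.mk_mem_product hx hy))
  refine ⟨v, hv0, c.1, hcm.1, c.2, hcm.2, (dot (c.1 - c.2) v : ℝ) / (dot v v : ℝ), ?_, ?_, ?_⟩
  · have h1 : ((F.card : ℤ) - 1) * dot v v ≤ dot (c.1 - c.2) v := by
      have h2 : dot (c.1 - c.2) v / dot v v * dot v v ≤ dot (c.1 - c.2) v :=
        Int.ediv_mul_le _ hn.ne'
      have h3 : ((F.card : ℤ) - 1) * dot v v ≤ dot (c.1 - c.2) v / dot v v * dot v v :=
        mul_le_mul_of_nonneg_right (by omega) hn.le
      omega
    rw [le_div_iff₀ (by exact_mod_cast hn)]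
    exact_mod_cast h1
  · have h1 := hpar c.1 hcm.1 c.2 hcm.2
    have hn' : (dot v v : ℝ) ≠ 0 := by exact_mod_cast hn.ne'
    rw [div_mul_eq_mul_div, eq_div_iff hn']
    have h2 : (c.1 - c.2).re * dot v v = dot (c.1 - c.2) v * v.re := by
      have h3 : (c.1 - c.2).re * dot v v - dot (c.1 - c.2) v * v.re
          = det (c.1 - c.2) v * v.im := by unfold dot det; ring
      rw [h1] at h3
      linarith
    exact_mod_cast h2
  · have h1 := hpar c.1 hcm.1 c.2 hcm.2
    have hn' : (dot v v : ℝ) ≠ 0 := by exact_mod_cast hn.ne'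
    rw [div_mul_eq_mul_div, eq_div_iff hn']
    have h2 : (c.1 - c.2).im * dot v v = dot (c.1 - c.2) v * v.im := by
      have h3 : (c.1 - c.2).im * dot v v - dot (c.1 - c.2) v * v.im
          = - det (c.1 - c.2) v * v.re := by unfold dot det; ring
      rw [h1] at h3
      linarith
    exact_mod_cast h2





/-- coprimality for disjoint blocks of primes, one for each conjugate pair -/
theorem coprime_blocks (S S' : Finset GaussianInt) (hS : ∀ p ∈ S, Prime p) (hS' : ∀ p ∈ S', Prime p)
    (h1 : ∀ p ∈ S, ∀ q ∈ S', ¬ Associated p q) (h2 : ∀ p ∈ S, ∀ q ∈ S, ¬ Associated p (star q))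
    (h3 : ∀ p ∈ S', ∀ q ∈ S', ¬ Associated p (star q)) :
    IsCoprime ((∏ p ∈ S, p) * star (∏ p ∈ S', p)) (star (∏ p ∈ S, p) * ∏ p ∈ S', p) := by
  have hprime_star : ∀ p : GaussianInt, Prime p → Prime (star p) := by
    intro p hp
    exact (MulEquiv.prime_iff (starRingAut (R := GaussianInt)).toMulEquiv).2 hp
  have hcop : ∀ p q : GaussianInt, Prime p → Prime q → ¬ Associated p q → IsCoprime p q := by
    intro p q hp hq hpq
    rw [hp.coprime_iff_not_dvd]
    intro h
    exact hpq (hp.irreducible.associated_of_dvd hq.irreducible h)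
  have hstarprod : ∀ T : Finset GaussianInt, star (∏ p ∈ T, p) = ∏ p ∈ T, star p := by
    intro T
    exact map_prod (starRingEnd GaussianInt) (fun p => p) T
  rw [hstarprod, hstarprod]
  refine IsCoprime.mul_left (IsCoprime.mul_right ?_ ?_) (IsCoprime.mul_right ?_ ?_)
  · exact IsCoprime.prod_left fun p hp => IsCoprime.prod_right fun q hq =>
      hcop _ _ (hS p hp) (hprime_star _ (hS q hq)) (h2 p hp q hq)
  · exact IsCoprime.prod_left fun p hp => IsCoprime.prod_right fun q hq =>
      hcop _ _ (hS p hp) (hS' q hq) (h1 p hp q hq)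
  · refine IsCoprime.prod_left fun p hp => IsCoprime.prod_right fun q hq =>
      hcop _ _ (hprime_star _ (hS' p hp)) (hprime_star _ (hS q hq)) ?_
    intro hass
    have : Associated p q := by
      have h := hass.map (starRingEnd GaussianInt)
      rw [starRingEnd_apply, starRingEnd_apply, star_star, star_star] at h
      exact h
    exact h1 q hq p hp this.symm
  · refine IsCoprime.prod_left fun p hp => IsCoprime.prod_right fun q hq =>
      hcop _ _ (hprime_star _ (hS' p hp)) (hS' q hq) ?_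
    intro hass
    exact h3 q hq p hp hass.symm


end Crest.Agent.R2.Rect297
end

-- ▼ part R2/Pair679

/-!
# R2 (Gaussian moat), block K8, per-point kernel: `pairKernel`
(Steps 5 + 6 of the near full Kac argument, helper149 #11294 / #11351, in the rectangle-free form).
-/

set_option autoImplicit false

namespace Crest.Agent.R2.K8

open Finset
open Crest.Agent.R2.Gcd62 (ab)
open Crest.Agent.R2.Rect297 (det dot det_mul_left card_le_of_noncollinear collinear_min
  coprime_blocks)

theorem ab_nonneg (z : GaussianInt) : 0 ≤ ab z := norm_nonneg _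

theorem ab_sq (z : GaussianInt) : ab z ^ 2 = ((dot z z : ℤ) : ℝ) := Rect297.ab_sq z

theorem ab_mul (z w : GaussianInt) : ab (z * w) = ab z * ab w := Rect297.ab_mul z w

theorem ab_sub_le (z w : GaussianInt) : ab (z - w) ≤ ab z + ab w := Rect297.ab_sub_le z w

theorem one_le_ab {z : GaussianInt} (hz : z ≠ 0) : 1 ≤ ab z := Rect297.one_le_ab hz

/-- a determinant of differences of four points of `F` is at most `4 C #F`. -/
theorem det_diff4 {F : Finset GaussianInt} {C : ℝ}
    (hdet : ∀ d ∈ F, ∀ e ∈ F, |(det d e : ℝ)| ≤ C * F.card)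
    {d d' e e' : GaussianInt} (hd : d ∈ F) (hd' : d' ∈ F) (he : e ∈ F) (he' : e' ∈ F) :
    |(det (d - d') (e - e') : ℝ)| ≤ 4 * C * F.card := by
  have h : (det (d - d') (e - e') : ℝ) = (det d e : ℝ) - det d e' - det d' e + det d' e' := by
    have : det (d - d') (e - e') = det d e - det d e' - det d' e + det d' e' := by
      unfold det
      simp only [Zsqrtd.re_sub, Zsqrtd.im_sub]
      ring
    rw [this]; push_cast; ring
  rw [h]
  have h1 := abs_le.1 (hdet d hd e he)
  have h2 := abs_le.1 (hdet d hd e' he')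
  have h3 := abs_le.1 (hdet d' hd' e he)
  have h4 := abs_le.1 (hdet d' hd' e' he')
  rw [abs_le]
  constructor <;> linarith [h1.1, h1.2, h2.1, h2.2, h3.1, h3.2, h4.1, h4.2]

open Classical in
/-- A heavy residue class lies on a line. -/
theorem bad_line {F : Finset GaussianInt} {C : ℝ}
    (hdet : ∀ d ∈ F, ∀ e ∈ F, |(det d e : ℝ)| ≤ C * F.card)
    {M : GaussianInt} (hM : M ≠ 0) (a : GaussianInt) {K : ℝ} (hK : 16 * C < K)
    (hF2 : 1 < (F.filter fun d => M ∣ d - a).card)
    (hbig : K * F.card < ((F.filter fun d => M ∣ d - a).card : ℝ) * ab M ^ 2) :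
    ∃ v : GaussianInt, v ≠ 0 ∧ ∃ d ∈ F, ∃ d' ∈ F, ∃ t : ℝ,
      ((F.filter fun d => M ∣ d - a).card : ℝ) - 1 ≤ t ∧
      ((d - d').re : ℝ) = t * ((M * v).re : ℝ) ∧ ((d - d').im : ℝ) = t * ((M * v).im : ℝ) := by
  set Fa := F.filter fun d => M ∣ d - a with hFa
  have hMp : 0 < ab M := lt_of_lt_of_le one_pos (one_le_ab hM)
  have hq : ∀ x : GaussianInt, ∃ z : GaussianInt, x ∈ Fa → x = a + M * z := by
    intro x
    by_cases hx : x ∈ Fa
    · obtain ⟨z, hz⟩ := (Finset.mem_filter.1 hx).2
      exact ⟨z, fun _ => by rw [← hz]; ring⟩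
    · exact ⟨0, fun h => absurd h hx⟩
  choose Q hQ using hq
  have hQinj : Set.InjOn Q (Fa : Set GaussianInt) := by
    intro x hx y hy hxy
    rw [hQ x hx, hQ y hy, hxy]
  set F1 := Fa.image Q with hF1
  have hcard : F1.card = Fa.card := Finset.card_image_of_injOn hQinj
  have hmemF1 : ∀ z ∈ F1, a + M * z ∈ F := by
    intro z hz
    rw [hF1, Finset.mem_image] at hz
    obtain ⟨x, hx, rfl⟩ := hz
    rw [← hQ x hx]; exact (Finset.mem_filter.1 hx).1
  have hcol : ∀ x ∈ F1, ∀ y ∈ F1, ∀ z ∈ F1, det (y - x) (z - x) = 0 := by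
    by_contra hcon
    push Not at hcon
    obtain ⟨x, hx, y, hy, z, hz, hxyz⟩ := hcon
    set B : ℤ := ⌊4 * C * F.card / ab M ^ 2⌋ with hB
    have hbound : ∀ x ∈ F1, ∀ x' ∈ F1, ∀ y ∈ F1, ∀ y' ∈ F1, |det (x - x') (y - y')| ≤ B := by
      intro x hx x' hx' y hy y' hy'
      rw [hB, Int.le_floor, le_div_iff₀ (by positivity)]
      have h1 := det_diff4 hdet (hmemF1 x hx) (hmemF1 x' hx') (hmemF1 y hy) (hmemF1 y' hy')
      have h2 : a + M * x - (a + M * x') = M * (x - x') := by ring
      have h3 : a + M * y - (a + M * y') = M * (y - y') := by ring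
      rw [h2, h3, det_mul_left] at h1
      push_cast at h1 ⊢
      rw [abs_mul, ← ab_sq, abs_of_nonneg (sq_nonneg _)] at h1
      linarith
    have h1 := card_le_of_noncollinear F1 B ⟨x, hx, y, hy, z, hz, hxyz⟩ hbound
    rw [hcard] at h1
    have h2 : (Fa.card : ℝ) ≤ 4 * B := by exact_mod_cast h1
    have h3 : (B : ℝ) ≤ 4 * C * F.card / ab M ^ 2 := Int.floor_le _
    have h4 : (Fa.card : ℝ) * ab M ^ 2 ≤ 16 * C * F.card := by
      have h5 : (B : ℝ) * ab M ^ 2 ≤ 4 * C * F.card := by
        rw [le_div_iff₀ (by positivity)] at h3; exact h3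
      nlinarith [mul_le_mul_of_nonneg_right h2 (sq_nonneg (ab M))]
    have h6 : (0 : ℝ) ≤ F.card := by positivity
    nlinarith [mul_le_mul_of_nonneg_right hK.le h6]
  obtain ⟨v, hv0, x, hx, y, hy, t, ht, hre, him⟩ := collinear_min F1 (by rw [hcard]; exact hF2) hcol
  rw [hcard] at ht
  refine ⟨v, hv0, _, hmemF1 x hx, _, hmemF1 y hy, t, ht, ?_, ?_⟩
  · have h2 : a + M * x - (a + M * y) = M * (x - y) := by ring
    rw [h2, Zsqrtd.re_mul, Zsqrtd.re_mul]
    push_cast
    rw [hre, him]; ring
  · have h2 : a + M * x - (a + M * y) = M * (x - y) := by ring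
    rw [h2, Zsqrtd.im_mul, Zsqrtd.im_mul]
    push_cast
    rw [hre, him]; ring

/-- the long difference of a heavy class bounds the direction vector -/
theorem ab_of_parallel {g w : GaussianInt} {t : ℝ} (ht : 0 ≤ t)
    (hre : (g.re : ℝ) = t * (w.re : ℝ)) (him : (g.im : ℝ) = t * (w.im : ℝ)) : ab g = t * ab w := by
  have h3 : ab g ^ 2 = (t * ab w) ^ 2 := by
    rw [mul_pow, ab_sq, ab_sq]
    unfold dot
    push_cast
    rw [hre, him]; ring
  exact (sq_eq_sq₀ (ab_nonneg _) (by have := ab_nonneg w; positivity)).1 h3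

open Classical in
/-- **Two blocks cannot both be bad** (rectangle-free form). -/
theorem two_bad {F : Finset GaussianInt} {C D K : ℝ} (hC : 0 < C) (hD : 0 < D)
    (hdet : ∀ d ∈ F, ∀ e ∈ F, |(det d e : ℝ)| ≤ C * F.card)
    (hn : ∀ d ∈ F, ab d ≤ D * F.card)
    (hK : 16 * C < K) (hK' : 4 * D < K)
    {M M' : GaussianInt} (hM : M ≠ 0) (hM' : M' ≠ 0)
    (hcop : IsCoprime (M * star M') (star M * M'))
    (hA : 16 * C * (ab M ^ 2 * ab M' ^ 2) < K ^ 2 * F.card)
    (a a' : GaussianInt)
    (hF2 : 1 < (F.filter fun d => M ∣ d - a).card)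
    (hbig : K * F.card < ((F.filter fun d => M ∣ d - a).card : ℝ) * ab M ^ 2)
    (hF2' : 1 < (F.filter fun d => M' ∣ d - a').card)
    (hbig' : K * F.card < ((F.filter fun d => M' ∣ d - a').card : ℝ) * ab M' ^ 2) : False := by
  have hMp : 0 < ab M := lt_of_lt_of_le one_pos (one_le_ab hM)
  have hMp' : 0 < ab M' := lt_of_lt_of_le one_pos (one_le_ab hM')
  have hK0 : 0 < K := by linarith
  have hFc : 0 < (F.card : ℝ) := by
    have h1 : (F.filter fun d => M ∣ d - a).card ≤ F.card := Finset.card_filter_le _ _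
    have : 0 < F.card := by omega
    exact_mod_cast this
  obtain ⟨v, hv0, d, hd, d', hd', t, ht, hre, him⟩ := bad_line hdet hM a hK hF2 hbig
  obtain ⟨v', hv0', e, he, e', he', t', ht', hre', him'⟩ := bad_line hdet hM' a' hK hF2' hbig'
  set n : ℝ := ((F.filter fun d => M ∣ d - a).card : ℝ) with hn'
  set n' : ℝ := ((F.filter fun d => M' ∣ d - a').card : ℝ) with hn''
  have hn2 : (2 : ℝ) ≤ n := by rw [hn']; exact_mod_cast hF2
  have hn2' : (2 : ℝ) ≤ n' := by rw [hn'']; exact_mod_cast hF2'
  have ht2 : n / 2 ≤ t := by linarith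
  have ht2' : n' / 2 ≤ t' := by linarith
  have ht0 : 0 < t := by linarith
  have ht0' : 0 < t' := by linarith
  -- lower bounds for t, t'
  have hlow : K * F.card ≤ 2 * t * ab M ^ 2 := by
    nlinarith [mul_le_mul_of_nonneg_right ht2 (sq_nonneg (ab M))]
  have hlow' : K * F.card ≤ 2 * t' * ab M' ^ 2 := by
    nlinarith [mul_le_mul_of_nonneg_right ht2' (sq_nonneg (ab M'))]
  -- short vectors
  have hshort : ∀ {M v d d' : GaussianInt} {t : ℝ}, M ≠ 0 → 0 < t → d ∈ F → d' ∈ F →
      ((d - d').re : ℝ) = t * ((M * v).re : ℝ) → ((d - d').im : ℝ) = t * ((M * v).im : ℝ) →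
      K * F.card ≤ 2 * t * ab M ^ 2 → ab v < ab M := by
    intro M v d d' t hM ht0 hd hd' hre him hlow
    have hMp : 0 < ab M := lt_of_lt_of_le one_pos (one_le_ab hM)
    have h1 := ab_of_parallel ht0.le hre him
    rw [ab_mul] at h1
    have h2 := ab_sub_le d d'
    have h3 := hn d hd
    have h4 := hn d' hd'
    have h5 : t * (ab M * ab v) ≤ 2 * D * F.card := by rw [← h1]; linarith
    by_contra hcon
    push Not at hcon
    have h6 : t * ab M ^ 2 ≤ t * (ab M * ab v) := by
      apply mul_le_mul_of_nonneg_left _ ht0.le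
      nlinarith
    have h7 : K * F.card ≤ 4 * D * F.card := by linarith
    have h8 := le_of_mul_le_mul_right h7 hFc
    linarith
  have hv1 := hshort hM ht0 hd hd' hre him hlow
  have hv1' := hshort hM' ht0' he he' hre' him' hlow'
  set w := M * v with hw
  set w' := M' * v' with hw'
  have hdet0 : det w w' = 0 := by
    have h1 := det_diff4 hdet hd hd' he he'
    have h2 : (det (d - d') (e - e') : ℝ) = t * t' * det w w' := by
      unfold det
      push_cast
      rw [hre, him, hre', him']; ring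
    rw [h2, abs_mul, abs_of_pos (mul_pos ht0 ht0')] at h1
    have h3 : |(det w w' : ℝ)| < 1 := by
      by_contra hcon
      push Not at hcon
      have h4 : t * t' ≤ 4 * C * F.card := by
        have := mul_le_mul_of_nonneg_left hcon (mul_pos ht0 ht0').le
        linarith
      have h5 : (K * F.card) * (K * F.card) ≤ (2 * t * ab M ^ 2) * (2 * t' * ab M' ^ 2) :=
        mul_le_mul hlow hlow' (by positivity) (by positivity)
      have h6 : (2 * t * ab M ^ 2) * (2 * t' * ab M' ^ 2)
          = 4 * (t * t') * (ab M ^ 2 * ab M' ^ 2) := by ring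
      have h7 : 4 * (t * t') * (ab M ^ 2 * ab M' ^ 2)
          ≤ 4 * (4 * C * F.card) * (ab M ^ 2 * ab M' ^ 2) := by
        apply mul_le_mul_of_nonneg_right _ (by positivity)
        linarith
      have h8 : K ^ 2 * F.card * F.card ≤ (16 * C * (ab M ^ 2 * ab M' ^ 2)) * F.card := by
        calc K ^ 2 * F.card * F.card = (K * F.card) * (K * F.card) := by ring
          _ ≤ _ := h5
          _ = _ := h6
          _ ≤ _ := h7
          _ = _ := by ring
      have h9 := le_of_mul_le_mul_right h8 hFc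
      linarith
    have h13 : |det w w'| < 1 := by exact_mod_cast h3
    exact Int.abs_lt_one_iff.1 h13
  have hstar : w * star w' = star w * w' := by
    unfold det at hdet0
    apply Zsqrtd.ext
    · simp only [Zsqrtd.re_mul, Zsqrtd.re_star, Zsqrtd.im_star]; ring
    · simp only [Zsqrtd.im_mul, Zsqrtd.re_star, Zsqrtd.im_star]
      linarith
  have hstar2 : (M * star M') * (v * star v') = (star M * M') * (star v * v') := by
    have h1 : w * star w' = (M * star M') * (v * star v') := by
      rw [hw, hw', star_mul]; ring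
    have h2 : star w * w' = (star M * M') * (star v * v') := by
      rw [hw, hw', star_mul]; ring
    rw [← h1, ← h2, hstar]
  have hdvd : M * star M' ∣ star v * v' := by
    have h1 : M * star M' ∣ (star M * M') * (star v * v') := ⟨_, hstar2.symm⟩
    exact hcop.dvd_of_dvd_mul_left h1
  have hsv : star v ≠ 0 := by rwa [Ne, star_eq_zero]
  have habs : ∀ z : GaussianInt, ab (star z) = ab z := by
    intro z
    have : ab (star z) ^ 2 = ab z ^ 2 := by
      rw [ab_sq, ab_sq]; unfold dot
      simp only [Zsqrtd.re_star, Zsqrtd.im_star]; push_cast; ring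
    exact (sq_eq_sq₀ (ab_nonneg _) (ab_nonneg _)).1 this
  obtain ⟨k, hk⟩ := hdvd
  have hk0 : k ≠ 0 := by
    rintro rfl
    rw [mul_zero] at hk
    rcases mul_eq_zero.1 hk with h | h
    · exact hsv h
    · exact hv0' h
  have h1 : ab M * ab M' ≤ ab v * ab v' := by
    have h2 : ab (star v * v') = ab M * ab M' * ab k := by
      rw [hk, ab_mul, ab_mul, habs]
    rw [ab_mul, habs] at h2
    rw [h2]
    have := one_le_ab hk0
    nlinarith [mul_pos hMp hMp']
  have hvp : 0 ≤ ab v := ab_nonneg v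
  have hvp' : 0 ≤ ab v' := ab_nonneg v'
  nlinarith

/-- norm of a product of primes -/
theorem prod_norm_eq (S : Finset GaussianInt) :
    (∏ p ∈ S, ((p.norm : ℤ) : ℝ)) = ab (∏ p ∈ S, p) ^ 2 := by
  have h1 : ∀ z : GaussianInt, ((z.norm : ℤ) : ℝ) = ab z ^ 2 := by
    intro z
    rw [ab_sq, Zsqrtd.norm_def]
    unfold dot
    push_cast; ring
  induction S using Finset.induction_on with
  | empty =>
    have : ab (1 : GaussianInt) = 1 := by
      change ‖GaussianInt.toComplex 1‖ = 1
      rw [map_one, norm_one]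
    simp [this]
  | insert p S hp ih =>
    rw [Finset.prod_insert hp, Finset.prod_insert hp, ih, h1, ab_mul]; ring

open Classical Pointwise in
/-- **The per-point kernel of K8.** -/
theorem pairKernel : PairKernelStmt := by
  intro D hD δ hδ
  set C : ℝ := (4 * ⌊D⌋₊ + 1) ^ 2 with hC
  have hC1 : 1 ≤ C := by
    rw [hC]
    have : (0 : ℝ) ≤ (⌊D⌋₊ : ℝ) := by positivity
    nlinarith
  have hC0 : 0 < C := by linarith
  have hD0 : 0 < D := by linarith
  refine ⟨max D ((16 * C + 4 * D) / δ), ?_⟩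
  intro b hb E hE z hz 𝒮 hS hSn
  have hbD : D ≤ b := (le_max_left _ _).trans hb
  have hb0 : 0 < b := by linarith
  have hbδ : 16 * C + 4 * D ≤ δ * b := by
    have := (le_max_right _ _).trans hb
    rw [div_le_iff₀ hδ] at this
    linarith
  set K : ℝ := Real.exp (δ * b) with hK
  have hKbig : 16 * C + 4 * D < K := by
    have := Real.add_one_le_exp (δ * b)
    linarith
  have hK0 : 0 < K := Real.exp_pos _
  -- the path
  obtain ⟨n₀, γ, hγ0, hγE, hγD, hγX⟩ := hE z hz (Real.exp (3 * b))
  have hex : ∃ n, Real.exp (3 * b) ≤ ab (γ n - z) := ⟨n₀, hγX⟩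
  set n := Nat.find hex with hn
  have hnn₀ : n ≤ n₀ := Nat.find_min' hex hγX
  have hnX : Real.exp (3 * b) ≤ ab (γ n - z) := Nat.find_spec hex
  have hlt : ∀ i < n, ab (γ i - z) < Real.exp (3 * b) := by
    intro i hi
    have := Nat.find_min hex hi
    push Not at this
    exact this
  have hexpD : Real.exp (3 * b) + D ≤ Real.exp (4 * b) := by
    have h1 : Real.exp (4 * b) = Real.exp b * Real.exp (3 * b) := by
      rw [← Real.exp_add]; ring_nf
    have h2 : b + 1 ≤ Real.exp b := Real.add_one_le_exp b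
    have h3 : 1 ≤ Real.exp (3 * b) := Real.one_le_exp (by linarith)
    rw [h1]
    nlinarith
  have hle : ∀ i ≤ n, ab (γ i - z) ≤ Real.exp (4 * b) := by
    intro i hi
    rcases hi.lt_or_eq with h | h
    · have := hlt i h
      linarith
    · subst h
      have hpos : 0 < n := by
        rcases Nat.eq_zero_or_pos n with h0 | h0
        · exfalso
          have hz0 : ab (0 : GaussianInt) = 0 := by
            change ‖GaussianInt.toComplex 0‖ = 0
            rw [map_zero, norm_zero]
          rw [h0, hγ0, sub_self, hz0] at hnX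
          exact absurd (Real.exp_pos (3 * b)) (not_lt.2 hnX)
        · exact h0
      obtain ⟨m, hm⟩ : ∃ m, n = m + 1 := ⟨n - 1, by omega⟩
      have h1 := hlt m (by omega)
      have h2 := hγD m (by omega)
      have h3 : ab (γ n - z) ≤ ab (γ (m + 1) - γ m) + ab (γ m - z) := by
        rw [hm]
        have : γ (m + 1) - z = (γ (m + 1) - γ m) + (γ m - z) := by ring
        rw [this]
        change ‖GaussianInt.toComplex _‖ ≤ _
        rw [map_add]
        exact norm_add_le _ _
      linarith
  set Γ : Finset GaussianInt := (Finset.range (n + 1)).image γ with hΓ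
  have hmemΓ : ∀ x ∈ Γ, ∃ i ≤ n, γ i = x := by
    intro x hx
    rw [hΓ, Finset.mem_image] at hx
    obtain ⟨i, hi, rfl⟩ := hx
    exact ⟨i, by simpa [Nat.lt_succ_iff] using hi, rfl⟩
  have hΓmem : ∀ i ≤ n, γ i ∈ Γ := by
    intro i hi
    rw [hΓ, Finset.mem_image]
    exact ⟨i, by simpa [Nat.lt_succ_iff] using hi, rfl⟩
  have hpath : T635.DPath D Γ n γ := by
    refine ⟨fun i hi => hγD i (by omega), hΓmem⟩
  set F : Finset GaussianInt := Γ - Γ with hF
  have hmemF : ∀ d ∈ F, ∃ i ≤ n, ∃ j ≤ n, γ j - γ i = d := by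
    intro d hd
    rw [hF, Finset.mem_sub] at hd
    obtain ⟨x, hx, y, hy, rfl⟩ := hd
    obtain ⟨i, hi, rfl⟩ := hmemΓ x hx
    obtain ⟨j, hj, rfl⟩ := hmemΓ y hy
    exact ⟨j, hj, i, hi, rfl⟩
  have hdet : ∀ d ∈ F, ∀ e ∈ F, |(det d e : ℝ)| ≤ C * F.card := by
    intro d hd e he
    obtain ⟨i, hi, j, hj, rfl⟩ := hmemF d hd
    obtain ⟨k, hk, l, hl, rfl⟩ := hmemF e he
    exact T635.dpath_det_le hpath hi hj hk hl
  have hΓF : (Γ.card : ℝ) ≤ F.card := by
    have h1 : Γ.card ≤ F.card := by
      have hne : Γ.Nonempty := ⟨γ 0, hΓmem 0 (Nat.zero_le _)⟩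
      rw [hF]
      exact Finset.card_le_card_sub_right hne
    exact_mod_cast h1
  have hnorm : ∀ d ∈ F, ab d ≤ D * F.card := by
    intro d hd
    obtain ⟨i, hi, j, hj, rfl⟩ := hmemF d hd
    have h1 := hpath.norm_le hD0.le hi hj
    exact h1.trans (mul_le_mul_of_nonneg_left hΓF hD0.le)
  have hFbig : Real.exp (3 * b) ≤ D * F.card := by
    have h1 : γ n - z ∈ F := by
      rw [hF, ← hγ0]
      exact Finset.sub_mem_sub (hΓmem n le_rfl) (hΓmem 0 (Nat.zero_le _))
    exact hnX.trans (hnorm _ h1)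
  have hFc : 0 < (F.card : ℝ) := by
    have := Real.exp_pos (3 * b)
    by_contra hcon
    push Not at hcon
    nlinarith
  have hFne : F.Nonempty := by
    rw [← Finset.card_pos]; exact_mod_cast hFc
  -- choice of the pair
  have hch : ∀ d : GaussianInt, ∃ p : GaussianInt × GaussianInt, d ∈ F →
      p.1 - p.2 = d ∧ (z + p.1 ∈ E ∧ z + p.2 ∈ E) ∧
        (ab p.1 ≤ Real.exp (4 * b) ∧ ab p.2 ≤ Real.exp (4 * b)) := by
    intro d
    by_cases hd : d ∈ F
    · obtain ⟨i, hi, j, hj, rfl⟩ := hmemF d hd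
      refine ⟨(γ j - z, γ i - z), fun _ => ⟨by simp, ⟨?_, ?_⟩, hle j hj, hle i hi⟩⟩
      · have : z + (γ j - z) = γ j := by ring
        simp only
        rw [this]
        exact hγE j (hj.trans hnn₀)
      · have : z + (γ i - z) = γ i := by ring
        simp only
        rw [this]
        exact hγE i (hi.trans hnn₀)
    · exact ⟨(0, 0), fun h => absurd h hd⟩
  choose p hp using hch
  refine ⟨F, fun d => (p d).1, fun d => (p d).2, hFne, ?_, ?_⟩
  · intro d hd
    obtain ⟨h1, ⟨h2, h3⟩, h4, h5⟩ := hp d hd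
    exact ⟨h1, h2, h3, h4, h5⟩
  -- at most one bad block
  have hMne : ∀ S ∈ 𝒮, (∏ p ∈ S, p) ≠ 0 := fun S hSm =>
    Finset.prod_ne_zero_iff.2 fun p hp => (hS.prime S hSm p hp).ne_zero
  have hN : ∀ S ∈ 𝒮, ab (∏ p ∈ S, p) ^ 2 ≤ Real.exp b := by
    intro S hSm
    rw [← prod_norm_eq]; exact hSn S hSm
  have hexp3 : Real.exp (3 * b) = Real.exp b * Real.exp b * Real.exp b := by
    rw [← Real.exp_add, ← Real.exp_add]; ring_nf
  have he1 : 1 ≤ Real.exp b := Real.one_le_exp hb0.le
  have htwo : ∀ S ∈ 𝒮, ∀ a : GaussianInt,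
      K * F.card < ((F.filter fun d => (∏ p ∈ S, p) ∣ d - a).card : ℝ) * ab (∏ p ∈ S, p) ^ 2 →
      1 < (F.filter fun d => (∏ p ∈ S, p) ∣ d - a).card := by
    intro S hSm a hbig
    have h1 := hN S hSm
    set n1 : ℝ := ((F.filter fun d => (∏ p ∈ S, p) ∣ d - a).card : ℝ) with hn1
    have h2 : 0 ≤ n1 := by positivity
    have h3 : n1 * ab (∏ p ∈ S, p) ^ 2 ≤ n1 * Real.exp b := mul_le_mul_of_nonneg_left h1 h2
    have h4 : 4 * D * F.card ≤ K * F.card := mul_le_mul_of_nonneg_right (by linarith) hFc.le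
    have h5 : 4 * (Real.exp b * Real.exp b * Real.exp b) < n1 * Real.exp b := by
      rw [← hexp3]; linarith
    have h6 : 4 * (Real.exp b * Real.exp b) < n1 := by
      have h7 : (4 * (Real.exp b * Real.exp b)) * Real.exp b < n1 * Real.exp b := by linarith
      exact lt_of_mul_lt_mul_right h7 (Real.exp_pos b).le
    have h8 : (1 : ℝ) < n1 := by nlinarith
    rw [hn1] at h8
    exact_mod_cast h8
  by_cases hall : ∀ S ∈ 𝒮, ∀ a : GaussianInt,
      ((F.filter fun d => (∏ p ∈ S, p) ∣ d - a).card : ℝ) * ab (∏ p ∈ S, p) ^ 2 ≤ K * F.card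
  · refine ⟨∅, fun S hSm _ a => ?_⟩
    rw [prod_norm_eq]
    exact hall S hSm a
  · push Not at hall
    obtain ⟨S₀, hS₀, a₀, hbig₀⟩ := hall
    refine ⟨S₀, fun S hSm hne a => ?_⟩
    rw [prod_norm_eq]
    by_contra hbig
    push Not at hbig
    have hcop := coprime_blocks S₀ S (hS.prime S₀ hS₀) (hS.prime S hSm)
      (fun p hp q hq hass => by
        have h1 := hS.nonassoc S₀ hS₀ S hSm p hp q hq hass
        subst h1
        exact Finset.disjoint_left.1 (hS.disj S₀ hS₀ S hSm (Ne.symm hne)) hp hq)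
      (fun p hp q hq => hS.star S₀ hS₀ S₀ hS₀ p hp q hq)
      (fun p hp q hq => hS.star S hSm S hSm p hp q hq)
    have hA : 16 * C * (ab (∏ p ∈ S₀, p) ^ 2 * ab (∏ p ∈ S, p) ^ 2) < K ^ 2 * F.card := by
      have h1 : ab (∏ p ∈ S₀, p) ^ 2 * ab (∏ p ∈ S, p) ^ 2 ≤ Real.exp b * Real.exp b :=
        mul_le_mul (hN S₀ hS₀) (hN S hSm) (by positivity) (by positivity)
      have h2 : Real.exp b * Real.exp b ≤ Real.exp (3 * b) := by
        rw [hexp3]; nlinarith [mul_pos (Real.exp_pos b) (Real.exp_pos b)]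
      have h3 : 16 * C * (ab (∏ p ∈ S₀, p) ^ 2 * ab (∏ p ∈ S, p) ^ 2) ≤ 16 * C * (D * F.card) := by
        apply mul_le_mul_of_nonneg_left _ (by positivity)
        linarith
      have h4 : 16 * C * (D * F.card) < K ^ 2 * F.card := by
        have h5 : 16 * C * D < K ^ 2 := by
          have h6 : 16 * C < K := by linarith
          have h7 : D < K := by linarith
          nlinarith
        nlinarith
      linarith
    exact two_bad hC0 hD0 hdet hnorm (by linarith) (by linarith) (hMne S₀ hS₀) (hMne S hSm) hcop hA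
      a₀ a (htwo S₀ hS₀ a₀ hbig₀) hbig₀ (htwo S hSm a hbig) hbig

end Crest.Agent.R2.K8
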