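import Crest.Agent.R2.Kac587f
import Crest.Agent.R2.Pair679
import Mathlib
import Crest.Agent.R2.Defs149
import Crest.Agent.R2.Shape911
import Crest.Agent.R2.End911n

-- ▼ part R2/Kac587
section

/-!
# R2 (Gaussian moat), block K8: near-full Kac
-/

set_option autoImplicit false

namespace Crest.Agent.R2.K8

/-- **Near-full Kac** (block K8 of #11399). -/
theorem kacStmt : X149.KacStmt := kacStmt_of_pair pairKernel

end Crest.Agent.R2.K8
end

-- ▼ part R2/NoDrop640a
section

/-!
# R2 (Gaussian moat), block N1+N2 (helper640), part a: the information inequality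

Finite, entropy-free form of (2.1)-(2.4) of post #11312.
-/

set_option autoImplicit false

namespace Crest.Agent.R2.N640

open Finset

section Info

variable {ζ A Γ σ : Type*} [DecidableEq A] [DecidableEq Γ]

/-- mass of the fibre of `a` over `α` -/
noncomputable def fm {A : Type*} [DecidableEq A] (Z : Finset ζ) (ν : ζ → ℝ) (a : ζ → A) (α : A) : ℝ :=
  ∑ z ∈ Z with a z = α, ν z

/-- Shannon entropy of `a` under `ν` (nats) -/
noncomputable def Hn {A : Type*} [DecidableEq A] (Z : Finset ζ) (ν : ζ → ℝ) (a : ζ → A) : ℝ :=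
  ∑ z ∈ Z, ν z * (- Real.log (fm Z ν a (a z)))

lemma fm_nonneg {Z : Finset ζ} {ν : ζ → ℝ} (hν : ∀ z ∈ Z, 0 ≤ ν z) (a : ζ → A) (α : A) :
    0 ≤ fm Z ν a α :=
  Finset.sum_nonneg (fun z hz => hν z (Finset.mem_filter.1 hz).1)

lemma le_fm {Z : Finset ζ} {ν : ζ → ℝ} (hν : ∀ z ∈ Z, 0 ≤ ν z) (a : ζ → A) {z : ζ} (hz : z ∈ Z) :
    ν z ≤ fm Z ν a (a z) :=
  Finset.single_le_sum (f := ν) (fun y hy => hν y (Finset.mem_filter.1 hy).1)
    (Finset.mem_filter.2 ⟨hz, rfl⟩)

/-- product weights -/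
lemma sum_piFinset_prod (S : Finset σ) (f : σ → ℝ) (q : ℕ) :
    ∑ W ∈ Fintype.piFinset (fun _ : Fin q => S), ∏ i, f (W i) = (∑ s ∈ S, f s) ^ q := by
  rw [Finset.sum_pow']

/-- one marginal of the product weights -/
lemma sum_piFinset_marg (S : Finset σ) (p f : σ → ℝ) (q : ℕ) (j : Fin q)
    (hp : ∑ s ∈ S, p s = 1) :
    ∑ W ∈ Fintype.piFinset (fun _ : Fin q => S), (∏ i, p (W i)) * f (W j)
      = ∑ s ∈ S, p s * f s := by
  classical
  have h := Finset.prod_univ_sum (fun _ : Fin q => S)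
    (fun i s => if i = j then p s * f s else p s)
  have h1 : ∀ W : Fin q → σ, (∏ i, if i = j then p (W i) * f (W i) else p (W i))
      = (∏ i, p (W i)) * f (W j) := by
    intro W
    have : ∀ i, (if i = j then p (W i) * f (W i) else p (W i))
        = p (W i) * (if i = j then f (W i) else 1) := by
      intro i; split_ifs <;> simp
    simp_rw [this]
    rw [Finset.prod_mul_distrib]
    congr 1
    rw [Finset.prod_ite_eq' Finset.univ j (fun i => f (W i))]
    simp
  rw [Finset.sum_congr rfl (fun W _ => (h1 W).symm), ← h]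
  have h2 : ∀ i : Fin q, ∑ s ∈ S, (if i = j then p s * f s else p s)
      = if i = j then ∑ s ∈ S, p s * f s else 1 := by
    intro i
    split_ifs
    · rfl
    · exact hp
  rw [Finset.prod_congr rfl (fun i _ => h2 i), Finset.prod_ite_eq' Finset.univ j]
  simp

/-- **Information inequality** (finite form of `H(g) ≤ H(a) + H(W|a) - H(W|z) + H(g|W)`). -/
theorem info_ineq (Z : Finset ζ) (ν : ζ → ℝ) (hν : ∀ z ∈ Z, 0 ≤ ν z) (hν1 : ∑ z ∈ Z, ν z = 1)
    (a : ζ → A) (g : ζ → Γ) (S : Finset σ) (p : ζ → σ → ℝ)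
    (hp : ∀ z ∈ Z, ∀ s ∈ S, 0 ≤ p z s) (hp1 : ∀ z ∈ Z, ∑ s ∈ S, p z s = 1)
    (r : A → σ → ℝ) (hr : ∀ α, ∀ s ∈ S, 0 ≤ r α s) (hr1 : ∀ α, ∑ s ∈ S, r α s ≤ 1)
    (hpr : ∀ z ∈ Z, ∀ s ∈ S, 0 < p z s → 0 < r (a z) s) (q : ℕ)
    (ms : (Fin q → σ) → Finset Γ)
    (hms : ∀ z ∈ Z, ∀ W ∈ Fintype.piFinset (fun _ : Fin q => S),
      (∀ i, 0 < p z (W i)) → g z ∈ ms W) :
    Hn Z ν g ≤ Hn Z ν a
      + q * ∑ z ∈ Z, ν z * ∑ s ∈ S, p z s * (Real.log (p z s) - Real.log (r (a z) s))
      + ∑ z ∈ Z, ν z * ∑ W ∈ Fintype.piFinset (fun _ : Fin q => S),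
          (∏ i, p z (W i)) * Real.log ((ms W).card) := by
  classical
  set PW := Fintype.piFinset (fun _ : Fin q => S) with hPW
  have hWmem : ∀ W ∈ PW, ∀ i, W i ∈ S := fun W hW i => Fintype.mem_piFinset.1 hW i
  -- the comparison function
  let Y : ζ → (Fin q → σ) → ℝ := fun z W =>
    if g z ∈ ms W then
      ν z / fm Z ν g (g z) * (fm Z ν a (a z) * ∏ i, r (a z) (W i)) / ((ms W).card : ℝ) else 0
  have hsum1 : ∀ z ∈ Z, ∑ W ∈ PW, ∏ i, p z (W i) = 1 := by
    intro z hz
    rw [hPW, sum_piFinset_prod, hp1 z hz, one_pow]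
  -- pointwise inequality
  have hpt : ∀ z ∈ Z, ∀ W ∈ PW,
      ν z * (∏ i, p z (W i)) * (Real.log (fm Z ν a (a z))
        + ∑ i, (Real.log (r (a z) (W i)) - Real.log (p z (W i)))
        - Real.log (fm Z ν g (g z)) - Real.log ((ms W).card))
      ≤ Y z W - ν z * (∏ i, p z (W i)) := by
    intro z hz W hW
    have hYnn : 0 ≤ Y z W := by
      simp only [Y]
      split_ifs
      · have := fm_nonneg hν g (g z)
        have h2 := fm_nonneg hν a (a z)
        have h3 : 0 ≤ ∏ i, r (a z) (W i) := Finset.prod_nonneg (fun i _ => hr _ _ (hWmem W hW i))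
        have h4 := hν z hz
        positivity
      · exact le_refl _
    by_cases h0 : ν z * (∏ i, p z (W i)) = 0
    · rw [h0]; simpa using hYnn
    have hνpos : 0 < ν z := lt_of_le_of_ne (hν z hz) (fun h => h0 (by rw [← h]; ring))
    have hprodne : (∏ i, p z (W i)) ≠ 0 := fun h => h0 (by rw [h]; ring)
    have hppos : ∀ i, 0 < p z (W i) := by
      intro i
      refine lt_of_le_of_ne (hp z hz _ (hWmem W hW i)) (fun h => hprodne ?_)
      exact Finset.prod_eq_zero (Finset.mem_univ i) h.symm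
    have hrpos : ∀ i, 0 < r (a z) (W i) := fun i => hpr z hz _ (hWmem W hW i) (hppos i)
    have hgm : g z ∈ ms W := hms z hz W hW hppos
    have hcard : (0:ℝ) < (ms W).card := by
      have : 0 < (ms W).card := Finset.card_pos.2 ⟨_, hgm⟩
      exact_mod_cast this
    have hfa : 0 < fm Z ν a (a z) := lt_of_lt_of_le hνpos (le_fm hν a hz)
    have hfg : 0 < fm Z ν g (g z) := lt_of_lt_of_le hνpos (le_fm hν g hz)
    have hprodp : 0 < ∏ i, p z (W i) := Finset.prod_pos (fun i _ => hppos i)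
    have hprodr : 0 < ∏ i, r (a z) (W i) := Finset.prod_pos (fun i _ => hrpos i)
    have hYv : Y z W = ν z * (∏ i, p z (W i)) *
        (fm Z ν a (a z) * (∏ i, r (a z) (W i)) / ((∏ i, p z (W i)) * fm Z ν g (g z) * (ms W).card)) := by
      simp only [Y, if_pos hgm]
      field_simp
    set X := fm Z ν a (a z) * (∏ i, r (a z) (W i)) /
      ((∏ i, p z (W i)) * fm Z ν g (g z) * (ms W).card) with hX
    have hXpos : 0 < X := by positivity
    have hlog : Real.log X = Real.log (fm Z ν a (a z))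
        + ∑ i, (Real.log (r (a z) (W i)) - Real.log (p z (W i)))
        - Real.log (fm Z ν g (g z)) - Real.log ((ms W).card) := by
      rw [hX, Real.log_div (by positivity) (by positivity),
        Real.log_mul hfa.ne' hprodr.ne', Real.log_mul (by positivity) hcard.ne',
        Real.log_mul hprodp.ne' hfg.ne', Real.log_prod (fun i _ => (hppos i).ne'),
        Real.log_prod (fun i _ => (hrpos i).ne'), Finset.sum_sub_distrib]
      ring
    rw [← hlog, hYv]
    have := Real.log_le_sub_one_of_pos hXpos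
    have hw : 0 ≤ ν z * (∏ i, p z (W i)) := by positivity
    nlinarith [mul_le_mul_of_nonneg_left this hw]
  -- total of Y
  have hYsum : ∑ z ∈ Z, ∑ W ∈ PW, Y z W ≤ 1 := by
    rw [Finset.sum_comm]
    -- for fixed W
    have hW1 : ∀ W ∈ PW, ∑ z ∈ Z, Y z W ≤ ∑ α ∈ Z.image a, fm Z ν a α * ∏ i, r α (W i) := by
      intro W hW
      have hΨ : ∀ α, 0 ≤ fm Z ν a α * ∏ i, r α (W i) := fun α =>
        mul_nonneg (fm_nonneg hν a α) (Finset.prod_nonneg (fun i _ => hr _ _ (hWmem W hW i)))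
      set T := ∑ α ∈ Z.image a, fm Z ν a α * ∏ i, r α (W i) with hT
      have hT0 : 0 ≤ T := Finset.sum_nonneg (fun α _ => hΨ α)
      have hle : ∀ z ∈ Z, Y z W ≤ if g z ∈ ms W then ν z / fm Z ν g (g z) * T / ((ms W).card : ℝ) else 0 := by
        intro z hz
        simp only [Y]
        split_ifs with h
        · have h1 : fm Z ν a (a z) * ∏ i, r (a z) (W i) ≤ T :=
            Finset.single_le_sum (f := fun α => fm Z ν a α * ∏ i, r α (W i)) (fun α _ => hΨ α)
              (Finset.mem_image_of_mem a hz)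
          have h2 : 0 ≤ ν z / fm Z ν g (g z) := div_nonneg (hν z hz) (fm_nonneg hν g _)
          gcongr
        · exact le_refl _
      refine (Finset.sum_le_sum hle).trans ?_
      rw [← Finset.sum_filter]
      -- group by g
      have hg : ∑ z ∈ Z with g z ∈ ms W, ν z / fm Z ν g (g z) * T / ((ms W).card : ℝ)
          = ∑ γ ∈ ms W, ∑ z ∈ Z with g z = γ, ν z / fm Z ν g (g z) * T / ((ms W).card : ℝ) := by
        rw [Finset.sum_filter]
        have : ∀ z ∈ Z, (if g z ∈ ms W then ν z / fm Z ν g (g z) * T / ((ms W).card : ℝ) else 0)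
            = ∑ γ ∈ ms W, if g z = γ then ν z / fm Z ν g (g z) * T / ((ms W).card : ℝ) else 0 := by
          intro z _
          rw [Finset.sum_ite_eq]
        rw [Finset.sum_congr rfl this, Finset.sum_comm]
        refine Finset.sum_congr rfl (fun γ _ => ?_)
        rw [Finset.sum_filter]
      rw [hg]
      by_cases hm : (ms W).card = 0
      · rw [Finset.card_eq_zero] at hm
        rw [hm]; simpa using hT0
      have hmpos : (0:ℝ) < (ms W).card := by exact_mod_cast Nat.pos_of_ne_zero hm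
      have hin : ∀ γ ∈ ms W, ∑ z ∈ Z with g z = γ, ν z / fm Z ν g (g z) * T / ((ms W).card : ℝ)
          ≤ T / (ms W).card := by
        intro γ _
        have : ∀ z ∈ Z.filter (fun z => g z = γ), ν z / fm Z ν g (g z) * T / ((ms W).card : ℝ)
            = ν z * (T / (ms W).card / fm Z ν g γ) := by
          intro z hz
          rw [(Finset.mem_filter.1 hz).2]
          ring
        rw [Finset.sum_congr rfl this, ← Finset.sum_mul]
        change fm Z ν g γ * _ ≤ _
        by_cases h0 : fm Z ν g γ = 0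
        · rw [h0]; simp; positivity
        · rw [mul_div_cancel₀ _ h0]
      refine (Finset.sum_le_sum hin).trans ?_
      rw [Finset.sum_const, nsmul_eq_mul]
      rw [mul_div_cancel₀ _ hmpos.ne']
    refine (Finset.sum_le_sum hW1).trans ?_
    rw [Finset.sum_comm]
    have h3 : ∀ α ∈ Z.image a, ∑ W ∈ PW, fm Z ν a α * ∏ i, r α (W i) ≤ fm Z ν a α := by
      intro α _
      rw [← Finset.mul_sum, hPW, sum_piFinset_prod]
      have h4 : (∑ s ∈ S, r α s) ^ q ≤ 1 :=
        pow_le_one₀ (Finset.sum_nonneg (fun s hs => hr α s hs)) (hr1 α)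
      calc _ ≤ fm Z ν a α * 1 := mul_le_mul_of_nonneg_left h4 (fm_nonneg hν a α)
        _ = _ := mul_one _
    refine (Finset.sum_le_sum h3).trans ?_
    unfold fm
    rw [Finset.sum_image' (s := Z) (g := a) ν (fun z _ => rfl)]
    exact hν1.le
  -- sum up
  have hmain : ∑ z ∈ Z, ∑ W ∈ PW, ν z * (∏ i, p z (W i)) * (Real.log (fm Z ν a (a z))
        + ∑ i, (Real.log (r (a z) (W i)) - Real.log (p z (W i)))
        - Real.log (fm Z ν g (g z)) - Real.log ((ms W).card)) ≤ 0 := by
    have h5 := Finset.sum_le_sum (fun z hz => Finset.sum_le_sum (fun W hW => hpt z hz W hW))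
    refine h5.trans ?_
    simp_rw [Finset.sum_sub_distrib]
    have h6 : ∑ z ∈ Z, ∑ W ∈ PW, ν z * (∏ i, p z (W i)) = 1 := by
      have : ∀ z ∈ Z, ∑ W ∈ PW, ν z * (∏ i, p z (W i)) = ν z := by
        intro z hz
        rw [← Finset.mul_sum, hsum1 z hz, mul_one]
      rw [Finset.sum_congr rfl this, hν1]
    linarith [h6, hYsum]
  -- evaluate the left side
  have heval : ∀ z ∈ Z, ∑ W ∈ PW, ν z * (∏ i, p z (W i)) * (Real.log (fm Z ν a (a z))
        + ∑ i, (Real.log (r (a z) (W i)) - Real.log (p z (W i)))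
        - Real.log (fm Z ν g (g z)) - Real.log ((ms W).card))
      = ν z * (-Real.log (fm Z ν g (g z))) - ν z * (-Real.log (fm Z ν a (a z)))
        - q * (ν z * ∑ s ∈ S, p z s * (Real.log (p z s) - Real.log (r (a z) s)))
        - ν z * ∑ W ∈ PW, (∏ i, p z (W i)) * Real.log ((ms W).card) := by
    intro z hz
    have e1 : ∑ W ∈ PW, (∏ i, p z (W i)) *
        ∑ i, (Real.log (r (a z) (W i)) - Real.log (p z (W i)))
        = q * ∑ s ∈ S, p z s * (Real.log (r (a z) s) - Real.log (p z s)) := by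
      simp_rw [Finset.mul_sum]
      rw [Finset.sum_comm]
      have : ∀ j : Fin q, ∑ W ∈ PW, (∏ i, p z (W i)) *
          (Real.log (r (a z) (W j)) - Real.log (p z (W j)))
          = ∑ s ∈ S, p z s * (Real.log (r (a z) s) - Real.log (p z s)) := fun j =>
        sum_piFinset_marg S (p z) (fun s => Real.log (r (a z) s) - Real.log (p z s)) q j (hp1 z hz)
      rw [Finset.sum_congr rfl (fun j _ => this j)]
      simp [Finset.mul_sum]
    have e2 : ∑ s ∈ S, p z s * (Real.log (r (a z) s) - Real.log (p z s))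
        = - ∑ s ∈ S, p z s * (Real.log (p z s) - Real.log (r (a z) s)) := by
      rw [← Finset.sum_neg_distrib]
      exact Finset.sum_congr rfl (fun s _ => by ring)
    have e3 : ∀ W ∈ PW, ν z * (∏ i, p z (W i)) * (Real.log (fm Z ν a (a z))
        + ∑ i, (Real.log (r (a z) (W i)) - Real.log (p z (W i)))
        - Real.log (fm Z ν g (g z)) - Real.log ((ms W).card))
        = ν z * (Real.log (fm Z ν a (a z)) - Real.log (fm Z ν g (g z))) * (∏ i, p z (W i))
          + ν z * ((∏ i, p z (W i)) * ∑ i, (Real.log (r (a z) (W i)) - Real.log (p z (W i))))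
          - ν z * ((∏ i, p z (W i)) * Real.log ((ms W).card)) := by
      intro W _; ring
    rw [Finset.sum_congr rfl e3, Finset.sum_sub_distrib, Finset.sum_add_distrib,
      ← Finset.mul_sum, ← Finset.mul_sum, ← Finset.mul_sum, hsum1 z hz, e1, e2]
    ring
  rw [Finset.sum_congr rfl heval] at hmain
  simp only [Finset.sum_sub_distrib, ← Finset.mul_sum] at hmain
  unfold Hn
  linarith [hmain]

end Info

end Crest.Agent.R2.N640
end

-- ▼ part R2/NoDrop640b
section

/-!
# R2 (Gaussian moat), block N1+N2 (helper640), part b: residues modulo split primes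
-/

set_option autoImplicit false

namespace Crest.Agent.R2.N640

open Finset

/-- `π` has norm a rational prime -/
def Split (π : GaussianInt) : Prop := Nat.Prime π.norm.natAbs

/-- the norm as a natural number -/
def Nn (π : GaussianInt) : ℕ := π.norm.natAbs

lemma norm_nonneg' (z : GaussianInt) : 0 ≤ z.norm := by
  simp only [Zsqrtd.norm_def]
  nlinarith [mul_self_nonneg z.re, mul_self_nonneg z.im]

lemma Nn_cast (π : GaussianInt) : ((Nn π : ℕ) : ℤ) = π.norm :=
  Int.natAbs_of_nonneg (norm_nonneg' π)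

lemma dvd_Nn (π : GaussianInt) : π ∣ ((Nn π : ℕ) : GaussianInt) := by
  refine ⟨star π, ?_⟩
  have h := Zsqrtd.norm_eq_mul_conj π
  rw [← h]
  have := Nn_cast π
  push_cast [← this]
  rfl

/-- residues are represented by natural numbers below the norm -/
lemma exists_nat_residue {π : GaussianInt} (hπ : Split π) (z : GaussianInt) :
    ∃ n : ℕ, n < Nn π ∧ π ∣ z - (n : GaussianInt) := by
  have hp : Nat.Prime (Nn π) := hπ
  have hN : ((Nn π : ℕ) : ℤ) = π.re * π.re + π.im * π.im := by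
    rw [Nn_cast, Zsqrtd.norm_def]; ring
  -- im is coprime to p
  have hcop : IsCoprime (π.im) ((Nn π : ℕ) : ℤ) := by
    rw [Int.isCoprime_iff_gcd_eq_one]
    by_contra hg
    have hdvd : ((Nn π : ℕ) : ℤ) ∣ π.im := by
      have h1 : (Int.gcd π.im (Nn π)) ∣ Nn π := by
        have := Int.gcd_dvd_right (a := π.im) (b := ((Nn π : ℕ) : ℤ))
        exact_mod_cast this
      rcases (Nat.dvd_prime hp).1 h1 with h | h
      · exact absurd h hg
      · have := Int.gcd_dvd_left (a := π.im) (b := ((Nn π : ℕ) : ℤ))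
        rwa [h] at this
    have hpZ : Prime ((Nn π : ℕ) : ℤ) := Nat.prime_iff_prime_int.1 hp
    have hre : ((Nn π : ℕ) : ℤ) ∣ π.re := by
      have : ((Nn π : ℕ) : ℤ) ∣ π.re * π.re := by
        have h2 : π.re * π.re = ((Nn π : ℕ) : ℤ) - π.im * π.im := by rw [hN]; ring
        rw [h2]
        exact dvd_sub (dvd_refl _) (Dvd.dvd.mul_left hdvd _)
      rcases hpZ.dvd_or_dvd this with h | h <;> exact h
    obtain ⟨a, ha⟩ := hre
    obtain ⟨b, hb⟩ := hdvd
    have hpos : (0:ℤ) < ((Nn π : ℕ) : ℤ) := by exact_mod_cast hp.pos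
    have h3 : ((Nn π : ℕ) : ℤ) * (a*a + b*b) = 1 := by
      have h4 : ((Nn π : ℕ) : ℤ) = (((Nn π : ℕ) : ℤ) * (a*a+b*b)) * ((Nn π : ℕ) : ℤ) := by
        calc ((Nn π : ℕ) : ℤ) = π.re * π.re + π.im * π.im := hN
          _ = _ := by rw [ha, hb]; ring
      have h5 : (((Nn π : ℕ) : ℤ) * (a*a+b*b) - 1) * ((Nn π : ℕ) : ℤ) = 0 := by linarith
      rcases mul_eq_zero.1 h5 with h | h
      · linarith
      · exact absurd h hpos.ne'
    have h6 : ((Nn π : ℕ) : ℤ) ∣ 1 := ⟨_, h3.symm⟩
    have h7 : Nn π ∣ 1 := by exact_mod_cast h6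
    exact hp.one_lt.ne' (Nat.dvd_one.1 h7)
  obtain ⟨u, v, huv⟩ := hcop
  -- u * im + v * p = 1;  i ≡ - u * re
  set t : ℤ := - u * π.re with ht
  set s : ℤ := z.re + z.im * t with hs
  have hpne : ((Nn π : ℕ) : ℤ) ≠ 0 := by exact_mod_cast hp.ne_zero
  have hmod := Int.emod_nonneg s hpne
  have hlt := Int.emod_lt_of_pos s (by exact_mod_cast hp.pos : (0:ℤ) < ((Nn π : ℕ) : ℤ))
  refine ⟨(s % (Nn π : ℤ)).toNat, ?_, ?_⟩
  · have : ((s % (Nn π : ℤ)).toNat : ℤ) < (Nn π : ℤ) := by rw [Int.toNat_of_nonneg hmod]; exact hlt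
    exact_mod_cast this
  · have hcast : (((s % (Nn π : ℤ)).toNat : ℕ) : GaussianInt) = ((s % (Nn π : ℤ) : ℤ) : GaussianInt) := by
      have h0 : (((s % (Nn π : ℤ)).toNat : ℕ) : ℤ) = s % (Nn π : ℤ) := Int.toNat_of_nonneg hmod
      calc (((s % (Nn π : ℤ)).toNat : ℕ) : GaussianInt)
          = ((((s % (Nn π : ℤ)).toNat : ℕ) : ℤ) : GaussianInt) := by rw [Int.cast_natCast]
        _ = _ := by rw [h0]
    rw [hcast]
    have h1 : ((s % (Nn π : ℤ) : ℤ) : GaussianInt)
        = (s : GaussianInt) - ((Nn π : ℕ) : GaussianInt) * ((s / (Nn π : ℤ) : ℤ) : GaussianInt) := by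
      have := Int.emod_add_mul_ediv s (Nn π : ℤ)
      have h2 : s % (Nn π : ℤ) = s - (Nn π : ℤ) * (s / (Nn π : ℤ)) := by linarith
      rw [h2]; push_cast; ring
    rw [h1]
    have h3 : z - ((s : GaussianInt) - ((Nn π : ℕ) : GaussianInt) * ((s / (Nn π : ℤ) : ℤ) : GaussianInt))
        = (z - (s : GaussianInt)) + ((Nn π : ℕ) : GaussianInt) * ((s / (Nn π : ℤ) : ℤ) : GaussianInt) := by
      ring
    rw [h3]
    refine dvd_add ?_ (Dvd.dvd.mul_right (dvd_Nn π) _)
    -- z - s = im * (i - t),   i - t = u π + v p i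
    have h4 : z - (s : GaussianInt) = ((z.im * u : ℤ) : GaussianInt) * π
        + ((Nn π : ℕ) : GaussianInt) * (⟨0, z.im * v⟩ : GaussianInt) := by
      have hN' : (((Nn π : ℕ) : GaussianInt)) = ((Nn π : ℤ) : GaussianInt) := by simp
      rw [hN']
      ext
      · simp [hs, ht]
        ring
      · simp
        linear_combination (-z.im) * huv
    rw [h4]
    exact dvd_add (Dvd.intro_left _ rfl) (Dvd.dvd.mul_right (dvd_Nn π) _)

lemma nat_residue_unique {π : GaussianInt} (hπ : Split π) {n m : ℕ} (hn : n < Nn π) (hm : m < Nn π)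
    (h : π ∣ (n : GaussianInt) - (m : GaussianInt)) : n = m := by
  have hp : Nat.Prime (Nn π) := hπ
  obtain ⟨c, hc⟩ := h
  have h1 : ((n : GaussianInt) - (m : GaussianInt)).norm = π.norm * c.norm := by
    rw [hc, Zsqrtd.norm_mul]
  have h2 : ((n : GaussianInt) - (m : GaussianInt)).norm = ((n : ℤ) - m) * ((n : ℤ) - m) := by
    rw [Zsqrtd.norm_def]
    simp
  have hpZ : Prime ((Nn π : ℕ) : ℤ) := Nat.prime_iff_prime_int.1 hp
  have h3 : ((Nn π : ℕ) : ℤ) ∣ ((n : ℤ) - m) * ((n : ℤ) - m) := by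
    rw [← h2, h1, ← Nn_cast]; exact dvd_mul_right _ _
  have h4 : ((Nn π : ℕ) : ℤ) ∣ ((n : ℤ) - m) := by
    rcases hpZ.dvd_or_dvd h3 with h | h <;> exact h
  have h5 : (n : ℤ) ≡ m [ZMOD (Nn π : ℤ)] := Int.ModEq.symm ((Int.modEq_iff_dvd).2 h4)
  have h6 : n ≡ m [MOD (Nn π)] := Int.natCast_modEq_iff.1 h5
  exact Nat.ModEq.eq_of_lt_of_lt h6 hn hm

/-- canonical residue of `z` modulo `π` -/
noncomputable def cl (π z : GaussianInt) : ℕ :=
  open Classical in if h : ∃ n : ℕ, n < Nn π ∧ π ∣ z - (n : GaussianInt) then h.choose else 0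

lemma cl_lt {π : GaussianInt} (hπ : Split π) (z : GaussianInt) : cl π z < Nn π := by
  have h := exists_nat_residue hπ z
  unfold cl
  rw [dif_pos h]
  exact h.choose_spec.1

lemma dvd_sub_cl {π : GaussianInt} (hπ : Split π) (z : GaussianInt) :
    π ∣ z - (cl π z : GaussianInt) := by
  have h := exists_nat_residue hπ z
  unfold cl
  rw [dif_pos h]
  exact h.choose_spec.2

lemma cl_eq_iff {π : GaussianInt} (hπ : Split π) (z z' : GaussianInt) :
    cl π z = cl π z' ↔ π ∣ z - z' := by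
  constructor
  · intro h
    have h1 := dvd_sub_cl hπ z
    have h2 := dvd_sub_cl hπ z'
    rw [← h] at h2
    have := dvd_sub h1 h2
    simpa using this
  · intro h
    refine nat_residue_unique hπ (cl_lt hπ z) (cl_lt hπ z') ?_
    have h1 := dvd_sub_cl hπ z
    have h2 := dvd_sub_cl hπ z'
    have : (cl π z : GaussianInt) - (cl π z' : GaussianInt)
        = (z - z') - (z - cl π z) + (z' - cl π z') := by ring
    rw [this]
    exact dvd_add (dvd_sub h h1) h2


end Crest.Agent.R2.N640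
end

-- ▼ part R2/NoDrop640c
section

/-!
# R2 (Gaussian moat), block N1+N2 (helper640), part c: one scale
-/

set_option autoImplicit false

namespace Crest.Agent.R2.N640

open Finset

section Rel

/-- relation form of the information inequality: the reference weights `r` only depend on the
class of `z` -/
theorem info_ineq_rel {ζ A Γ σ : Type*} [DecidableEq A] [DecidableEq Γ]
    (Z : Finset ζ) (ν : ζ → ℝ) (hν : ∀ z ∈ Z, 0 ≤ ν z) (hν1 : ∑ z ∈ Z, ν z = 1)
    (a : ζ → A) (g : ζ → Γ) (S : Finset σ) (p : ζ → σ → ℝ)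
    (hp : ∀ z ∈ Z, ∀ s ∈ S, 0 ≤ p z s) (hp1 : ∀ z ∈ Z, ∑ s ∈ S, p z s = 1)
    (r : ζ → σ → ℝ) (hr : ∀ z, ∀ s ∈ S, 0 ≤ r z s) (hr1 : ∀ z, ∑ s ∈ S, r z s ≤ 1)
    (hcl : ∀ z z', a z = a z' → r z = r z')
    (hpr : ∀ z ∈ Z, ∀ s ∈ S, 0 < p z s → 0 < r z s) (q : ℕ)
    (ms : (Fin q → σ) → Finset Γ)
    (hms : ∀ z ∈ Z, ∀ W ∈ Fintype.piFinset (fun _ : Fin q => S),
      (∀ i, 0 < p z (W i)) → g z ∈ ms W) :
    Hn Z ν g ≤ Hn Z ν a
      + q * ∑ z ∈ Z, ν z * ∑ s ∈ S, p z s * (Real.log (p z s) - Real.log (r z s))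
      + ∑ z ∈ Z, ν z * ∑ W ∈ Fintype.piFinset (fun _ : Fin q => S),
          (∏ i, p z (W i)) * Real.log ((ms W).card) := by
  classical
  set r' : A → σ → ℝ := fun α s => if h : ∃ z, a z = α then r h.choose s else 0 with hr'
  have key : ∀ z, r' (a z) = r z := by
    intro z
    have h : ∃ z', a z' = a z := ⟨z, rfl⟩
    funext s
    simp only [hr', dif_pos h]
    rw [hcl _ _ h.choose_spec]
  have := info_ineq Z ν hν hν1 a g S p hp hp1 r'
    (fun α s hs => by
      simp only [hr']; split_ifs with h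
      · exact hr _ _ hs
      · exact le_refl _)
    (fun α => by
      simp only [hr']
      by_cases h : ∃ z, a z = α
      · simp only [dif_pos h]; exact hr1 _
      · simp only [dif_neg h]; simp)
    (fun z hz s hs h => by rw [key]; exact hpr z hz s hs h) q ms hms
  simpa only [key] using this

end Rel

variable {ζ : Type*}

/-- mass of the states congruent to `z ω` modulo every `π ∈ Q` -/
noncomputable def cm (Z : Finset ζ) (ν : ζ → ℝ) (z : ζ → GaussianInt) (Q : Finset GaussianInt)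
    (ω : ζ) : ℝ :=
  open Classical in ∑ ω' ∈ Z with (∀ π ∈ Q, π ∣ z ω' - z ω), ν ω'

/-- entropy (nats) of the residue of `z` modulo `∏ Q` under `ν` -/
noncomputable def HQ (Z : Finset ζ) (ν : ζ → ℝ) (z : ζ → GaussianInt) (Q : Finset GaussianInt) : ℝ :=
  ∑ ω ∈ Z, ν ω * (- Real.log (cm Z ν z Q ω))

/-- the vector of residues modulo the elements of `Q` -/
noncomputable def resQ (Q : Finset GaussianInt) (z : GaussianInt) : {π // π ∈ Q} → ℕ :=
  fun π => cl π.1 z

lemma resQ_eq_iff {Q : Finset GaussianInt} (hQ : ∀ π ∈ Q, Split π) (z z' : GaussianInt) :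
    resQ Q z = resQ Q z' ↔ ∀ π ∈ Q, π ∣ z - z' := by
  constructor
  · intro h π hπ
    have := congrFun h ⟨π, hπ⟩
    exact (cl_eq_iff (hQ π hπ) z z').1 this
  · intro h
    funext π
    exact (cl_eq_iff (hQ π.1 π.2) z z').2 (h π.1 π.2)

lemma Hn_resQ (Z : Finset ζ) (ν : ζ → ℝ) (z : ζ → GaussianInt) {Q : Finset GaussianInt}
    (hQ : ∀ π ∈ Q, Split π) : Hn Z ν (fun ω => resQ Q (z ω)) = HQ Z ν z Q := by
  classical
  unfold Hn HQ fm cm
  refine Finset.sum_congr rfl (fun ω _ => ?_)
  congr 3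
  refine Finset.sum_congr ?_ (fun _ _ => rfl)
  ext ω'
  simp only [Finset.mem_filter]
  rw [resQ_eq_iff hQ]

variable {l : ℕ}

/-- clusters (`l`-point strings of displacements) which, started at `x`, avoid all multiples of
the elements of `Q` -/
noncomputable def pth (Ω : Finset (Fin l → GaussianInt)) (Q : Finset GaussianInt)
    (x : GaussianInt) : Finset (Fin l → GaussianInt) :=
  open Classical in Ω.filter (fun om => ∀ π ∈ Q, ∀ j, ¬ π ∣ x + om j)

lemma mem_pth {Ω : Finset (Fin l → GaussianInt)} {Q : Finset GaussianInt} {x : GaussianInt}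
    {om : Fin l → GaussianInt} : om ∈ pth Ω Q x ↔ om ∈ Ω ∧ ∀ π ∈ Q, ∀ j, ¬ π ∣ x + om j := by
  classical
  unfold pth
  rw [Finset.mem_filter]

lemma pth_subset (Ω : Finset (Fin l → GaussianInt)) (Q : Finset GaussianInt) (x : GaussianInt) :
    pth Ω Q x ⊆ Ω := fun _ h => (mem_pth.1 h).1

lemma pth_anti (Ω : Finset (Fin l → GaussianInt)) {Q Q' : Finset GaussianInt} (h : Q ⊆ Q')
    (x : GaussianInt) : pth Ω Q' x ⊆ pth Ω Q x := fun om hom => by
  rw [mem_pth] at hom ⊢
  exact ⟨hom.1, fun π hπ j => hom.2 π (h hπ) j⟩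

lemma pth_congr (Ω : Finset (Fin l → GaussianInt)) {Q : Finset GaussianInt} {x x' : GaussianInt}
    (h : ∀ π ∈ Q, π ∣ x - x') : pth Ω Q x = pth Ω Q x' := by
  ext om
  rw [mem_pth, mem_pth]
  refine and_congr_right (fun _ => ?_)
  refine forall_congr' (fun π => forall_congr' (fun hπ => forall_congr' (fun j => not_congr ?_)))
  have h1 := h π hπ
  constructor
  · intro h2
    have := dvd_sub h2 h1
    have e : x + om j - (x - x') = x' + om j := by ring
    rwa [e] at this
  · intro h2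
    have := dvd_add h2 h1
    have e : x' + om j + (x - x') = x + om j := by ring
    rwa [e] at this

/-- the law of one sampled cluster: `y` has law `lam`, cluster uniform among the admissible ones -/
noncomputable def pw (Ω : Finset (Fin l → GaussianInt)) (Q : Finset GaussianInt)
    (lam : GaussianInt → ℝ) (z : GaussianInt) (s : GaussianInt × (Fin l → GaussianInt)) : ℝ :=
  open Classical in
  if s.2 ∈ pth Ω Q (z + s.1) then lam s.1 * ((pth Ω Q (z + s.1)).card : ℝ)⁻¹ else 0

lemma pw_nonneg (Ω : Finset (Fin l → GaussianInt)) (Q : Finset GaussianInt)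
    {lam : GaussianInt → ℝ} (hlam : ∀ y, 0 ≤ lam y) (z : GaussianInt)
    (s : GaussianInt × (Fin l → GaussianInt)) :
    0 ≤ pw Ω Q lam z s := by
  unfold pw
  split_ifs
  · exact mul_nonneg (hlam _) (by positivity)
  · exact le_refl _

lemma pw_pos_iff (Ω : Finset (Fin l → GaussianInt)) (Q : Finset GaussianInt)
    (lam : GaussianInt → ℝ) (z : GaussianInt) (s : GaussianInt × (Fin l → GaussianInt)) :
    0 < pw Ω Q lam z s ↔ 0 < lam s.1 ∧ s.2 ∈ pth Ω Q (z + s.1) := by
  unfold pw
  split_ifs with h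
  · have h2 : 0 < (pth Ω Q (z + s.1)).card := Finset.card_pos.2 ⟨_, h⟩
    have h2' : (0:ℝ) < ((pth Ω Q (z + s.1)).card : ℝ)⁻¹ := by
      have : (0:ℝ) < (pth Ω Q (z + s.1)).card := by exact_mod_cast h2
      positivity
    constructor
    · intro h3
      exact ⟨(pos_iff_pos_of_mul_pos h3).2 h2', h⟩
    · intro h3
      exact mul_pos h3.1 h2'
  · simp [h]

/-- expectation under the law of one sampled cluster -/
lemma pw_sum (Ω : Finset (Fin l → GaussianInt)) (Q : Finset GaussianInt)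
    (B : Finset GaussianInt) (lam : GaussianInt → ℝ) (z : GaussianInt)
    (f : GaussianInt × (Fin l → GaussianInt) → ℝ) :
    ∑ s ∈ B ×ˢ Ω, pw Ω Q lam z s * f s
      = ∑ y ∈ B, lam y * ∑ om ∈ pth Ω Q (z + y), ((pth Ω Q (z + y)).card : ℝ)⁻¹ * f (y, om) := by
  classical
  rw [Finset.sum_product]
  refine Finset.sum_congr rfl (fun y _ => ?_)
  have h2 : ∀ om ∈ Ω, pw Ω Q lam z (y, om) * f (y, om)
      = if om ∈ pth Ω Q (z + y) then
          lam y * (((pth Ω Q (z + y)).card : ℝ)⁻¹ * f (y, om)) else 0 := by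
    intro om _
    unfold pw
    by_cases hom : om ∈ pth Ω Q (z + y)
    · simp only [hom, if_true]
      ring
    · simp [hom]
  rw [Finset.sum_congr rfl h2, ← Finset.sum_filter, Finset.mul_sum]
  refine Finset.sum_congr ?_ (fun _ _ => rfl)
  ext om
  rw [Finset.mem_filter]
  exact ⟨fun h => h.2, fun h => ⟨pth_subset _ _ _ h, h⟩⟩

lemma pw_sum_one (Ω : Finset (Fin l → GaussianInt)) (Q : Finset GaussianInt)
    (B : Finset GaussianInt) {lam : GaussianInt → ℝ} (hlam : ∀ y, 0 ≤ lam y)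
    (hlam1 : ∑ y ∈ B, lam y = 1) (z : GaussianInt)
    (hne : ∀ y ∈ B, 0 < lam y → (pth Ω Q (z + y)).Nonempty) :
    ∑ s ∈ B ×ˢ Ω, pw Ω Q lam z s = 1 := by
  have h := pw_sum Ω Q B lam z (fun _ => 1)
  simp only [mul_one] at h
  rw [h, ← hlam1]
  refine Finset.sum_congr rfl (fun y hy => ?_)
  rcases eq_or_lt_of_le (hlam y) with h0 | h0
  · rw [← h0]; simp
  · have h2 : (0:ℝ) < (pth Ω Q (z + y)).card := by exact_mod_cast Finset.card_pos.2 (hne y hy h0)
    rw [Finset.sum_const, nsmul_eq_mul, mul_inv_cancel₀ h2.ne', mul_one]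

lemma pw_sum_le_one (Ω : Finset (Fin l → GaussianInt)) (Q : Finset GaussianInt)
    (B : Finset GaussianInt) {lam : GaussianInt → ℝ} (hlam : ∀ y, 0 ≤ lam y)
    (hlam1 : ∑ y ∈ B, lam y ≤ 1) (z : GaussianInt) :
    ∑ s ∈ B ×ˢ Ω, pw Ω Q lam z s ≤ 1 := by
  have h := pw_sum Ω Q B lam z (fun _ => 1)
  simp only [mul_one] at h
  rw [h]
  refine le_trans (Finset.sum_le_sum (fun y _ => ?_)) hlam1
  rw [Finset.sum_const, nsmul_eq_mul]
  by_cases h0 : ((pth Ω Q (z + y)).card : ℝ) = 0
  · rw [h0]; simpa using hlam y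
  · rw [mul_inv_cancel₀ h0, mul_one]

/-- the cluster entropy at sieve level `Q` -/
noncomputable def FF (Z : Finset ζ) (ν : ζ → ℝ) (z : ζ → GaussianInt)
    (Ω : Finset (Fin l → GaussianInt)) (B : Finset GaussianInt) (lam : ζ → GaussianInt → ℝ)
    (Q : Finset GaussianInt) : ℝ :=
  ∑ ω ∈ Z, ν ω * ∑ y ∈ B, lam ω y * Real.log ((pth Ω Q (z ω + y)).card)

/-- mass of the class `-n` modulo `π` under the law of a random point of a random cluster -/
noncomputable def mass (Ω : Finset (Fin l → GaussianInt)) (Q : Finset GaussianInt)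
    (B : Finset GaussianInt) (lam : GaussianInt → ℝ) (z π : GaussianInt) (n : GaussianInt) : ℝ :=
  open Classical in
  ∑ s ∈ B ×ˢ Ω, pw Ω Q lam z s *
    ((l : ℝ)⁻¹ * ((Finset.univ.filter (fun j : Fin l => π ∣ n + s.1 + s.2 j)).card : ℝ))

/-- light classes modulo `π` -/
noncomputable def light (Ω : Finset (Fin l → GaussianInt)) (Q : Finset GaussianInt)
    (B : Finset GaussianInt) (lam : GaussianInt → ℝ) (z π : GaussianInt) : Finset ℕ :=
  open Classical in
  (Finset.range (Nn π)).filter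
    (fun n => mass Ω Q B lam z π (n : GaussianInt) ≤ 1 / (4 * (Nn π : ℝ)))

end Crest.Agent.R2.N640
end

-- ▼ part R2/NoDrop640d
section

/-!
# R2 (Gaussian moat), block N1+N2 (helper640), part d: the one-scale inequality
-/

set_option autoImplicit false

namespace Crest.Agent.R2.N640

open Finset

variable {l : ℕ} {ζ : Type*}

/-- classes (of the start) modulo `π` which no cluster of the window `W` excludes -/
noncomputable def miss (q : ℕ) (W : Fin q → GaussianInt × (Fin l → GaussianInt)) (π : GaussianInt) :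
    Finset ℕ :=
  open Classical in
  (Finset.range (Nn π)).filter
    (fun n : ℕ => ∀ i : Fin q, ∀ j : Fin l, ¬ π ∣ (n : GaussianInt) + (W i).1 + (W i).2 j)

lemma log_le_aux {x t : ℝ} (hx : 0 < x) (ht : 0 < t) : Real.log x ≤ Real.log t + (x / t - 1) := by
  have h := Real.log_le_sub_one_of_pos (div_pos hx ht)
  rw [Real.log_div hx.ne' ht.ne'] at h
  linarith

lemma cl_mem_miss {Ω : Finset (Fin l → GaussianInt)} {Q : Finset GaussianInt}
    {lam : GaussianInt → ℝ} {z π : GaussianInt} (hs : Split π) (hπ : π ∈ Q) {q : ℕ}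
    {W : Fin q → GaussianInt × (Fin l → GaussianInt)} (hpos : ∀ i, 0 < pw Ω Q lam z (W i)) :
    cl π z ∈ miss q W π := by
  classical
  unfold miss
  rw [Finset.mem_filter, Finset.mem_range]
  refine ⟨cl_lt hs z, fun i j hd => ?_⟩
  have h1 := (pw_pos_iff _ _ _ _ _).1 (hpos i)
  have h2 := (mem_pth.1 h1.2).2 π hπ j
  apply h2
  have h3 := dvd_sub_cl hs z
  have := dvd_add hd h3
  have e : (cl π z : GaussianInt) + (W i).1 + (W i).2 j + (z - (cl π z : GaussianInt))
      = z + (W i).1 + (W i).2 j := by ring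
  rwa [e] at this

/-- the cluster hits the class `-n` with probability `l * mass` -/
lemma hit_prob (Ω : Finset (Fin l → GaussianInt)) (Q : Finset GaussianInt)
    (B : Finset GaussianInt) (lam : GaussianInt → ℝ) (z π : GaussianInt) (n : GaussianInt) (hl : 0 < l)
    (hdist : ∀ om ∈ Ω, ∀ i j : Fin l, i ≠ j → ¬ π ∣ om i - om j) :
    ∑ s ∈ B ×ˢ Ω, pw Ω Q lam z s * (open Classical in if ∀ j : Fin l, ¬ π ∣ n + s.1 + s.2 j then (1:ℝ) else 0)
      = ∑ s ∈ B ×ˢ Ω, pw Ω Q lam z s - l * mass Ω Q B lam z π n := by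
  classical
  unfold mass
  rw [Finset.mul_sum, ← Finset.sum_sub_distrib]
  refine Finset.sum_congr rfl (fun s hs => ?_)
  have hl' : (l : ℝ) ≠ 0 := by exact_mod_cast hl.ne'
  have hom : s.2 ∈ Ω := (Finset.mem_product.1 hs).2
  have hcard : ((Finset.univ.filter (fun j : Fin l => π ∣ n + s.1 + s.2 j)).card : ℝ)
      = if ∀ j : Fin l, ¬ π ∣ n + s.1 + s.2 j then (0:ℝ) else 1 := by
    split_ifs with h
    · have : Finset.univ.filter (fun j : Fin l => π ∣ n + s.1 + s.2 j) = ∅ := by
        rw [Finset.filter_eq_empty_iff]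
        intro j _
        exact h j
      rw [this]; simp
    · push Not at h
      obtain ⟨j, hj⟩ := h
      have : Finset.univ.filter (fun j : Fin l => π ∣ n + s.1 + s.2 j) = {j} := by
        ext i
        simp only [Finset.mem_filter, Finset.mem_univ, true_and, Finset.mem_singleton]
        constructor
        · intro hi
          by_contra hne
          refine hdist s.2 hom i j hne ?_
          have := dvd_sub hi hj
          have e : n + s.1 + s.2 i - (n + s.1 + s.2 j) = s.2 i - s.2 j := by ring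
          rwa [e] at this
        · rintro rfl; exact hj
      rw [this]; simp
  rw [hcard]
  split_ifs
  · ring
  · field_simp; ring

/-- **one-scale inequality** -/
theorem scale_ineq (Z : Finset ζ) (ν : ζ → ℝ) (hν : ∀ ω ∈ Z, 0 ≤ ν ω)
    (hν1 : ∑ ω ∈ Z, ν ω = 1) (z : ζ → GaussianInt) (P G : Finset GaussianInt)
    (hPs : ∀ π ∈ P, Split π) (hGs : ∀ π ∈ G, Split π) (B : Finset GaussianInt) (hB : B.Nonempty)
    (lam : ζ → GaussianInt → ℝ) (hlam : ∀ ω y, 0 ≤ lam ω y) (hlam1 : ∀ ω ∈ Z, ∑ y ∈ B, lam ω y = 1)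
    (Ω : Finset (Fin l → GaussianInt))
    (hne : ∀ ω ∈ Z, ∀ y ∈ B, 0 < lam ω y → (pth Ω (P ∪ G) (z ω + y)).Nonempty) (hl : 0 < l)
    (hdist : ∀ om ∈ Ω, ∀ π ∈ G, ∀ i j : Fin l, i ≠ j → ¬ π ∣ om i - om j) (q : ℕ)
    (hq : ∀ π ∈ G, (Nn π : ℝ) * Real.exp (-(q * (l / (4 * Nn π)))) ≤ 1) :
    HQ Z ν z G ≤ HQ Z ν z P
      + q * (Real.log B.card + FF Z ν z Ω B lam P - FF Z ν z Ω B lam (P ∪ G))
      + ∑ ω ∈ Z, ν ω * ∑ π ∈ G, Real.log (1 + ((light Ω (P ∪ G) B (lam ω) (z ω) π).card : ℝ)) := by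
  classical
  have hBc : (0:ℝ) < B.card := by exact_mod_cast Finset.card_pos.2 hB
  have hp1 : ∀ ω ∈ Z, ∑ s ∈ B ×ˢ Ω, pw Ω (P ∪ G) (lam ω) (z ω) s = 1 := fun ω hω =>
    pw_sum_one Ω (P ∪ G) B (hlam ω) (hlam1 ω hω) (z ω) (hne ω hω)
  have hpnn : ∀ ω s, 0 ≤ pw Ω (P ∪ G) (lam ω) (z ω) s := fun ω s => pw_nonneg _ _ (hlam ω) _ _
  have hun : ∀ _y : GaussianInt, (0:ℝ) ≤ (B.card : ℝ)⁻¹ := fun _ => by positivity
  have hle1 : ∀ ω ∈ Z, ∀ y ∈ B, lam ω y ≤ 1 := fun ω hω y hy => by
    rw [← hlam1 ω hω]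
    exact Finset.single_le_sum (f := lam ω) (fun y _ => hlam ω y) hy
  have main := info_ineq_rel Z ν hν hν1 (fun ω => resQ P (z ω)) (fun ω => resQ G (z ω)) (B ×ˢ Ω)
    (fun ω s => pw Ω (P ∪ G) (lam ω) (z ω) s) (fun ω _ s _ => hpnn ω s) hp1
    (fun ω s => pw Ω P (fun _ => (B.card : ℝ)⁻¹) (z ω) s) (fun ω s _ => pw_nonneg _ _ hun _ _)
    (fun ω => pw_sum_le_one Ω P B hun (by
      rw [Finset.sum_const, nsmul_eq_mul, mul_inv_cancel₀ hBc.ne']) (z ω))
    (fun ω ω' h => by
      have h' := (resQ_eq_iff hPs (z ω) (z ω')).1 h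
      funext s
      have : pth Ω P (z ω + s.1) = pth Ω P (z ω' + s.1) := pth_congr Ω (fun π hπ => by
        have e : z ω + s.1 - (z ω' + s.1) = z ω - z ω' := by ring
        rw [e]; exact h' π hπ)
      unfold pw
      rw [this])
    (fun ω hω s _ h => by
      rw [pw_pos_iff] at h ⊢
      exact ⟨by positivity, pth_anti Ω Finset.subset_union_left _ h.2⟩)
    q (fun W => Fintype.piFinset (fun π : {π // π ∈ G} => miss q W π.1))
    (fun ω _ W _ h => by
      rw [Fintype.mem_piFinset]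
      intro π
      exact cl_mem_miss (hGs π.1 π.2) (Finset.mem_union_right _ π.2) h)
  rw [Hn_resQ Z ν z hGs, Hn_resQ Z ν z hPs] at main
  refine main.trans ?_
  -- second term
  have h2 : ∑ ω ∈ Z, ν ω * ∑ s ∈ B ×ˢ Ω, pw Ω (P ∪ G) (lam ω) (z ω) s *
      (Real.log (pw Ω (P ∪ G) (lam ω) (z ω) s) - Real.log (pw Ω P (fun _ => (B.card : ℝ)⁻¹) (z ω) s))
      ≤ Real.log B.card + FF Z ν z Ω B lam P - FF Z ν z Ω B lam (P ∪ G) := by
    have hz : ∀ ω ∈ Z, ν ω * ∑ s ∈ B ×ˢ Ω, pw Ω (P ∪ G) (lam ω) (z ω) s *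
        (Real.log (pw Ω (P ∪ G) (lam ω) (z ω) s)
          - Real.log (pw Ω P (fun _ => (B.card : ℝ)⁻¹) (z ω) s))
        ≤ ν ω * Real.log B.card
          + ν ω * ∑ y ∈ B, lam ω y * Real.log ((pth Ω P (z ω + y)).card)
          - ν ω * ∑ y ∈ B, lam ω y * Real.log ((pth Ω (P ∪ G) (z ω + y)).card) := by
      intro ω hω
      rw [pw_sum Ω (P ∪ G) B (lam ω) (z ω)
        (fun s => Real.log (pw Ω (P ∪ G) (lam ω) (z ω) s)
          - Real.log (pw Ω P (fun _ => (B.card : ℝ)⁻¹) (z ω) s))]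
      have hy : ∀ y ∈ B, lam ω y * ∑ om ∈ pth Ω (P ∪ G) (z ω + y),
          ((pth Ω (P ∪ G) (z ω + y)).card : ℝ)⁻¹ *
            (Real.log (pw Ω (P ∪ G) (lam ω) (z ω) (y, om))
              - Real.log (pw Ω P (fun _ => (B.card : ℝ)⁻¹) (z ω) (y, om)))
          ≤ lam ω y * (Real.log B.card + Real.log ((pth Ω P (z ω + y)).card)
            - Real.log ((pth Ω (P ∪ G) (z ω + y)).card)) := by
        intro y hyB
        rcases eq_or_lt_of_le (hlam ω y) with h0 | h0
        · rw [← h0]; simp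
        have hc' : (0:ℝ) < (pth Ω (P ∪ G) (z ω + y)).card := by
          exact_mod_cast Finset.card_pos.2 (hne ω hω y hyB h0)
        have hval : ∀ om ∈ pth Ω (P ∪ G) (z ω + y), ((pth Ω (P ∪ G) (z ω + y)).card : ℝ)⁻¹ *
            (Real.log (pw Ω (P ∪ G) (lam ω) (z ω) (y, om))
              - Real.log (pw Ω P (fun _ => (B.card : ℝ)⁻¹) (z ω) (y, om)))
            ≤ ((pth Ω (P ∪ G) (z ω + y)).card : ℝ)⁻¹ *
            (Real.log B.card + Real.log ((pth Ω P (z ω + y)).card)
            - Real.log ((pth Ω (P ∪ G) (z ω + y)).card)) := by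
          intro om hom
          have homP : om ∈ pth Ω P (z ω + y) := pth_anti Ω Finset.subset_union_left _ hom
          have hc : (0:ℝ) < (pth Ω P (z ω + y)).card := by exact_mod_cast Finset.card_pos.2 ⟨_, homP⟩
          have e1 : pw Ω (P ∪ G) (lam ω) (z ω) (y, om)
              = lam ω y * ((pth Ω (P ∪ G) (z ω + y)).card : ℝ)⁻¹ := by
            unfold pw; simp [hom]
          have e2 : pw Ω P (fun _ => (B.card : ℝ)⁻¹) (z ω) (y, om)
              = (B.card : ℝ)⁻¹ * ((pth Ω P (z ω + y)).card : ℝ)⁻¹ := by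
            unfold pw; simp [homP]
          rw [e1, e2, Real.log_mul h0.ne' (inv_pos.2 hc').ne', Real.log_mul (inv_pos.2 hBc).ne'
            (inv_pos.2 hc).ne', Real.log_inv, Real.log_inv, Real.log_inv]
          refine mul_le_mul_of_nonneg_left ?_ (by positivity)
          have := Real.log_nonpos (hlam ω y) (hle1 ω hω y hyB)
          linarith
        refine mul_le_mul_of_nonneg_left ((Finset.sum_le_sum hval).trans ?_) h0.le
        rw [Finset.sum_const, nsmul_eq_mul, ← mul_assoc, mul_inv_cancel₀ hc'.ne', one_mul]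
      have hsum := Finset.sum_le_sum hy
      have hfin : ∑ y ∈ B, lam ω y * (Real.log B.card + Real.log ((pth Ω P (z ω + y)).card)
            - Real.log ((pth Ω (P ∪ G) (z ω + y)).card))
          = Real.log B.card + ∑ y ∈ B, lam ω y * Real.log ((pth Ω P (z ω + y)).card)
            - ∑ y ∈ B, lam ω y * Real.log ((pth Ω (P ∪ G) (z ω + y)).card) := by
        simp only [mul_sub, mul_add, Finset.sum_sub_distrib, Finset.sum_add_distrib]
        rw [← Finset.sum_mul, hlam1 ω hω, one_mul]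
      rw [hfin] at hsum
      have := mul_le_mul_of_nonneg_left hsum (hν ω hω)
      linarith
    refine (Finset.sum_le_sum hz).trans ?_
    rw [Finset.sum_sub_distrib, Finset.sum_add_distrib, ← Finset.sum_mul, hν1, one_mul]
    unfold FF
    exact le_refl _
  -- third term
  have h3 : ∀ ω ∈ Z, ∑ W ∈ Fintype.piFinset (fun _ : Fin q => B ×ˢ Ω),
      (∏ i, pw Ω (P ∪ G) (lam ω) (z ω) (W i)) *
        Real.log ((Fintype.piFinset (fun π : {π // π ∈ G} => miss q W π.1)).card)
      ≤ ∑ π ∈ G, Real.log (1 + ((light Ω (P ∪ G) B (lam ω) (z ω) π).card : ℝ)) := by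
    intro ω hω
    set PW := Fintype.piFinset (fun _ : Fin q => B ×ˢ Ω) with hPW
    have hone : ∑ W ∈ PW, ∏ i, pw Ω (P ∪ G) (lam ω) (z ω) (W i) = 1 := by
      rw [hPW, sum_piFinset_prod, hp1 ω hω, one_pow]
    -- per prime
    have hpi : ∀ π ∈ G, ∑ W ∈ PW, (∏ i, pw Ω (P ∪ G) (lam ω) (z ω) (W i)) *
        Real.log ((miss q W π).card)
          ≤ Real.log (1 + ((light Ω (P ∪ G) B (lam ω) (z ω) π).card : ℝ)) := by
      intro π hπ
      set t : ℝ := 1 + ((light Ω (P ∪ G) B (lam ω) (z ω) π).card : ℝ) with ht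
      have htpos : 0 < t := by positivity
      have hNpos : (0:ℝ) < Nn π := by exact_mod_cast (hGs π hπ : Nat.Prime (Nn π)).pos
      -- expected number of missed classes
      have hE : ∑ W ∈ PW, (∏ i, pw Ω (P ∪ G) (lam ω) (z ω) (W i)) * ((miss q W π).card : ℝ) ≤ t := by
        have e1 : ∀ W ∈ PW, (∏ i, pw Ω (P ∪ G) (lam ω) (z ω) (W i)) * ((miss q W π).card : ℝ)
            = ∑ n ∈ Finset.range (Nn π), ∏ i, (pw Ω (P ∪ G) (lam ω) (z ω) (W i) *
              (if ∀ j : Fin l, ¬ π ∣ (n : GaussianInt) + (W i).1 + (W i).2 j then (1:ℝ) else 0)) := by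
          intro W _
          unfold miss
          rw [Finset.card_filter]
          push_cast
          rw [Finset.mul_sum]
          refine Finset.sum_congr rfl (fun n _ => ?_)
          rw [Finset.prod_mul_distrib]
          congr 1
          by_cases h : ∀ i : Fin q, ∀ j : Fin l, ¬ π ∣ (n : GaussianInt) + (W i).1 + (W i).2 j
          · rw [if_pos h]
            symm
            exact Finset.prod_eq_one (fun i _ => if_pos (h i))
          · rw [if_neg h]
            push Not at h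
            obtain ⟨i, j, hij⟩ := h
            symm
            refine Finset.prod_eq_zero (Finset.mem_univ i) (if_neg ?_)
            intro hh
            exact hh j hij
        rw [Finset.sum_congr rfl e1, Finset.sum_comm]
        have e2 : ∀ n ∈ Finset.range (Nn π), ∑ W ∈ PW, ∏ i, (pw Ω (P ∪ G) (lam ω) (z ω) (W i) *
              (if ∀ j : Fin l, ¬ π ∣ (n : GaussianInt) + (W i).1 + (W i).2 j then (1:ℝ) else 0))
            ≤ (if n ∈ light Ω (P ∪ G) B (lam ω) (z ω) π then (1:ℝ) else 0) + 1 / (Nn π : ℝ) := by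
          intro n hn
          rw [hPW, sum_piFinset_prod (B ×ˢ Ω) (fun s => pw Ω (P ∪ G) (lam ω) (z ω) s *
              (if ∀ j : Fin l, ¬ π ∣ (n : GaussianInt) + s.1 + s.2 j then (1:ℝ) else 0)) q]
          have hh := hit_prob Ω (P ∪ G) B (lam ω) (z ω) π (n : GaussianInt) hl
            (fun om hom i j hij => hdist om hom π hπ i j hij)
          rw [hp1 ω hω] at hh
          set X : ℝ := ∑ s ∈ B ×ˢ Ω, pw Ω (P ∪ G) (lam ω) (z ω) s *
              (if ∀ j : Fin l, ¬ π ∣ (n : GaussianInt) + s.1 + s.2 j then (1:ℝ) else 0) with hX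
          have hX' : X = 1 - l * mass Ω (P ∪ G) B (lam ω) (z ω) π n := by
            rw [hX]
            convert hh using 4
          have hX0 : 0 ≤ X := Finset.sum_nonneg (fun s _ => mul_nonneg (hpnn ω s)
            (by split_ifs <;> norm_num))
          have hX1 : X ≤ 1 := by
            have hle1 : X ≤ ∑ s ∈ B ×ˢ Ω, pw Ω (P ∪ G) (lam ω) (z ω) s := by
              rw [hX]
              refine Finset.sum_le_sum (fun s _ => ?_)
              have := hpnn ω s
              split_ifs <;> linarith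
            exact hle1.trans (hp1 ω hω).le
          by_cases hlt : n ∈ light Ω (P ∪ G) B (lam ω) (z ω) π
          · rw [if_pos hlt]
            have : X ^ q ≤ 1 := pow_le_one₀ hX0 hX1
            have : (0:ℝ) ≤ 1 / (Nn π : ℝ) := by positivity
            linarith
          · rw [if_neg hlt, zero_add]
            have hm : 1 / (4 * (Nn π : ℝ)) < mass Ω (P ∪ G) B (lam ω) (z ω) π n := by
              unfold light at hlt
              rw [Finset.mem_filter] at hlt
              by_contra hcon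
              exact hlt ⟨hn, not_lt.1 hcon⟩
            have hlpos : (0:ℝ) < l := by exact_mod_cast hl
            have hle : X ≤ Real.exp (-(l / (4 * Nn π))) := by
              have h1 : X ≤ 1 - l / (4 * Nn π) := by
                rw [hX']
                have := mul_lt_mul_of_pos_left hm hlpos
                have e : (l:ℝ) * (1 / (4 * (Nn π : ℝ))) = l / (4 * Nn π) := by ring
                linarith
              have h2 := Real.add_one_le_exp (-((l:ℝ) / (4 * Nn π)))
              linarith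
            calc X ^ q ≤ (Real.exp (-(l / (4 * Nn π)))) ^ q := pow_le_pow_left₀ hX0 hle q
              _ = Real.exp (-(q * (l / (4 * Nn π)))) := by
                rw [← Real.exp_nat_mul]; congr 1; ring
              _ ≤ 1 / (Nn π : ℝ) := by
                rw [le_div_iff₀ hNpos, mul_comm]
                exact hq π hπ
        refine (Finset.sum_le_sum e2).trans ?_
        rw [Finset.sum_add_distrib, ← Finset.sum_filter, Finset.sum_const, Finset.sum_const,
          nsmul_eq_mul, nsmul_eq_mul, Finset.card_range, mul_one, mul_one_div_cancel hNpos.ne', ht]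
        have hf : (Finset.range (Nn π)).filter (fun n => n ∈ light Ω (P ∪ G) B (lam ω) (z ω) π)
            = light Ω (P ∪ G) B (lam ω) (z ω) π := by
          ext n
          rw [Finset.mem_filter]
          refine ⟨fun h => h.2, fun h => ⟨?_, h⟩⟩
          unfold light at h
          exact (Finset.mem_filter.1 h).1
        rw [hf]
        linarith
      -- Jensen through the tangent line
      have hJ : ∀ W ∈ PW, (∏ i, pw Ω (P ∪ G) (lam ω) (z ω) (W i)) * Real.log ((miss q W π).card)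
          ≤ (∏ i, pw Ω (P ∪ G) (lam ω) (z ω) (W i)) * Real.log t
            + (∏ i, pw Ω (P ∪ G) (lam ω) (z ω) (W i)) * ((miss q W π).card : ℝ) / t
            - ∏ i, pw Ω (P ∪ G) (lam ω) (z ω) (W i) := by
        intro W _
        by_cases h0 : ∏ i, pw Ω (P ∪ G) (lam ω) (z ω) (W i) = 0
        · rw [h0]; simp
        have hpos : ∀ i, 0 < pw Ω (P ∪ G) (lam ω) (z ω) (W i) := fun i =>
          lt_of_le_of_ne (hpnn _ _)
            (fun h => h0 (Finset.prod_eq_zero (Finset.mem_univ i) h.symm))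
        have hmem : cl π (z ω) ∈ miss q W π :=
          cl_mem_miss (hGs π hπ) (Finset.mem_union_right _ hπ) hpos
        have hc : (0:ℝ) < (miss q W π).card := by exact_mod_cast Finset.card_pos.2 ⟨_, hmem⟩
        have hl1 := log_le_aux hc htpos
        have hw : 0 ≤ ∏ i, pw Ω (P ∪ G) (lam ω) (z ω) (W i) :=
          Finset.prod_nonneg (fun i _ => hpnn _ _)
        have := mul_le_mul_of_nonneg_left hl1 hw
        calc _ ≤ _ := this
          _ = _ := by ring
      refine (Finset.sum_le_sum hJ).trans ?_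
      rw [Finset.sum_sub_distrib, Finset.sum_add_distrib, ← Finset.sum_mul, ← Finset.sum_div, hone]
      have : (∑ W ∈ PW, (∏ i, pw Ω (P ∪ G) (lam ω) (z ω) (W i)) * ((miss q W π).card : ℝ)) / t ≤ 1 :=
        (div_le_one htpos).2 hE
      linarith
    -- product over primes
    have hlog : ∀ W ∈ PW, (∏ i, pw Ω (P ∪ G) (lam ω) (z ω) (W i)) *
        Real.log ((Fintype.piFinset (fun π : {π // π ∈ G} => miss q W π.1)).card)
        = ∑ π ∈ G, (∏ i, pw Ω (P ∪ G) (lam ω) (z ω) (W i)) * Real.log ((miss q W π).card) := by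
      intro W _
      rw [← Finset.mul_sum]
      by_cases h0 : ∏ i, pw Ω (P ∪ G) (lam ω) (z ω) (W i) = 0
      · rw [h0]; simp
      congr 1
      have hpos : ∀ i, 0 < pw Ω (P ∪ G) (lam ω) (z ω) (W i) := fun i =>
        lt_of_le_of_ne (hpnn _ _)
          (fun h => h0 (Finset.prod_eq_zero (Finset.mem_univ i) h.symm))
      have hmem : ∀ π ∈ G, ((miss q W π).card : ℝ) ≠ 0 := by
        intro π hπ
        have : 0 < (miss q W π).card := Finset.card_pos.2
          ⟨_, cl_mem_miss (hGs π hπ) (Finset.mem_union_right _ hπ) hpos⟩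
        exact_mod_cast this.ne'
      rw [Fintype.card_piFinset]
      push_cast
      rw [Real.log_prod (fun π _ => hmem π.1 π.2)]
      exact Finset.sum_coe_sort G (fun π => Real.log ((miss q W π).card))
    rw [Finset.sum_congr rfl hlog, Finset.sum_comm]
    exact Finset.sum_le_sum hpi
  have h3' := Finset.sum_le_sum (fun ω hω => mul_le_mul_of_nonneg_left (h3 ω hω) (hν ω hω))
  have hq0 : (0:ℝ) ≤ q := Nat.cast_nonneg q
  have := mul_le_mul_of_nonneg_left h2 hq0
  linarith

end Crest.Agent.R2.N640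
end

-- ▼ part R2/NoDrop640e
section

/-!
# R2 (Gaussian moat), block N1+N2 (helper640), part e: clusters from paths, entropy bounds
-/

set_option autoImplicit false

namespace Crest.Agent.R2.N640

open Finset Crest.Agent.R2.Gcd62

variable {ζ : Type*}

lemma HQ_le (Z : Finset ζ) (ν : ζ → ℝ) (hν : ∀ ω ∈ Z, 0 ≤ ν ω)
    (hν1 : ∑ ω ∈ Z, ν ω = 1) (z : ζ → GaussianInt) (Q : Finset GaussianInt)
    (hQ : ∀ π ∈ Q, Split π) : HQ Z ν z Q ≤ ∑ π ∈ Q, Real.log (Nn π) := by
  classical
  have main := info_ineq_rel Z ν hν hν1 (fun _ => ()) (fun ω => resQ Q (z ω)) ({()} : Finset Unit)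
    (fun _ _ => 1) (fun _ _ _ _ => by norm_num) (fun _ _ => by simp) (fun _ _ => 1)
    (fun _ _ _ => by norm_num) (fun _ => by simp) (fun _ _ _ => rfl) (fun _ _ _ _ _ => by norm_num) 0
    (fun _ => Fintype.piFinset (fun π : {π // π ∈ Q} => Finset.range (Nn π.1)))
    (fun ω _ W _ _ => by
      rw [Fintype.mem_piFinset]
      intro π
      exact Finset.mem_range.2 (cl_lt (hQ π.1 π.2) _))
  rw [Hn_resQ Z ν z hQ] at main
  refine main.trans ?_
  have h1 : Hn Z ν (fun _ => ()) = 0 := by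
    unfold Hn fm
    refine Finset.sum_eq_zero (fun ω _ => ?_)
    simp [hν1]
  rw [h1]
  have h2 : Real.log ((Fintype.piFinset (fun π : {π // π ∈ Q} => Finset.range (Nn π.1))).card)
      = ∑ π ∈ Q, Real.log (Nn π) := by
    rw [Fintype.card_piFinset]
    push_cast
    rw [Real.log_prod (fun π _ => ?_)]
    · simp only [Finset.card_range]
      exact Finset.sum_coe_sort Q (fun π => Real.log (Nn π))
    · rw [Finset.card_range]
      exact_mod_cast (hQ π.1 π.2 : Nat.Prime (Nn π.1)).pos.ne'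
  simp only [Nat.cast_zero, zero_mul, zero_add]
  rw [← h2]
  have h3 : ∀ ω ∈ Z, ν ω * ∑ W ∈ Fintype.piFinset (fun _ : Fin 0 => ({()} : Finset Unit)),
      (∏ _i : Fin 0, (1:ℝ)) * Real.log ((Fintype.piFinset
        (fun π : {π // π ∈ Q} => Finset.range (Nn π.1))).card)
      = ν ω * Real.log ((Fintype.piFinset
        (fun π : {π // π ∈ Q} => Finset.range (Nn π.1))).card) := by
    intro ω _
    congr 1
    rw [Finset.sum_const, Fintype.card_piFinset]
    simp
  rw [Finset.sum_congr rfl h3, ← Finset.sum_mul, hν1, one_mul]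

/-- strings with steps of length at most `D` -/
noncomputable def str (D : ℝ) (l : ℕ) : Finset (Fin l → GaussianInt) :=
  open Classical in
  ((Fintype.piFinset (fun _ : Fin l => ball D)).image
    (fun st => fun j : Fin l => ∑ i ∈ Finset.univ.filter (fun i : Fin l => i.val < j.val), st i)).filter
    (fun om => Function.Injective om)

lemma log_card_str_le {D : ℝ} (hD : 0 ≤ D) (l : ℕ) :
    Real.log ((str D l).card) ≤ l * Real.log ((2 * D + 1) ^ 2) := by
  classical
  have h1 : (str D l).card ≤ (ball D).card ^ l := by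
    unfold str
    refine (Finset.card_filter_le _ _).trans (Finset.card_image_le.trans ?_)
    rw [Fintype.card_piFinset]
    simp
  rcases Nat.eq_zero_or_pos (str D l).card with h0 | h0
  · rw [h0]
    simp only [Nat.cast_zero, Real.log_zero]
    have : 1 ≤ (2 * D + 1) ^ 2 := by nlinarith
    exact mul_nonneg (Nat.cast_nonneg _) (Real.log_nonneg this)
  · have hb : ((ball D).card : ℝ) ≤ (2 * D + 1) ^ 2 := card_ball hD
    have h2 : ((str D l).card : ℝ) ≤ ((2 * D + 1) ^ 2) ^ l := by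
      calc ((str D l).card : ℝ) ≤ ((ball D).card : ℝ) ^ l := by exact_mod_cast h1
        _ ≤ _ := pow_le_pow_left₀ (Nat.cast_nonneg _) hb l
    have := Real.log_le_log (by exact_mod_cast h0) h2
    rwa [Real.log_pow] at this

lemma str_inj {D : ℝ} {l : ℕ} {om : Fin l → GaussianInt} (h : om ∈ str D l) :
    Function.Injective om := by
  classical
  unfold str at h
  exact (Finset.mem_filter.1 h).2

lemma ab_sum_le {κ : Type*} (s : Finset κ) (f : κ → GaussianInt) :
    ab (∑ i ∈ s, f i) ≤ ∑ i ∈ s, ab (f i) := by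
  classical
  induction s using Finset.induction_on with
  | empty => simp [ab_zero]
  | insert a s ha ih =>
    rw [Finset.sum_insert ha, Finset.sum_insert ha]
    exact (ab_add_le _ _).trans (by linarith)

lemma str_ab {D : ℝ} (hD : 0 ≤ D) {l : ℕ} {om : Fin l → GaussianInt} (h : om ∈ str D l) (j : Fin l) :
    ab (om j) ≤ D * l := by
  classical
  unfold str at h
  obtain ⟨st, hst, rfl⟩ := Finset.mem_image.1 (Finset.mem_filter.1 h).1
  rw [Fintype.mem_piFinset] at hst
  refine (ab_sum_le _ _).trans ?_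
  refine (Finset.sum_le_sum (fun i _ => mem_ball.1 (hst i))).trans ?_
  rw [Finset.sum_const, nsmul_eq_mul, mul_comm]
  refine mul_le_mul_of_nonneg_left ?_ hD
  have : (Finset.univ.filter (fun i : Fin l => i.val < j.val)).card ≤ l := by
    refine (Finset.card_filter_le _ _).trans ?_
    simp
  exact_mod_cast this

lemma mem_str {D : ℝ} {l : ℕ} {γ : ℕ → GaussianInt} (h1 : ∀ i < l, ab (γ (i + 1) - γ i) ≤ D)
    (h2 : ∀ i < l, ∀ j < l, γ i = γ j → i = j) :
    (fun j : Fin l => γ j.val - γ 0) ∈ str D l := by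
  classical
  unfold str
  rw [Finset.mem_filter]
  refine ⟨Finset.mem_image.2 ⟨fun i => γ (i.val + 1) - γ i.val, ?_, ?_⟩, ?_⟩
  · rw [Fintype.mem_piFinset]
    exact fun i => mem_ball.2 (h1 i i.2)
  · funext j
    have : ∑ i ∈ Finset.univ.filter (fun i : Fin l => i.val < j.val), (γ (i.val + 1) - γ i.val)
        = ∑ i ∈ Finset.range j.val, (γ (i + 1) - γ i) := by
      refine Finset.sum_bij (fun i _ => i.val) ?_ ?_ ?_ ?_
      · intro i hi
        exact Finset.mem_range.2 (Finset.mem_filter.1 hi).2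
      · intro i _ i' _ h
        exact Fin.ext h
      · intro i hi
        have hi' := Finset.mem_range.1 hi
        exact ⟨⟨i, hi'.trans j.2⟩, Finset.mem_filter.2 ⟨Finset.mem_univ _, hi'⟩, rfl⟩
      · intro i _
        rfl
    rw [this, Finset.sum_range_sub]
  · intro i j hij
    have : γ i.val = γ j.val := by
      have := hij
      simp only at this
      exact sub_left_inj.1 this
    exact Fin.ext (h2 i i.2 j j.2 this)

/-- a `D`-path of large displacement inside `E` can be taken injective and long -/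
lemma exists_string {D : ℝ} (hD : 0 < D) {E : Set GaussianInt} (hE : X149.ClosedE D E)
    {x : GaussianInt} (hx : x ∈ E) (l : ℕ) :
    ∃ om ∈ str D l, ∀ j : Fin l, x + om j ∈ E := by
  classical
  have hex : ∃ n : ℕ, ∃ γ : ℕ → GaussianInt, γ 0 = x ∧ (∀ i ≤ n, γ i ∈ E) ∧
      (∀ i < n, ab (γ (i + 1) - γ i) ≤ D) ∧ D * l ≤ ab (γ n - x) := hE x hx (D * l)
  set n := Nat.find hex with hn
  obtain ⟨γ, h0, h1, h2, h3⟩ := Nat.find_spec hex
  rw [← hn] at h1 h2 h3
  -- length
  have hlen : ∀ k ≤ n, ab (γ k - x) ≤ D * k := by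
    intro k
    induction k with
    | zero => intro _; rw [h0]; simp [ab_zero]
    | succ k ih =>
      intro hk
      have e : γ (k + 1) - x = (γ (k + 1) - γ k) + (γ k - x) := by ring
      rw [e]
      refine (ab_add_le _ _).trans ?_
      have := ih (by omega)
      have := h2 k (by omega)
      push_cast
      linarith
  have hln : l ≤ n := by
    have h4 := h3.trans (hlen n le_rfl)
    have := le_of_mul_le_mul_left h4 hD
    exact_mod_cast this
  -- injectivity
  have hinj : ∀ a b, a < b → b ≤ n → γ a ≠ γ b := by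
    intro a b hab hb heq
    refine Nat.find_min hex (m := n - (b - a)) (by omega)
      ⟨fun i => if i ≤ a then γ i else γ (i + (b - a)), ?_, ?_, ?_, ?_⟩
    · simp [h0]
    · intro i hi
      dsimp only
      split_ifs with h
      · exact h1 i (by omega)
      · exact h1 _ (by omega)
    · intro i hi
      dsimp only
      by_cases h : i + 1 ≤ a
      · rw [if_pos h, if_pos (by omega)]
        exact h2 i (by omega)
      · rw [if_neg h]
        by_cases h' : i ≤ a
        · have : i = a := by omega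
          subst this
          rw [if_pos le_rfl, heq]
          have e : i + 1 + (b - i) = b + 1 := by omega
          rw [e]
          exact h2 b (by omega)
        · rw [if_neg h']
          have e : i + 1 + (b - a) = (i + (b - a)) + 1 := by omega
          rw [e]
          exact h2 _ (by omega)
    · dsimp only
      by_cases h : n - (b - a) ≤ a
      · rw [if_pos h]
        have e1 : n - (b - a) = a := by omega
        have e2 : n = b := by omega
        rw [e1, heq, ← e2]
        exact h3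
      · rw [if_neg h]
        have e : n - (b - a) + (b - a) = n := by omega
        rw [e]
        exact h3
  refine ⟨fun j : Fin l => γ j.val - γ 0, mem_str (fun i hi => h2 i (by omega)) ?_, ?_⟩
  · intro i hi j hj hij
    rcases lt_trichotomy i j with h | h | h
    · exact absurd hij (hinj i j h (by omega))
    · exact h
    · exact absurd hij.symm (hinj j i h (by omega))
  · intro j
    have e : x + (γ j.val - γ 0) = γ j.val := by rw [h0]; ring
    rw [e]
    exact h1 _ (by have := j.2; omega)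

lemma pth_nonempty {D : ℝ} (hD : 0 < D) {E : Set GaussianInt} (hE : X149.ClosedE D E)
    {Q : Finset GaussianInt} (hQ : ∀ π ∈ Q, ∀ x ∈ E, ¬ π ∣ x) {x : GaussianInt} (hx : x ∈ E)
    (l : ℕ) : (pth (str D l) Q x).Nonempty := by
  obtain ⟨om, h1, h2⟩ := exists_string hD hE hx l
  exact ⟨om, mem_pth.2 ⟨h1, fun π hπ j => hQ π hπ _ (h2 j)⟩⟩

end Crest.Agent.R2.N640
end

-- ▼ part R2/NoDrop640f
section

/-!
# R2 (Gaussian moat), block N1+N2 (helper640), part f: choice of the scale and of the state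
-/

set_option autoImplicit false

namespace Crest.Agent.R2.N640

open Finset Crest.Agent.R2.Gcd62

variable {ζ : Type*} {l : ℕ}

/-- the union of the first `k` windows -/
def PU (G : ℕ → Finset GaussianInt) (k : ℕ) : Finset GaussianInt := (Finset.range k).biUnion G

lemma PU_zero (G : ℕ → Finset GaussianInt) : PU G 0 = ∅ := by simp [PU]

lemma PU_succ (G : ℕ → Finset GaussianInt) (k : ℕ) : PU G (k + 1) = PU G k ∪ G k := by
  unfold PU
  rw [Finset.range_add_one, Finset.biUnion_insert, Finset.union_comm]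

lemma mem_PU {G : ℕ → Finset GaussianInt} {k : ℕ} {π : GaussianInt} :
    π ∈ PU G k ↔ ∃ j < k, π ∈ G j := by
  unfold PU
  simp

lemma sum_PU_le (G : ℕ → Finset GaussianInt) {f : GaussianInt → ℝ} (hf : ∀ π, 0 ≤ f π) (k : ℕ) :
    ∑ π ∈ PU G k, f π ≤ ∑ j ∈ Finset.range k, ∑ π ∈ G j, f π := by
  induction k with
  | zero => simp [PU_zero]
  | succ k ih =>
    rw [PU_succ, Finset.sum_range_succ]
    have h1 := Finset.sum_union_inter (s₁ := PU G k) (s₂ := G k) (f := f)
    have h2 : 0 ≤ ∑ π ∈ PU G k ∩ G k, f π := Finset.sum_nonneg (fun π _ => hf π)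
    linarith

lemma log_card_mono {α : Type*} {s t : Finset α} (h : s ⊆ t) :
    Real.log (s.card : ℝ) ≤ Real.log (t.card : ℝ) := by
  rcases Nat.eq_zero_or_pos s.card with h0 | h0
  · rw [h0]
    simpa using Real.log_natCast_nonneg t.card
  · exact Real.log_le_log (by exact_mod_cast h0) (by exact_mod_cast Finset.card_le_card h)

lemma FF_nonneg {Z : Finset ζ} {ν : ζ → ℝ} (hν : ∀ ω ∈ Z, 0 ≤ ν ω) (z : ζ → GaussianInt)
    (Ω : Finset (Fin l → GaussianInt)) (B : Finset GaussianInt) {lam : ζ → GaussianInt → ℝ}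
    (hlam : ∀ ω y, 0 ≤ lam ω y) (Q : Finset GaussianInt) : 0 ≤ FF Z ν z Ω B lam Q := by
  unfold FF
  exact Finset.sum_nonneg (fun ω hω => mul_nonneg (hν ω hω)
    (Finset.sum_nonneg (fun y _ => mul_nonneg (hlam ω y) (Real.log_natCast_nonneg _))))

lemma FF_anti {Z : Finset ζ} {ν : ζ → ℝ} (hν : ∀ ω ∈ Z, 0 ≤ ν ω) (z : ζ → GaussianInt)
    (Ω : Finset (Fin l → GaussianInt)) (B : Finset GaussianInt) {lam : ζ → GaussianInt → ℝ}
    (hlam : ∀ ω y, 0 ≤ lam ω y) {Q Q' : Finset GaussianInt} (h : Q ⊆ Q') :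
    FF Z ν z Ω B lam Q' ≤ FF Z ν z Ω B lam Q := by
  unfold FF
  exact Finset.sum_le_sum (fun ω hω => mul_le_mul_of_nonneg_left
    (Finset.sum_le_sum (fun y _ => mul_le_mul_of_nonneg_left (log_card_mono (pth_anti Ω h _))
      (hlam ω y))) (hν ω hω))

lemma FF_le {Z : Finset ζ} {ν : ζ → ℝ} (hν : ∀ ω ∈ Z, 0 ≤ ν ω) (hν1 : ∑ ω ∈ Z, ν ω = 1)
    (z : ζ → GaussianInt)
    (Ω : Finset (Fin l → GaussianInt)) (B : Finset GaussianInt) {lam : ζ → GaussianInt → ℝ}
    (hlam : ∀ ω y, 0 ≤ lam ω y) (hlam1 : ∀ ω ∈ Z, ∑ y ∈ B, lam ω y = 1) (Q : Finset GaussianInt) :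
    FF Z ν z Ω B lam Q ≤ Real.log Ω.card := by
  unfold FF
  have : ∀ ω ∈ Z, ν ω * ∑ y ∈ B, lam ω y * Real.log ((pth Ω Q (z ω + y)).card)
      ≤ ν ω * Real.log Ω.card := by
    intro ω hω
    refine mul_le_mul_of_nonneg_left ?_ (hν ω hω)
    calc ∑ y ∈ B, lam ω y * Real.log ((pth Ω Q (z ω + y)).card)
        ≤ ∑ y ∈ B, lam ω y * Real.log Ω.card :=
          Finset.sum_le_sum (fun y _ => mul_le_mul_of_nonneg_left
            (log_card_mono (pth_subset Ω Q _)) (hlam ω y))
      _ = Real.log Ω.card := by rw [← Finset.sum_mul, hlam1 ω hω, one_mul]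
  refine (Finset.sum_le_sum this).trans ?_
  rw [← Finset.sum_mul, hν1, one_mul]

/-- pure real-number form of the telescoping -/
lemma exists_scale_real (n : ℕ) (F L : ℕ → ℝ) (lr LB LD c H : ℝ) (hl : 0 < lr) (hc : 0 < c)
    (hF0 : F 0 ≤ lr * LD) (hFn : 0 ≤ F n) (hLB : n * LB ≤ lr)
    (hH : (2 + LD) / c ≤ H) (hsum : H ≤ ∑ k ∈ Finset.range n, 1 / L k) :
    ∃ k < n, LB + F k - F (k + 1) ≤ c * lr * (1 / L k) := by
  by_contra hcon
  push Not at hcon
  have h1 : ∑ k ∈ Finset.range n, c * lr * (1 / L k)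
      ≤ ∑ k ∈ Finset.range n, (LB + (F k - F (k + 1))) :=
    Finset.sum_le_sum (fun k hk => by
      have := hcon k (Finset.mem_range.1 hk)
      linarith)
  rw [← Finset.mul_sum, Finset.sum_add_distrib, Finset.sum_range_sub', Finset.sum_const,
    Finset.card_range, nsmul_eq_mul] at h1
  have h2 : c * lr * H ≤ c * lr * ∑ k ∈ Finset.range n, 1 / L k :=
    mul_le_mul_of_nonneg_left hsum (by positivity)
  have h3 : (2 + LD) * lr ≤ c * lr * H := by
    have := (div_le_iff₀ hc).1 hH
    nlinarith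
  nlinarith

/-- lacunary sums -/
lemma sum_lacunary (n : ℕ) (w : ℕ → ℝ) (κ : ℝ) (hκ : 2 ≤ κ) (hw : ∀ k < n, 0 ≤ w k)
    (h : ∀ k, k + 1 < n → κ * w k ≤ w (k + 1)) :
    ∀ k < n, ∑ j ∈ Finset.range k, w j ≤ 2 * w k / κ := by
  intro k
  induction k with
  | zero =>
    intro hk
    have := hw 0 hk
    simp only [Finset.range_zero, Finset.sum_empty]
    positivity
  | succ k ih =>
    intro hk
    have h1 := ih (by omega)
    have h2 := h k hk
    have h0 := hw k (by omega)
    have hκ0 : 0 < κ := by linarith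
    rw [Finset.sum_range_succ, le_div_iff₀ hκ0]
    rw [le_div_iff₀ hκ0] at h1
    nlinarith

/-- numerical facts for a window -/
lemma blk_numbers {c0 w mI τ : ℝ} (hm : 0 < mI) (hτ : 0 < τ) (hτ1 : τ ≤ 1 / 100)
    {G : Finset GaussianInt} (hlog : 4 / τ ≤ Real.log w) (hw : 1 ≤ w)
    (hB : X149.Blk w G) (h1 : c0 * w / Real.log w ≤ mI * G.card)
    (h2 : (G.card : ℝ) ≤ 2 * c0 * w / Real.log w) :
    (c0 / mI) * w ≤ ∑ π ∈ G, Real.log (Nn π) ∧ ∑ π ∈ G, Real.log (Nn π) ≤ 4 * c0 * w := by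
  have h400 : 400 ≤ Real.log w := by
    refine le_trans ?_ hlog
    rw [le_div_iff₀ hτ]; linarith
  have hLpos : 0 < Real.log w := by linarith
  have hw0 : 0 < w := by linarith
  have hNn : ∀ π : GaussianInt, ((Nn π : ℕ) : ℝ) = (π.norm : ℝ) := by
    intro π
    have := Nn_cast π
    exact_mod_cast congrArg (fun z : ℤ => (z : ℝ)) this
  constructor
  · have : ∑ π ∈ G, Real.log w ≤ ∑ π ∈ G, Real.log (Nn π) := by
      refine Finset.sum_le_sum (fun π hπ => ?_)
      refine Real.log_le_log hw0 ?_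
      rw [hNn]
      exact (hB.lo π hπ).le
    refine le_trans ?_ this
    rw [Finset.sum_const, nsmul_eq_mul]
    rw [div_le_iff₀ hLpos] at h1
    rw [div_mul_eq_mul_div, div_le_iff₀ hm]
    nlinarith
  · have : ∑ π ∈ G, Real.log (Nn π) ≤ ∑ π ∈ G, 2 * Real.log w := by
      refine Finset.sum_le_sum (fun π hπ => ?_)
      have h3 : Real.log (Nn π) ≤ Real.log (4 * w) := by
        refine Real.log_le_log ?_ ?_
        · rw [hNn]; linarith [hB.lo π hπ]
        · rw [hNn]; exact hB.hi π hπ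
      rw [Real.log_mul (by norm_num) hw0.ne'] at h3
      have h4 : Real.log 4 ≤ 3 := by
        have := Real.log_le_sub_one_of_pos (show (0:ℝ) < 4 by norm_num)
        linarith
      linarith
    refine this.trans ?_
    rw [Finset.sum_const, nsmul_eq_mul]
    rw [le_div_iff₀ hLpos] at h2
    nlinarith


lemma hdist_aux {D w : ℝ} (hD : 0 ≤ D) {l : ℕ} {G : Finset GaussianInt} (hB : X149.Blk w G)
    (hw : (2 * D * l) ^ 2 ≤ w) :
    ∀ om ∈ str D l, ∀ π ∈ G, ∀ i j : Fin l, i ≠ j → ¬ π ∣ om i - om j := by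
  intro om hom π hπ i j hij hd
  have h0 : om i - om j ≠ 0 := fun h => hij (str_inj hom (sub_eq_zero.1 h))
  have h1 := ab_dvd hd h0
  have h2 : ab (om i - om j) ≤ 2 * D * l := by
    refine (ab_sub_le _ _).trans ?_
    have := str_ab hD hom i
    have := str_ab hD hom j
    linarith
  have h3 : ab π ^ 2 ≤ (2 * D * l) ^ 2 := pow_le_pow_left₀ (ab_nonneg _) (h1.trans h2) 2
  have h4 := hB.lo π hπ
  rw [ab_sq] at h3
  linarith

/-- **choice of scale and state** -/
theorem exists_scale (D c0 τ : ℝ) (mI : ℕ) (hD : 1 ≤ D) (hc0 : 0 < c0) (hτ : 0 < τ)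
    (hτ1 : τ ≤ 1 / 100) (hmI : 0 < mI) (n : ℕ) (w : ℕ → ℝ) (G' : ℕ → Finset GaussianInt)
    (E : Set GaussianInt) (l : ℕ) (R : ℝ)
    (hW : ∀ k < n, Real.exp (4 / τ) ≤ w k) (hlac : ∀ k, k + 1 < n → (8 * mI / τ) * w k ≤ w (k + 1))
    (hBlk : ∀ k < n, X149.Blk (w k) (G' k))
    (hlow : ∀ k < n, c0 * w k / Real.log (w k) ≤ mI * (G' k).card)
    (hupp : ∀ k < n, ((G' k).card : ℝ) ≤ 2 * c0 * w k / Real.log (w k))
    (hH : (2 + Real.log ((2 * D + 1) ^ 2)) / (τ * c0 / (64 * mI))
      ≤ ∑ k ∈ Finset.range n, 1 / Real.log (w k))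
    (hR : 1 ≤ R) (hl : (n : ℝ) * (2 * Real.log R + 2 * Real.log 3) ≤ l)
    (hDl : ∀ k < n, (2 * D * l) ^ 2 ≤ w k)
    (hE : X149.ClosedE D E) (hav : ∀ k < n, ∀ p ∈ G' k, ∀ x ∈ E, ¬ p ∣ x)
    (Z : Finset ζ) (ν : ζ → ℝ) (hν : ∀ ω ∈ Z, 0 ≤ ν ω) (hν1 : ∑ ω ∈ Z, ν ω = 1)
    (z : ζ → GaussianInt) (lam : ζ → GaussianInt → ℝ) (hlam : ∀ ω y, 0 ≤ lam ω y)
    (hlam1 : ∀ ω ∈ Z, ∑ y ∈ ball R, lam ω y = 1)
    (hlamE : ∀ ω ∈ Z, ∀ y, 0 < lam ω y → z ω + y ∈ E)
    (hKac : ∀ k < n, (1 - τ) * ∑ p ∈ G' k, Real.log (Nn p) ≤ HQ Z ν z (G' k)) :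
    0 < l ∧ ∃ k < n, ∃ ω ∈ Z, (1 - 3 * τ) * ∑ p ∈ G' k, Real.log (Nn p)
      ≤ ∑ p ∈ G' k, Real.log (1 + ((light (str D l) (PU G' (k + 1)) (ball R) (lam ω) (z ω) p).card : ℝ)) := by
  classical
  have hmI' : (0:ℝ) < mI := by exact_mod_cast hmI
  have hD0 : (0:ℝ) ≤ D := by linarith
  have hDpos : (0:ℝ) < D := by linarith
  set LD := Real.log ((2 * D + 1) ^ 2) with hLD
  have hLD0 : 0 ≤ LD := Real.log_nonneg (by nlinarith)
  set c := τ * c0 / (64 * mI) with hc
  have hcpos : 0 < c := by positivity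
  have hlogR : 0 ≤ Real.log R := Real.log_nonneg hR
  have hlog3 : 1 ≤ Real.log 3 := by
    rw [Real.le_log_iff_exp_le (by norm_num)]
    have := Real.exp_one_lt_d9
    linarith
  have hn : 0 < n := by
    rcases Nat.eq_zero_or_pos n with h | h
    · subst h
      simp only [Finset.range_zero, Finset.sum_empty] at hH
      have : 0 < (2 + LD) / c := by positivity
      linarith
    · exact h
  have hn' : (1:ℝ) ≤ n := by exact_mod_cast hn
  have hl1 : (1:ℝ) ≤ l := by nlinarith
  have hlpos : 0 < l := by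
    have : (0:ℝ) < l := by linarith
    exact_mod_cast this
  refine ⟨hlpos, ?_⟩
  have hl0 : (0:ℝ) < l := by linarith
  have hlogw : ∀ k < n, 4 / τ ≤ Real.log (w k) := fun k hk => by
    rw [Real.le_log_iff_exp_le ((Real.exp_pos _).trans_le (hW k hk))]
    exact hW k hk
  have h400 : ∀ k < n, 400 ≤ Real.log (w k) := fun k hk => by
    refine le_trans ?_ (hlogw k hk)
    rw [le_div_iff₀ hτ]; linarith
  have hw0 : ∀ k < n, 0 < w k := fun k hk => (Real.exp_pos _).trans_le (hW k hk)
  have hw1 : ∀ k < n, 1 ≤ w k := fun k hk =>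
    (Real.one_le_exp (by positivity)).trans (hW k hk)
  have hlw : ∀ k < n, (l:ℝ) ≤ w k := fun k hk => by
    have h1 := hDl k hk
    have h2 : (l:ℝ) ≤ 2 * D * l := by nlinarith
    have h3 : (1:ℝ) ≤ 2 * D * l := by linarith
    nlinarith
  have hsplit : ∀ k < n, ∀ π ∈ G' k, Split π := fun k hk π hπ => (hBlk k hk).rat π hπ
  have hsplitP : ∀ k ≤ n, ∀ π ∈ PU G' k, Split π := fun k hk π hπ => by
    obtain ⟨j, hj, hj'⟩ := mem_PU.1 hπ
    exact hsplit j (by omega) π hj'
  have havP : ∀ k ≤ n, ∀ π ∈ PU G' k, ∀ x ∈ E, ¬ π ∣ x := fun k hk π hπ => by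
    obtain ⟨j, hj, hj'⟩ := mem_PU.1 hπ
    exact hav j (by omega) π hj'
  -- choice of the scale
  set F : ℕ → ℝ := fun k => FF Z ν z (str D l) (ball R) lam (PU G' k) with hF
  have hBR : (ball R).Nonempty := ⟨0, mem_ball.2 (by rw [ab_zero]; linarith)⟩
  have hBRc : (0:ℝ) < (ball R).card := by exact_mod_cast Finset.card_pos.2 hBR
  have hLB : Real.log (ball R).card ≤ 2 * Real.log R + 2 * Real.log 3 := by
    have h1 : ((ball R).card : ℝ) ≤ (3 * R) ^ 2 := by
      refine (card_ball (by linarith : (0:ℝ) ≤ R)).trans ?_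
      have : 2 * R + 1 ≤ 3 * R := by linarith
      exact pow_le_pow_left₀ (by linarith) this 2
    have h2 := Real.log_le_log hBRc h1
    rw [Real.log_pow, Real.log_mul (by norm_num) (by linarith)] at h2
    push_cast at h2
    linarith
  have hLB0 : 0 ≤ Real.log (ball R).card := Real.log_natCast_nonneg _
  obtain ⟨k, hk, hkF⟩ := exists_scale_real n F (fun k => Real.log (w k)) l (Real.log (ball R).card)
    LD c _ hl0 hcpos ((FF_le hν hν1 z _ _ hlam hlam1 _).trans (log_card_str_le hD0 l))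
    (FF_nonneg hν z _ _ hlam _) (le_trans (by
      have h0 : (0:ℝ) ≤ n := by linarith
      exact mul_le_mul_of_nonneg_left hLB h0) hl) le_rfl hH
  refine ⟨k, hk, ?_⟩
  obtain ⟨hb1, hb2⟩ := blk_numbers hmI' hτ hτ1 (hlogw k hk) (hw1 k hk) (hBlk k hk)
    (hlow k hk) (hupp k hk)
  set b := ∑ p ∈ G' k, Real.log (Nn p) with hb
  have hwk := hw0 k hk
  have hLk := h400 k hk
  have hLk0 : 0 < Real.log (w k) := by linarith
  have hNn : ∀ π : GaussianInt, ((Nn π : ℕ) : ℝ) = (π.norm : ℝ) := by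
    intro π
    have := Nn_cast π
    exact_mod_cast congrArg (fun z : ℤ => (z : ℝ)) this
  -- number of samples
  set q : ℕ := ⌈32 * w k * Real.log (w k) / l⌉₊ with hq
  have hq1 : 32 * w k * Real.log (w k) / l ≤ q := Nat.le_ceil _
  have hq2 : (q:ℝ) ≤ 64 * w k * Real.log (w k) / l := by
    have h1 : (q:ℝ) < 32 * w k * Real.log (w k) / l + 1 := Nat.ceil_lt_add_one (by positivity)
    have h2 : 1 ≤ 32 * w k * Real.log (w k) / l := by
      rw [le_div_iff₀ hl0]
      have := hlw k hk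
      nlinarith
    have h3 : 64 * w k * Real.log (w k) / l = 32 * w k * Real.log (w k) / l
      + 32 * w k * Real.log (w k) / l := by ring
    linarith
  have hscale := scale_ineq Z ν hν hν1 z (PU G' k) (G' k) (hsplitP k hk.le) (hsplit k hk)
    (ball R) hBR lam hlam hlam1 (str D l)
    (fun ω hω y _ hy => by
      rw [← PU_succ]
      exact pth_nonempty hDpos hE (havP (k + 1) hk) (hlamE ω hω y hy) l)
    hlpos (hdist_aux hD0 (hBlk k hk) (hDl k hk)) q
    (fun π hπ => by
      have hN1 : w k < (Nn π : ℝ) := by rw [hNn]; exact (hBlk k hk).lo π hπ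
      have hN2 : (Nn π : ℝ) ≤ 4 * w k := by rw [hNn]; exact (hBlk k hk).hi π hπ
      have hN0 : (0:ℝ) < Nn π := by linarith
      have h1 : Real.log (Nn π) ≤ q * (l / (4 * Nn π)) := by
        have h2 : Real.log (Nn π) ≤ 2 * Real.log (w k) := by
          have h3 := Real.log_le_log hN0 hN2
          rw [Real.log_mul (by norm_num) hwk.ne'] at h3
          have h4 : Real.log 4 ≤ 3 := by
            have := Real.log_le_sub_one_of_pos (show (0:ℝ) < 4 by norm_num)
            linarith
          linarith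
        refine h2.trans ?_
        have h5 : 32 * w k * Real.log (w k) ≤ q * l := by
          rwa [div_le_iff₀ hl0] at hq1
        rw [mul_div_assoc', le_div_iff₀ (by positivity)]
        nlinarith
      rw [Real.exp_neg]
      have h6 : (Nn π : ℝ) ≤ Real.exp (q * (l / (4 * Nn π))) := by
        rw [← Real.log_le_iff_le_exp hN0]; exact h1
      rw [mul_inv_le_iff₀ (Real.exp_pos _), one_mul]
      exact h6)
  rw [← PU_succ] at hscale
  -- the information term
  have hI : q * (Real.log (ball R).card + FF Z ν z (str D l) (ball R) lam (PU G' k)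
      - FF Z ν z (str D l) (ball R) lam (PU G' (k + 1))) ≤ τ * b := by
    have hΔ : 0 ≤ Real.log (ball R).card + F k - F (k + 1) := by
      have : F (k + 1) ≤ F k := FF_anti hν z _ _ hlam (by rw [PU_succ]; exact Finset.subset_union_left)
      linarith
    have h1 : (q:ℝ) * (Real.log (ball R).card + F k - F (k + 1))
        ≤ (64 * w k * Real.log (w k) / l) * (c * l * (1 / Real.log (w k))) :=
      mul_le_mul hq2 hkF hΔ (by positivity)
    have h2 : (64 * w k * Real.log (w k) / l) * (c * l * (1 / Real.log (w k)))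
        = τ * ((c0 / mI) * w k) := by
      rw [hc]
      field_simp
    calc _ ≤ _ := h1
      _ = _ := h2
      _ ≤ τ * b := mul_le_mul_of_nonneg_left hb1 hτ.le
  -- the past term
  have hP : HQ Z ν z (PU G' k) ≤ τ * b := by
    refine (HQ_le Z ν hν hν1 z _ (hsplitP k hk.le)).trans ?_
    have h1 : ∑ π ∈ PU G' k, Real.log (Nn π) ≤ ∑ j ∈ Finset.range k, ∑ π ∈ G' j, Real.log (Nn π) := by
      exact sum_PU_le G' (fun π => Real.log_natCast_nonneg (Nn π)) k
    have h2 : ∑ j ∈ Finset.range k, ∑ π ∈ G' j, Real.log (Nn π)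
        ≤ ∑ j ∈ Finset.range k, 4 * c0 * w j := by
      refine Finset.sum_le_sum (fun j hj => ?_)
      have hj' : j < n := (Finset.mem_range.1 hj).trans hk
      exact (blk_numbers hmI' hτ hτ1 (hlogw j hj') (hw1 j hj') (hBlk j hj')
        (hlow j hj') (hupp j hj')).2
    have hκ : 2 ≤ 8 * (mI:ℝ) / τ := by
      rw [le_div_iff₀ hτ]
      have : (1:ℝ) ≤ mI := by exact_mod_cast hmI
      linarith
    have h3 := sum_lacunary n w (8 * mI / τ) hκ (fun k hk => (hw0 k hk).le) hlac k hk
    rw [← Finset.mul_sum] at h2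
    have h4 : 4 * c0 * (2 * w k / (8 * mI / τ)) = τ * ((c0 / mI) * w k) := by
      field_simp
      ring
    calc _ ≤ _ := h1
      _ ≤ _ := h2
      _ ≤ 4 * c0 * (2 * w k / (8 * mI / τ)) := mul_le_mul_of_nonneg_left h3 (by positivity)
      _ = _ := h4
      _ ≤ τ * b := mul_le_mul_of_nonneg_left hb1 hτ.le
  have hK := hKac k hk
  -- the state
  have hZ : Z.Nonempty := by
    by_contra h
    rw [Finset.not_nonempty_iff_eq_empty] at h
    rw [h] at hν1
    simp at hν1
  obtain ⟨ω, hω, hmax⟩ := Finset.exists_max_image Z (fun ω => ∑ p ∈ G' k,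
    Real.log (1 + ((light (str D l) (PU G' (k + 1)) (ball R) (lam ω) (z ω) p).card : ℝ))) hZ
  refine ⟨ω, hω, ?_⟩
  have hsum : ∑ ω' ∈ Z, ν ω' * ∑ p ∈ G' k,
      Real.log (1 + ((light (str D l) (PU G' (k + 1)) (ball R) (lam ω') (z ω') p).card : ℝ))
      ≤ ∑ ω' ∈ Z, ν ω' * ∑ p ∈ G' k,
      Real.log (1 + ((light (str D l) (PU G' (k + 1)) (ball R) (lam ω) (z ω) p).card : ℝ)) :=
    Finset.sum_le_sum (fun ω' hω' => mul_le_mul_of_nonneg_left (hmax ω' hω') (hν ω' hω'))
  rw [← Finset.sum_mul, hν1, one_mul] at hsum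
  linarith

end Crest.Agent.R2.N640
end

-- ▼ part R2/NoDrop640g
section

/-!
# R2 (Gaussian moat), block N1+N2 (helper640), part g: half of the primes, output shape
-/

set_option autoImplicit false

namespace Crest.Agent.R2.N640

open Finset Crest.Agent.R2.Gcd62

variable {l : ℕ}

lemma Nn_cast_real (π : GaussianInt) : ((Nn π : ℕ) : ℝ) = (π.norm : ℝ) := by
  have := Nn_cast π
  exact_mod_cast congrArg (fun z : ℤ => (z : ℝ)) this

lemma light_card_le (Ω : Finset (Fin l → GaussianInt)) (Q : Finset GaussianInt)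
    (B : Finset GaussianInt) (lam : GaussianInt → ℝ) (z π : GaussianInt) :
    (light Ω Q B lam z π).card ≤ Nn π := by
  classical
  unfold light
  exact (Finset.card_filter_le _ _).trans (by rw [Finset.card_range])

/-- at least half of the primes have many light classes -/
lemma half_light {τ w : ℝ} (hτ : 0 < τ) (hτ1 : τ ≤ 1 / 100) (hlog : 4 / τ ≤ Real.log w)
    (hw : 1 ≤ w) {G : Finset GaussianInt} (hB : X149.Blk w G) (L : GaussianInt → ℕ)
    (hL : ∀ p ∈ G, L p ≤ Nn p)
    (h : (1 - 3 * τ) * ∑ p ∈ G, Real.log (Nn p) ≤ ∑ p ∈ G, Real.log (1 + (L p : ℝ))) :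
    (G.card : ℝ) / 2
      ≤ ((G.filter (fun p => ((p.norm : ℝ) ^ (1 - 8 * τ)) ≤ (L p : ℝ))).card : ℝ) := by
  classical
  have hw0 : 0 < w := by linarith
  have hL4 : 4 ≤ τ * Real.log w := by
    rw [div_le_iff₀ hτ] at hlog; linarith
  have h400 : 400 ≤ Real.log w := by
    refine le_trans ?_ hlog
    rw [le_div_iff₀ hτ]; linarith
  have hlog2 : Real.log 2 ≤ 1 := by
    have := Real.log_le_sub_one_of_pos (show (0:ℝ) < 2 by norm_num)
    linarith
  have hlog4 : Real.log 4 ≤ 3 := by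
    have := Real.log_le_sub_one_of_pos (show (0:ℝ) < 4 by norm_num)
    linarith
  set T := G.filter (fun p => ((p.norm : ℝ) ^ (1 - 8 * τ)) ≤ (L p : ℝ)) with hT
  set T' := G.filter (fun p => ¬ ((p.norm : ℝ) ^ (1 - 8 * τ)) ≤ (L p : ℝ)) with hT'
  have hcard : (T.card : ℝ) + (T'.card : ℝ) = (G.card : ℝ) := by
    have := Finset.card_filter_add_card_filter_not (s := G)
      (fun p => ((p.norm : ℝ) ^ (1 - 8 * τ)) ≤ (L p : ℝ))
    exact_mod_cast this
  by_contra hcon
  push Not at hcon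
  have hT'big : (G.card : ℝ) / 2 < T'.card := by linarith
  -- pointwise bounds
  have hlow : ∀ p ∈ G, Real.log w ≤ Real.log (Nn p) := fun p hp => by
    refine Real.log_le_log hw0 ?_
    rw [Nn_cast_real]; exact (hB.lo p hp).le
  have hupp : ∀ p ∈ G, Real.log (Nn p) ≤ Real.log w + 3 := fun p hp => by
    have h3 : Real.log (Nn p) ≤ Real.log (4 * w) := by
      refine Real.log_le_log ?_ ?_
      · rw [Nn_cast_real]; linarith [hB.lo p hp]
      · rw [Nn_cast_real]; exact hB.hi p hp
    rw [Real.log_mul (by norm_num) hw0.ne'] at h3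
    linarith
  have hNpos : ∀ p ∈ G, (1:ℝ) < Nn p := fun p hp => by
    rw [Nn_cast_real]; linarith [hB.lo p hp]
  have h1 : ∀ p ∈ T, Real.log (1 + (L p : ℝ)) ≤ Real.log (Nn p) + 1 := by
    intro p hp
    have hpG : p ∈ G := (Finset.mem_filter.1 hp).1
    have hN := hNpos p hpG
    have hLp : (L p : ℝ) ≤ Nn p := by exact_mod_cast hL p hpG
    have : Real.log (1 + (L p : ℝ)) ≤ Real.log (2 * Nn p) :=
      Real.log_le_log (by positivity) (by linarith)
    rw [Real.log_mul (by norm_num) (by linarith)] at this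
    linarith
  have h2 : ∀ p ∈ T', Real.log (1 + (L p : ℝ)) ≤ (1 - 8 * τ) * Real.log (Nn p) + 1 := by
    intro p hp
    have hpG : p ∈ G := (Finset.mem_filter.1 hp).1
    have hlt := not_le.1 (Finset.mem_filter.1 hp).2
    have hN := hNpos p hpG
    rw [← Nn_cast_real] at hlt
    have hx1 : (1:ℝ) ≤ (Nn p : ℝ) ^ (1 - 8 * τ) := Real.one_le_rpow hN.le (by linarith)
    have : Real.log (1 + (L p : ℝ)) ≤ Real.log (2 * (Nn p : ℝ) ^ (1 - 8 * τ)) :=
      Real.log_le_log (by positivity) (by linarith)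
    rw [Real.log_mul (by norm_num) (by linarith), Real.log_rpow (by linarith)] at this
    linarith
  have hsum : ∑ p ∈ G, Real.log (1 + (L p : ℝ)) ≤
      ∑ p ∈ G, Real.log (Nn p) + G.card - 8 * τ * ∑ p ∈ T', Real.log (Nn p) := by
    have e1 : ∑ p ∈ G, Real.log (1 + (L p : ℝ)) = ∑ p ∈ T, Real.log (1 + (L p : ℝ))
        + ∑ p ∈ T', Real.log (1 + (L p : ℝ)) := by
      rw [hT, hT', Finset.sum_filter_add_sum_filter_not]
    have e2 : ∑ p ∈ G, Real.log (Nn p) = ∑ p ∈ T, Real.log (Nn p) + ∑ p ∈ T', Real.log (Nn p) := by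
      rw [hT, hT', Finset.sum_filter_add_sum_filter_not]
    have e3 := Finset.sum_le_sum h1
    have e4 := Finset.sum_le_sum h2
    rw [Finset.sum_add_distrib, Finset.sum_const, nsmul_eq_mul, mul_one] at e3 e4
    rw [← Finset.mul_sum] at e4
    rw [e1, e2]
    have : (1 - 8 * τ) * ∑ p ∈ T', Real.log (Nn p)
      = ∑ p ∈ T', Real.log (Nn p) - 8 * τ * ∑ p ∈ T', Real.log (Nn p) := by ring
    linarith
  have h3 : (T'.card : ℝ) * Real.log w ≤ ∑ p ∈ T', Real.log (Nn p) := by
    have := Finset.sum_le_sum (s := T') (fun p hp => hlow p (Finset.mem_filter.1 hp).1)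
    rwa [Finset.sum_const, nsmul_eq_mul] at this
  have h4 : ∑ p ∈ G, Real.log (Nn p) ≤ (G.card : ℝ) * (Real.log w + 3) := by
    have := Finset.sum_le_sum (s := G) (fun p hp => hupp p hp)
    rwa [Finset.sum_const, nsmul_eq_mul] at this
  have hg : (0:ℝ) ≤ G.card := Nat.cast_nonneg _
  have hgpos : (0:ℝ) < (T'.card : ℝ) := by linarith
  -- 8 τ ΣT' ≤ #G + 3 τ b
  have h5 : 8 * τ * ∑ p ∈ T', Real.log (Nn p) ≤ G.card + 3 * τ * ∑ p ∈ G, Real.log (Nn p) := by
    linarith
  have h6 : 8 * τ * ((T'.card : ℝ) * Real.log w) ≤ G.card + 3 * τ * ((G.card : ℝ) * (Real.log w + 3)) := by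
    have a1 := mul_le_mul_of_nonneg_left h3 (by positivity : (0:ℝ) ≤ 8 * τ)
    have a2 := mul_le_mul_of_nonneg_left h4 (by positivity : (0:ℝ) ≤ 3 * τ)
    linarith
  have hlw : 0 < Real.log w := by linarith
  have h7 : 8 * τ * ((G.card : ℝ) / 2 * Real.log w) < 8 * τ * ((T'.card : ℝ) * Real.log w) := by
    have : (G.card : ℝ) / 2 * Real.log w < (T'.card : ℝ) * Real.log w :=
      mul_lt_mul_of_pos_right hT'big hlw
    exact mul_lt_mul_of_pos_left this (by positivity)
  -- so 4 g X < g + 3 g X + 9 τ g, X = τ log w ≥ 4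
  have h8 : (G.card : ℝ) * (τ * Real.log w) < G.card + 9 * τ * G.card := by nlinarith
  have h9 : (G.card : ℝ) * 4 ≤ (G.card : ℝ) * (τ * Real.log w) := mul_le_mul_of_nonneg_left hL4 hg
  have h10 : 9 * τ * G.card ≤ (G.card : ℝ) := by nlinarith
  linarith

section Clusters

/-- support of the cluster law at `x` -/
noncomputable def cA (Ω : Finset (Fin l → GaussianInt)) (Q : Finset GaussianInt) (x : GaussianInt) :
    Finset GaussianInt :=
  open Classical in
  (pth Ω Q x).biUnion (fun om => Finset.univ.image (fun j : Fin l => x + om j))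

/-- the cluster law at `x` -/
noncomputable def cc (Ω : Finset (Fin l → GaussianInt)) (Q : Finset GaussianInt) (x v : GaussianInt) :
    ℝ :=
  open Classical in
  ∑ om ∈ pth Ω Q x, ((pth Ω Q x).card : ℝ)⁻¹ *
    ((l : ℝ)⁻¹ * ((Finset.univ.filter (fun j : Fin l => x + om j = v)).card : ℝ))

lemma mem_cA {Ω : Finset (Fin l → GaussianInt)} {Q : Finset GaussianInt} {x v : GaussianInt} :
    v ∈ cA Ω Q x ↔ ∃ om ∈ pth Ω Q x, ∃ j, x + om j = v := by
  classical
  unfold cA
  simp

lemma cc_nonneg (Ω : Finset (Fin l → GaussianInt)) (Q : Finset GaussianInt) (x v : GaussianInt) :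
    0 ≤ cc Ω Q x v := by
  unfold cc
  exact Finset.sum_nonneg (fun om _ => by positivity)

lemma cc_supp (Ω : Finset (Fin l → GaussianInt)) (Q : Finset GaussianInt) (x : GaussianInt) :
    ∀ v ∉ cA Ω Q x, cc Ω Q x v = 0 := by
  classical
  intro v hv
  unfold cc
  refine Finset.sum_eq_zero (fun om hom => ?_)
  have : Finset.univ.filter (fun j : Fin l => x + om j = v) = ∅ := by
    rw [Finset.filter_eq_empty_iff]
    intro j _ h
    exact hv (mem_cA.2 ⟨om, hom, j, h⟩)
  rw [this]
  simp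

lemma sum_cnt (A : Finset GaussianInt) (f : Fin l → GaussianInt) (hf : ∀ j, f j ∈ A)
    (p : GaussianInt → Prop) [DecidablePred p] :
    ∑ v ∈ A with p v, ((Finset.univ.filter (fun j => f j = v)).card : ℝ)
      = ((Finset.univ.filter (fun j => p (f j))).card : ℝ) := by
  classical
  have h := Finset.card_eq_sum_card_fiberwise (s := Finset.univ.filter (fun j => p (f j)))
    (t := A.filter p) (f := f) (fun j hj => by
      have hj' := (Finset.mem_filter.1 (Finset.mem_coe.1 hj)).2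
      exact Finset.mem_coe.2 (Finset.mem_filter.2 ⟨hf j, hj'⟩))
  rw [h]
  push_cast
  refine Finset.sum_congr rfl (fun v hv => ?_)
  have hpv := (Finset.mem_filter.1 hv).2
  congr 2
  ext j
  simp only [Finset.mem_filter, Finset.mem_univ, true_and]
  constructor
  · intro h; exact ⟨by rw [h]; exact hpv, h⟩
  · intro h; exact h.2

lemma cc_sum {Ω : Finset (Fin l → GaussianInt)} {Q : Finset GaussianInt} {x : GaussianInt}
    (A : Finset GaussianInt) (hA : cA Ω Q x ⊆ A) (p : GaussianInt → Prop) [DecidablePred p] :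
    ∑ v ∈ A with p v, cc Ω Q x v
      = ∑ om ∈ pth Ω Q x, ((pth Ω Q x).card : ℝ)⁻¹ *
        ((l : ℝ)⁻¹ * ((Finset.univ.filter (fun j : Fin l => p (x + om j))).card : ℝ)) := by
  classical
  unfold cc
  rw [Finset.sum_comm]
  refine Finset.sum_congr rfl (fun om hom => ?_)
  rw [← Finset.mul_sum, ← Finset.mul_sum]
  congr 2
  exact sum_cnt A (fun j => x + om j) (fun j => hA (mem_cA.2 ⟨om, hom, j, rfl⟩)) p

lemma cc_sum_one {Ω : Finset (Fin l → GaussianInt)} {Q : Finset GaussianInt} {x : GaussianInt}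
    (hl : 0 < l) (hne : (pth Ω Q x).Nonempty) : ∑ v ∈ cA Ω Q x, cc Ω Q x v = 1 := by
  classical
  have h := cc_sum (Ω := Ω) (Q := Q) (x := x) (cA Ω Q x) (Finset.Subset.refl _) (fun _ => True)
  rw [Finset.filter_true_of_mem (fun _ _ => trivial)] at h
  rw [h]
  have hl' : (l:ℝ) ≠ 0 := by exact_mod_cast hl.ne'
  have hc : ((pth Ω Q x).card : ℝ) ≠ 0 := by exact_mod_cast (Finset.card_pos.2 hne).ne'
  have : ∀ om ∈ pth Ω Q x, ((pth Ω Q x).card : ℝ)⁻¹ *
        ((l : ℝ)⁻¹ * ((Finset.univ.filter (fun j : Fin l => True)).card : ℝ))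
      = ((pth Ω Q x).card : ℝ)⁻¹ := by
    intro om _
    rw [Finset.filter_true_of_mem (fun _ _ => trivial), Finset.card_univ, Fintype.card_fin,
      inv_mul_cancel₀ hl', mul_one]
  rw [Finset.sum_congr rfl this, Finset.sum_const, nsmul_eq_mul, mul_inv_cancel₀ hc]

lemma cc_small {Ω : Finset (Fin l → GaussianInt)} {Q : Finset GaussianInt} {x : GaussianInt}
    (hinj : ∀ om ∈ Ω, Function.Injective om) (v : GaussianInt) :
    cc Ω Q x v ≤ 1 / (l : ℝ) := by
  classical
  unfold cc
  have : ∀ om ∈ pth Ω Q x, ((pth Ω Q x).card : ℝ)⁻¹ *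
      ((l : ℝ)⁻¹ * ((Finset.univ.filter (fun j : Fin l => x + om j = v)).card : ℝ))
      ≤ ((pth Ω Q x).card : ℝ)⁻¹ * (1 / (l:ℝ)) := by
    intro om hom
    refine mul_le_mul_of_nonneg_left ?_ (by positivity)
    have h1 : (Finset.univ.filter (fun j : Fin l => x + om j = v)).card ≤ 1 := by
      rw [Finset.card_le_one]
      intro a ha b hb
      have ha' := (Finset.mem_filter.1 ha).2
      have hb' := (Finset.mem_filter.1 hb).2
      exact hinj om (pth_subset _ _ _ hom) (add_left_cancel (ha'.trans hb'.symm))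
    have h2 : ((Finset.univ.filter (fun j : Fin l => x + om j = v)).card : ℝ) ≤ 1 := by
      exact_mod_cast h1
    calc (l:ℝ)⁻¹ * ((Finset.univ.filter (fun j : Fin l => x + om j = v)).card : ℝ)
        ≤ (l:ℝ)⁻¹ * 1 := mul_le_mul_of_nonneg_left h2 (by positivity)
      _ = 1 / (l:ℝ) := by rw [mul_one, one_div]
  refine (Finset.sum_le_sum this).trans ?_
  rw [Finset.sum_const, nsmul_eq_mul, ← mul_assoc]
  have h3 : ((pth Ω Q x).card : ℝ) * ((pth Ω Q x).card : ℝ)⁻¹ ≤ 1 := mul_inv_le_one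
  calc _ ≤ 1 * (1 / (l:ℝ)) := mul_le_mul_of_nonneg_right h3 (by positivity)
    _ = 1 / (l:ℝ) := one_mul _

/-- law of the leaves -/
noncomputable def lw {ι : Type} [Fintype ι] (leaf : ι → GaussianInt) (z : GaussianInt)
    (y : GaussianInt) : ℝ :=
  open Classical in
  ((Finset.univ.filter (fun i => leaf i - z = y)).card : ℝ) / (Fintype.card ι : ℝ)

lemma lw_nonneg {ι : Type} [Fintype ι] (leaf : ι → GaussianInt) (z y : GaussianInt) :
    0 ≤ lw leaf z y := by
  unfold lw; positivity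

lemma lw_pos {ι : Type} [Fintype ι] {leaf : ι → GaussianInt} {z y : GaussianInt}
    (h : 0 < lw leaf z y) : ∃ i, leaf i - z = y := by
  classical
  unfold lw at h
  by_contra hcon
  push Not at hcon
  have : Finset.univ.filter (fun i => leaf i - z = y) = ∅ := by
    rw [Finset.filter_eq_empty_iff]
    intro i _
    exact hcon i
  rw [this] at h
  simp at h

lemma lw_sum {ι : Type} [Fintype ι] (leaf : ι → GaussianInt) (z : GaussianInt)
    (B : Finset GaussianInt) (hB : ∀ i, leaf i - z ∈ B) (g : GaussianInt → ℝ) :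
    ∑ y ∈ B, lw leaf z y * g y = (∑ i, g (leaf i - z)) / (Fintype.card ι : ℝ) := by
  classical
  unfold lw
  have h := Finset.sum_fiberwise_of_maps_to (s := (Finset.univ : Finset ι)) (t := B)
    (g := fun i => leaf i - z) (fun i _ => hB i) (fun i => g (leaf i - z))
  rw [← h, Finset.sum_div]
  refine Finset.sum_congr rfl (fun y _ => ?_)
  have : ∑ i ∈ Finset.univ.filter (fun i => leaf i - z = y), g (leaf i - z)
      = ((Finset.univ.filter (fun i => leaf i - z = y)).card : ℝ) * g y := by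
    rw [Finset.sum_congr rfl (fun i hi => by rw [(Finset.mem_filter.1 hi).2]), Finset.sum_const,
      nsmul_eq_mul]
  rw [this]
  ring

lemma lw_sum_one {ι : Type} [Fintype ι] [Nonempty ι] (leaf : ι → GaussianInt) (z : GaussianInt)
    (B : Finset GaussianInt) (hB : ∀ i, leaf i - z ∈ B) : ∑ y ∈ B, lw leaf z y = 1 := by
  have h := lw_sum leaf z B hB (fun _ => 1)
  simp only [mul_one, Finset.sum_const, Finset.card_univ, nsmul_eq_mul] at h
  rw [h]
  have : (Fintype.card ι : ℝ) ≠ 0 := by exact_mod_cast Fintype.card_ne_zero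
  exact div_self this

/-- the mass of a class under the average of the cluster laws -/
lemma mass_eq {ι : Type} [Fintype ι] (leaf : ι → GaussianInt) (z : GaussianInt)
    (B : Finset GaussianInt) (hB : ∀ i, leaf i - z ∈ B) (Ω : Finset (Fin l → GaussianInt))
    (Q : Finset GaussianInt) (π n : GaussianInt) (A : Finset GaussianInt)
    (hA : ∀ i, cA Ω Q (leaf i) ⊆ A) [DecidablePred (fun v => π ∣ v - (z - n))] :
    ∑ v ∈ A with π ∣ v - (z - n), (∑ i, cc Ω Q (leaf i) v) / (Fintype.card ι : ℝ)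
      = mass Ω Q B (lw leaf z) z π n := by
  classical
  unfold mass
  rw [pw_sum Ω Q B (lw leaf z) z (fun s => (l : ℝ)⁻¹ *
    ((Finset.univ.filter (fun j : Fin l => π ∣ n + s.1 + s.2 j)).card : ℝ))]
  rw [lw_sum leaf z B hB (fun y => ∑ om ∈ pth Ω Q (z + y), ((pth Ω Q (z + y)).card : ℝ)⁻¹ *
    ((l : ℝ)⁻¹ * ((Finset.univ.filter (fun j : Fin l => π ∣ n + (y, om).1 + (y, om).2 j)).card : ℝ)))]
  rw [← Finset.sum_div, Finset.sum_comm]
  congr 1
  refine Finset.sum_congr rfl (fun i _ => ?_)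
  rw [cc_sum A (hA i) (fun v => π ∣ v - (z - n))]
  have e1 : z + (leaf i - z) = leaf i := by ring
  rw [e1]
  refine Finset.sum_congr rfl (fun om _ => ?_)
  congr 3
  refine congrArg Finset.card ?_
  ext j
  simp only [Finset.mem_filter, Finset.mem_univ, true_and]
  have e2 : leaf i + om j - (z - n) = n + (leaf i - z) + om j := by ring
  rw [e2]

end Clusters

end Crest.Agent.R2.N640
end

-- ▼ part R2/NoDrop640h

/-!
# R2 (Gaussian moat), block N1+N2 (helper640), part h: the block statement `End911.LightStmt`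
-/

set_option autoImplicit false

namespace Crest.Agent.R2.N640

open Finset Crest.Agent.R2.Gcd62
open Crest.Agent.R055 (IsProb ent cls)

lemma prod_dvd_iff {w : ℝ} {G : Finset GaussianInt} (hB : X149.Blk w G) (x : GaussianInt) :
    (∏ p ∈ G, p) ∣ x ↔ ∀ p ∈ G, p ∣ x := by
  classical
  constructor
  · intro h p hp
    exact (Finset.dvd_prod_of_mem (fun p => p) hp).trans h
  · intro h
    refine Finset.prod_dvd_of_isRelPrime ?_ h
    intro p hp q hq hpq
    have hp' := hB.prime p hp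
    have hq' := hB.prime q hq
    rw [Function.onFun, hp'.irreducible.isRelPrime_iff_not_dvd]
    intro hd
    exact hpq (hB.assoc p hp q hq ((hp'.dvd_prime_iff_associated hq').1 hd))

lemma ent_eq_HQ {Ω : Type} [Fintype Ω] (P : Ω → ℝ) (z : Ω → GaussianInt) {w : ℝ}
    {G : Finset GaussianInt} (hB : X149.Blk w G) :
    ent P (fun ω => X149.cl (∏ p ∈ G, p) (z ω)) = HQ Finset.univ P z G := by
  classical
  unfold ent HQ
  refine Finset.sum_congr rfl (fun ω _ => ?_)
  congr 3
  unfold cls cm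
  rw [Finset.sum_filter]
  refine Finset.sum_congr rfl (fun ω' _ => ?_)
  refine if_congr ?_ rfl rfl
  rw [X149.cl_eq_iff, prod_dvd_iff hB]

/-- **block N1+N2** -/
theorem lightStmt : End911.LightStmt := by
  classical
  intro D c0 τ mI hD hc0 hτ hτ1 hmI
  refine ⟨8 * mI / τ, Real.exp (4 / τ),
    (2 + Real.log ((2 * D + 1) ^ 2)) / (τ * c0 / (64 * mI)), 2 * Real.log 3, ?_⟩
  intro n w G' E l R hW hlac hBlk hlow hupp hH hR hl hDl hE hav Ω _ P z hP hzE hKac ι _ _ lf
    hlfE hlfR
  have hB : ∀ ω i, lf ω i - z ω ∈ ball R := fun ω i => mem_ball.2 (hlfR ω i)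
  obtain ⟨hlpos, k, hk, ω, -, hω⟩ := exists_scale D c0 τ mI hD hc0 hτ hτ1 hmI n w G' E l R hW hlac
    hBlk hlow hupp hH hR hl hDl hE hav (Finset.univ : Finset Ω) P (fun ω _ => hP.nonneg ω)
    hP.sum_eq z (fun ω => lw (lf ω) (z ω)) (fun ω y => lw_nonneg _ _ _)
    (fun ω _ => lw_sum_one (lf ω) (z ω) (ball R) (hB ω))
    (fun ω _ y hy => by
      obtain ⟨i, hi⟩ := lw_pos hy
      have e : z ω + y = lf ω i := by rw [← hi]; ring
      rw [e]; exact hlfE ω i)
    (fun k hk => by
      rw [← ent_eq_HQ P z (hBlk k hk)]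
      simp only [Nn_cast_real]
      exact hKac k hk)
  have hlogw : 4 / τ ≤ Real.log (w k) := by
    rw [Real.le_log_iff_exp_le ((Real.exp_pos _).trans_le (hW k hk))]
    exact hW k hk
  have hw1 : 1 ≤ w k := (Real.one_le_exp (by positivity)).trans (hW k hk)
  have hhalf := half_light hτ hτ1 hlogw hw1 (hBlk k hk)
    (fun p => (light (str D l) (PU G' (k + 1)) (ball R) (lw (lf ω) (z ω)) (z ω) p).card)
    (fun p _ => light_card_le _ _ _ _ _ _) hω
  have hDpos : (0:ℝ) < D := by linarith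
  have havP : ∀ π ∈ PU G' (k + 1), ∀ x ∈ E, ¬ π ∣ x := fun π hπ => by
    obtain ⟨j, hj, hj'⟩ := mem_PU.1 hπ
    exact hav j (by omega) π hj'
  refine ⟨k, hk, ω, fun i => cA (str D l) (PU G' (k + 1)) (lf ω i),
    fun i v => cc (str D l) (PU G' (k + 1)) (lf ω i) v, ?_, ?_⟩
  · refine ⟨fun i v => cc_nonneg _ _ _ _, fun i => cc_supp _ _ _,
      fun i => cc_sum_one hlpos (pth_nonempty hDpos hE havP (hlfE ω i) l), fun i v hv => ?_,
      fun i v => cc_small (fun om hom => str_inj hom) v⟩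
    obtain ⟨om, hom, j, rfl⟩ := mem_cA.1 hv
    have e : lf ω i + om j - lf ω i = om j := by ring
    rw [e]
    exact str_ab hDpos.le (pth_subset _ _ _ hom) j
  · refine ⟨(G' k).filter (fun p => ((p.norm : ℝ) ^ (1 - 8 * τ)) ≤
        ((light (str D l) (PU G' (k + 1)) (ball R) (lw (lf ω) (z ω)) (z ω) p).card : ℝ)),
      Finset.filter_subset _ _, ?_, ?_⟩
    · have h2 : ((G' k).card : ℝ) ≤ 2 * (((G' k).filter (fun p => ((p.norm : ℝ) ^ (1 - 8 * τ)) ≤
        ((light (str D l) (PU G' (k + 1)) (ball R) (lw (lf ω) (z ω)) (z ω) p).card : ℝ))).card : ℝ) := by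
        linarith
      exact_mod_cast h2
    · intro p hp
      have hpG : p ∈ G' k := (Finset.mem_filter.1 hp).1
      have hps : Split p := (hBlk k hk).rat p hpG
      have hcard := (Finset.mem_filter.1 hp).2
      set Lt := light (str D l) (PU G' (k + 1)) (ball R) (lw (lf ω) (z ω)) (z ω) p with hLt
      have hlt : ∀ m ∈ Lt, m < Nn p := by
        intro m hm
        rw [hLt] at hm
        unfold light at hm
        exact Finset.mem_range.1 (Finset.mem_filter.1 hm).1
      have hinj : ∀ m ∈ Lt, ∀ m' ∈ Lt, p ∣ (z ω - (m : GaussianInt)) - (z ω - (m' : GaussianInt)) →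
          m = m' := by
        intro m hm m' hm' hd
        have e : (z ω - (m : GaussianInt)) - (z ω - (m' : GaussianInt))
          = (m' : GaussianInt) - (m : GaussianInt) := by ring
        rw [e] at hd
        exact (nat_residue_unique hps (hlt m' hm') (hlt m hm) hd).symm
      refine ⟨Lt.image (fun m : ℕ => z ω - (m : GaussianInt)), ?_, ?_, ?_⟩
      · intro x hx y hy hd
        obtain ⟨m, hm, rfl⟩ := Finset.mem_image.1 hx
        obtain ⟨m', hm', rfl⟩ := Finset.mem_image.1 hy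
        rw [hinj m hm m' hm' hd]
      · rw [Finset.card_image_of_injOn]
        · exact hcard
        · intro m hm m' hm' h
          refine hinj m hm m' hm' ?_
          have h' : z ω - (m : GaussianInt) = z ω - (m' : GaussianInt) := h
          rw [h', sub_self]
          exact dvd_zero p
      · intro c hc
        obtain ⟨m, hm, rfl⟩ := Finset.mem_image.1 hc
        have h1 := mass_eq (lf ω) (z ω) (ball R) (hB ω) (str D l) (PU G' (k + 1)) p (m : GaussianInt)
          (Finset.univ.biUnion (fun i => cA (str D l) (PU G' (k + 1)) (lf ω i)))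
          (fun i => Finset.subset_biUnion_of_mem
            (fun i => cA (str D l) (PU G' (k + 1)) (lf ω i)) (Finset.mem_univ i))
        have h2 : mass (str D l) (PU G' (k + 1)) (ball R) (lw (lf ω) (z ω)) (z ω) p (m : GaussianInt)
            ≤ 1 / (4 * (Nn p : ℝ)) := by
          rw [hLt] at hm
          unfold light at hm
          exact (Finset.mem_filter.1 hm).2
        rw [Nn_cast_real] at h2
        rw [← h1] at h2
        convert h2

end Crest.Agent.R2.N640
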