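import Crest.Agent.R2.Closed62_Mg
import Crest.Agent.R2.Gcd62
import Crest.Agent.R2.Tree763
import Crest.Agent.R2.Three330
import Crest.Agent.R2.Num306
import Crest.Agent.R2.Shape911
import Crest.Agent.R2.Bias717e
import Crest.Agent.R2.End911n

-- ▼ part R2/End911c
section

/-!
# R2 (Gaussian moat), END: K0 plugged in (helper911)
-/

set_option autoImplicit false

namespace Crest.Agent.R2.End911

open Crest.Agent.R2.X149 (KacStmt)

theorem closedStmt : ClosedStmt := fun _D hD P hP => K0.exists_closed hD P hP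

/-- What is left of S0002: K8, N, right half. -/
theorem sieveBlocked_of_three (hK8 : KacStmt) (hLS : LightStmt) (hRS : RightStmt) (D : ℝ) :
    SieveBlocked D := sieveBlocked_of_blocks closedStmt hK8 hLS hRS D

end Crest.Agent.R2.End911
end

-- ▼ part R2/Reg549
section

/-!
# R2 (Gaussian moat), block T2: regularity numbers of the cluster measure

A finite family of clusters `C lam` (`lam : Λ`), each with a probability weight `cl lam`; the
cluster measure is the average `mu`.  A *level* is a map `a : Λ → κ` (ancestor) with positions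
`pos : κ → ℤ[i]` that are `2T`-separated, every cluster lying in the `T`-ball around the position
of its ancestor.
-/

set_option autoImplicit false

namespace Crest.Agent.R2.T2

open Finset
open Crest.Agent.R2.Gcd62 (ab)

noncomputable section

/-! ### packing -/

/-- Points of `ℂ` which are `2T`-separated and lie in a closed ball of radius `2T`: at most 25. -/
theorem packing {κ : Type*} [DecidableEq κ] (F : Finset κ) (pos : κ → ℂ) (x : ℂ) (T : ℝ) (hT : 0 < T)
    (hsep : ∀ k ∈ F, ∀ k' ∈ F, k ≠ k' → 2 * T ≤ ‖pos k - pos k'‖)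
    (hF : ∀ k ∈ F, ‖pos k - x‖ ≤ 2 * T) : F.card ≤ 25 := by
  classical
  have key : F.card ≤ ((Finset.Icc (-2 : ℤ) 2) ×ˢ (Finset.Icc (-2 : ℤ) 2)).card := by
    refine Finset.card_le_card_of_injOn
      (fun k => (⌊((pos k - x).re) / T⌋, ⌊((pos k - x).im) / T⌋)) ?_ ?_
    · intro k hk
      have h := hF k hk
      have h1 := (Complex.abs_re_le_norm (pos k - x)).trans h
      have h2 := (Complex.abs_im_le_norm (pos k - x)).trans h
      rw [abs_le] at h1 h2
      simp only [Finset.coe_product, Set.mem_prod, Finset.coe_Icc, Set.mem_Icc]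
      refine ⟨⟨?_, ?_⟩, ⟨?_, ?_⟩⟩
      · rw [Int.le_floor, le_div_iff₀ hT]; push_cast; linarith [h1.1]
      · have : (pos k - x).re / T < ((3 : ℤ) : ℝ) := by
          rw [div_lt_iff₀ hT]; push_cast; linarith [h1.2]
        have := Int.floor_lt.2 this
        omega
      · rw [Int.le_floor, le_div_iff₀ hT]; push_cast; linarith [h2.1]
      · have : (pos k - x).im / T < ((3 : ℤ) : ℝ) := by
          rw [div_lt_iff₀ hT]; push_cast; linarith [h2.2]
        have := Int.floor_lt.2 this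
        omega
    · intro k hk k' hk' hkk
      by_contra hne
      simp only [Prod.mk.injEq] at hkk
      have e1 := Int.abs_sub_lt_one_of_floor_eq_floor hkk.1
      have e2 := Int.abs_sub_lt_one_of_floor_eq_floor hkk.2
      have r1 : |(pos k - pos k').re| < T := by
        have : (pos k - x).re / T - (pos k' - x).re / T = (pos k - pos k').re / T := by
          simp only [Complex.sub_re]; ring
        rw [this, abs_div, abs_of_pos hT, div_lt_one hT] at e1
        exact e1
      have r2 : |(pos k - pos k').im| < T := by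
        have : (pos k - x).im / T - (pos k' - x).im / T = (pos k - pos k').im / T := by
          simp only [Complex.sub_im]; ring
        rw [this, abs_div, abs_of_pos hT, div_lt_one hT] at e2
        exact e2
      have h3 := hsep k hk k' hk' hne
      have h4 := Complex.norm_le_abs_re_add_abs_im (pos k - pos k')
      linarith
  refine key.trans ?_
  rw [Finset.card_product]
  simp

/-! ### the cluster measure -/

variable {Λ : Type*} [Fintype Λ]

/-- the union of the clusters -/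
def supp (C : Λ → Finset GaussianInt) : Finset GaussianInt := Finset.univ.biUnion C

/-- the average of the cluster weights -/
def mu (C : Λ → Finset GaussianInt) (cl : Λ → GaussianInt → ℝ) (v : GaussianInt) : ℝ :=
  (Fintype.card Λ : ℝ)⁻¹ * ∑ lam, if v ∈ C lam then cl lam v else 0

theorem mem_supp {C : Λ → Finset GaussianInt} {v : GaussianInt} :
    v ∈ supp C ↔ ∃ lam, v ∈ C lam := by simp [supp]


theorem sum_mu {C : Λ → Finset GaussianInt} {cl : Λ → GaussianInt → ℝ} (B : Finset GaussianInt) :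
    ∑ v ∈ B, mu C cl v
      = (Fintype.card Λ : ℝ)⁻¹ * ∑ lam, ∑ v ∈ B.filter (fun v => v ∈ C lam), cl lam v := by
  unfold mu
  rw [← Finset.mul_sum, Finset.sum_comm]
  congr 1
  refine Finset.sum_congr rfl fun lam _ => ?_
  rw [Finset.sum_filter]

theorem sum_mu_supp [Nonempty Λ] {C : Λ → Finset GaussianInt} {cl : Λ → GaussianInt → ℝ}
    (h1 : ∀ lam, ∑ v ∈ C lam, cl lam v = 1) : ∑ v ∈ supp C, mu C cl v = 1 := by
  rw [sum_mu]
  have : ∀ lam : Λ, (supp C).filter (fun v => v ∈ C lam) = C lam := by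
    intro lam
    ext v
    simp only [Finset.mem_filter, and_iff_right_iff_imp]
    intro h
    exact mem_supp.2 ⟨lam, h⟩
  simp only [this, h1, Finset.sum_const, Finset.card_univ, nsmul_eq_mul, mul_one]
  have : (Fintype.card Λ : ℝ) ≠ 0 := by
    have := Fintype.card_ne_zero (α := Λ)
    exact_mod_cast this
  field_simp

/-- Pointwise bound: if at every point at most one cluster is present. -/
theorem mu_le {C : Λ → Finset GaussianInt} {cl : Λ → GaussianInt → ℝ} {s : ℝ} (hs : 0 ≤ s)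
    (hcl : ∀ lam, ∀ v ∈ C lam, cl lam v ≤ s)
    (hdisj : ∀ lam lam', lam ≠ lam' → ∀ v, v ∈ C lam → v ∉ C lam') (v : GaussianInt) :
    mu C cl v ≤ s / Fintype.card Λ := by
  classical
  unfold mu
  rw [div_eq_inv_mul]
  refine mul_le_mul_of_nonneg_left ?_ (by positivity)
  by_cases h : ∃ lam, v ∈ C lam
  · obtain ⟨lam, hlam⟩ := h
    rw [Finset.sum_eq_single lam]
    · simp [hlam, hcl lam v hlam]
    · intro lam' _ hne
      rw [if_neg]
      exact hdisj lam lam' (Ne.symm hne) v hlam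
    · intro h; exact absurd (Finset.mem_univ _) h
  · push Not at h
    rw [Finset.sum_eq_zero]
    · exact hs
    · intro lam _; simp [h lam]

/-- Mass of a set is at most the proportion of the clusters that meet it. -/
theorem mass_le {C : Λ → Finset GaussianInt} {cl : Λ → GaussianInt → ℝ}
    (h0 : ∀ lam, ∀ v ∈ C lam, 0 ≤ cl lam v) (h1 : ∀ lam, ∑ v ∈ C lam, cl lam v = 1)
    (B : Finset GaussianInt) [DecidablePred fun lam : Λ => ∃ v ∈ B, v ∈ C lam] :
    ∑ v ∈ B, mu C cl v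
      ≤ (((Finset.univ.filter fun lam : Λ => ∃ v ∈ B, v ∈ C lam).card : ℕ) : ℝ) /
        Fintype.card Λ := by
  rw [sum_mu, div_eq_inv_mul]
  refine mul_le_mul_of_nonneg_left ?_ (by positivity)
  rw [Finset.card_filter, Nat.cast_sum]
  refine Finset.sum_le_sum fun lam _ => ?_
  split_ifs with h
  · rw [Nat.cast_one, ← h1 lam]
    refine Finset.sum_le_sum_of_subset_of_nonneg ?_ ?_
    · intro v hv
      exact (Finset.mem_filter.1 hv).2
    · intro v hv _
      exact h0 lam v hv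
  · have : B.filter (fun v => v ∈ C lam) = ∅ := by
      rw [Finset.filter_eq_empty_iff]
      intro v hv hvC
      exact h ⟨v, hv, hvC⟩
    rw [this]
    simp

/-! ### levels -/

/-- A level of the tree: ancestors, `2T`-separated, clusters within `T` of the ancestor, at most
`n` leaves below every node. -/
structure Level {κ : Type*} (C : Λ → Finset GaussianInt) (a : Λ → κ) (pos : κ → GaussianInt) (T : ℝ)
    (n : ℕ) : Prop where
  pos_T : 0 < T
  sep : ∀ k k', k ≠ k' → 2 * T ≤ ab (pos k - pos k')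
  near : ∀ lam, ∀ v ∈ C lam, ab (v - pos (a lam)) ≤ T
  fib : ∀ k, ∀ S : Finset Λ, (∀ lam ∈ S, a lam = k) → S.card ≤ n

omit [Fintype Λ] in
/-- Number of clusters that meet a ball of radius `T` (complex centre). -/
theorem Level.count {κ : Type*} {C : Λ → Finset GaussianInt} {a : Λ → κ} {pos : κ → GaussianInt}
    {T : ℝ} {n : ℕ} (h : Level C a pos T n) (x : ℂ) (S : Finset Λ)
    (hS : ∀ lam ∈ S, ∃ v ∈ C lam, ‖(v : ℂ) - x‖ ≤ T) : S.card ≤ 25 * n := by
  classical
  have h25 : (S.image a).card ≤ 25 := by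
    refine packing (S.image a) (fun k => (pos k : ℂ)) x T h.pos_T ?_ ?_
    · intro k _ k' _ hne
      have := h.sep k k' hne
      rwa [ab, GaussianInt.toComplex_sub] at this
    · intro k hk
      obtain ⟨lam, hlam, rfl⟩ := Finset.mem_image.1 hk
      obtain ⟨v, hv, hvx⟩ := hS lam hlam
      have h1 := h.near lam v hv
      rw [ab, GaussianInt.toComplex_sub] at h1
      have h2 : (pos (a lam) : ℂ) - x = ((v : ℂ) - x) - ((v : ℂ) - pos (a lam)) := by ring
      rw [h2]
      refine (norm_sub_le _ _).trans ?_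
      linarith
  calc S.card ≤ ∑ k ∈ S.image a, (S.filter fun lam => a lam = k).card :=
        le_of_eq (Finset.card_eq_sum_card_image a S)
    _ ≤ ∑ k ∈ S.image a, n := by
        refine Finset.sum_le_sum fun k _ => ?_
        exact h.fib k _ (fun lam hlam => (Finset.mem_filter.1 hlam).2)
    _ = (S.image a).card * n := by rw [Finset.sum_const, smul_eq_mul]
    _ ≤ 25 * n := Nat.mul_le_mul_right _ h25

/-- Mass of a ball of radius `T`. -/
theorem Level.mass {κ : Type*} {C : Λ → Finset GaussianInt} {a : Λ → κ} {pos : κ → GaussianInt}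
    {T : ℝ} {n : ℕ} (h : Level C a pos T n) {cl : Λ → GaussianInt → ℝ}
    (h0 : ∀ lam, ∀ v ∈ C lam, 0 ≤ cl lam v) (h1 : ∀ lam, ∑ v ∈ C lam, cl lam v = 1) (x : ℂ)
    (B : Finset GaussianInt) (hB : ∀ v ∈ B, ‖(v : ℂ) - x‖ ≤ T) :
    ∑ v ∈ B, mu C cl v ≤ 25 * n / Fintype.card Λ := by
  classical
  refine (mass_le h0 h1 B).trans ?_
  refine div_le_div_of_nonneg_right ?_ (by positivity)
  have := h.count x (Finset.univ.filter fun lam : Λ => ∃ v ∈ B, v ∈ C lam) ?_
  · exact_mod_cast this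
  · intro lam hlam
    obtain ⟨v, hv, hvC⟩ := (Finset.mem_filter.1 hlam).2
    exact ⟨v, hvC, hB v hv⟩

/-! ### covering numbers -/







/-! ### the levels of helper763's tree -/

open Crest.Agent.R2.T1

/-- the ancestor at level `i` of a leaf -/
def anc {N J : ℕ} (i : ℕ) (f : Fin J → Fin N) : List.Vector (Fin N) (J - i) :=
  ⟨(List.ofFn f).take (J - i), by simp⟩

theorem level_of_tree {E : Set GaussianInt} {N : ℕ} {T : ℕ → ℝ} {J : ℕ} {x : GaussianInt}
    {node : List (Fin N) → GaussianInt} (h : IsTree E N T J x node)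
    (C : (Fin J → Fin N) → Finset GaussianInt)
    (hC : ∀ f, ∀ v ∈ C f, ab (v - leaf node f) ≤ T 0)
    {i : ℕ} (hi : i ≤ J) (hT : 0 < T i) :
    Level C (anc i) (fun w : List.Vector (Fin N) (J - i) => node w.1) (T i) (N ^ i) := by
  classical
  refine ⟨hT, ?_, ?_, ?_⟩
  · intro w w' hne
    have hl : w.1.length = J - i := w.2
    have hl' : w'.1.length = J - i := w'.2
    have := h.sep w.1 w'.1 (by rw [hl, hl']) (by omega) (fun hh => hne (Subtype.ext hh))
    rw [hl] at this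
    have e : J - (J - i) = i := by omega
    rwa [e] at this
  · intro f v hv
    have h1 := hC f v hv
    have h2 := h.near ((List.ofFn f).take (J - i)) ((List.ofFn f).drop (J - i)) (by simp)
    rw [List.take_append_drop] at h2
    have e1 : J - ((List.ofFn f).take (J - i)).length = i := by simp; omega
    have e2 : i - ((List.ofFn f).drop (J - i)).length = 0 := by simp; omega
    rw [e1, e2] at h2
    have e3 : v - node ((List.ofFn f).take (J - i))
        = (v - leaf node f) + (node (List.ofFn f) - node ((List.ofFn f).take (J - i))) := by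
      unfold leaf; ring
    show ab (v - node ((List.ofFn f).take (J - i))) ≤ T i
    rw [e3]
    refine (Gcd62.ab_add_le _ _).trans ?_
    have h2' : ab (node (List.ofFn f) - node ((List.ofFn f).take (J - i))) ≤ T i - T 0 := h2
    linarith
  · intro w S hS
    have : S.card ≤ (Finset.univ : Finset (List.Vector (Fin N) i)).card := by
      refine Finset.card_le_card_of_injOn
        (fun f => (⟨(List.ofFn f).drop (J - i), by simp; omega⟩ : List.Vector (Fin N) i))
        (fun _ _ => Finset.mem_coe.2 (Finset.mem_univ _)) ?_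
      intro f hf g hg hfg
      have t1 : (List.ofFn f).take (J - i) = (List.ofFn g).take (J - i) := by
        have := (hS f hf).trans (hS g hg).symm
        exact congrArg Subtype.val this
      have t2 : (List.ofFn f).drop (J - i) = (List.ofFn g).drop (J - i) :=
        congrArg Subtype.val hfg
      apply List.ofFn_injective
      rw [← List.take_append_drop (J - i) (List.ofFn f), t1, t2, List.take_append_drop]
    refine this.trans ?_
    rw [Finset.card_univ, card_vector, Fintype.card_fin]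

theorem card_anc {N J i : ℕ} : Fintype.card (List.Vector (Fin N) (J - i)) = N ^ (J - i) := by
  rw [card_vector, Fintype.card_fin]

end

end Crest.Agent.R2.T2
end

-- ▼ part R2/Reg549b
section

/-!
# R2 (Gaussian moat), block T2, part 2

* regularity numbers of the cluster measure of helper763's tree at two radii (`reg_tree`);
* node measures of the tree and the application of helper330's `three_scales`
  (`tree_three_scales`).
-/

set_option autoImplicit false

namespace Crest.Agent.R2.T2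

open Finset
open Crest.Agent.R2.Gcd62 (ab)
open Crest.Agent.R2.T1
open Crest.Agent.R2.B3 (avg)

noncomputable section

/-! ### elementary: the level of a radius -/

theorem exists_level {T : ℕ → ℝ} {J : ℕ} {ρ : ℝ} (h0 : T 0 ≤ ρ) (hJ : ρ < T J) :
    ∃ i, i + 1 ≤ J ∧ T i ≤ ρ ∧ ρ < T (i + 1) := by
  classical
  have hex : ∃ k, ρ < T k := ⟨J, hJ⟩
  have hk := Nat.find_spec hex
  have hle : Nat.find hex ≤ J := Nat.find_min' hex hJ
  have hne : Nat.find hex ≠ 0 := by
    intro h
    rw [h] at hk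
    exact absurd hk (not_lt.2 h0)
  obtain ⟨i, hi⟩ := Nat.exists_eq_succ_of_ne_zero hne
  refine ⟨i, by omega, ?_, ?_⟩
  · have := Nat.find_min hex (m := i) (by omega)
    exact not_lt.1 this
  · rw [hi] at hk
    exact hk

/-- `(3N+2)^{1-ε} ≤ N` passes to powers: if `X ≤ (3N+2)^i` then `X^{1-ε} ≤ N^i`. -/
theorem pow_lower {N i : ℕ} {ε X : ℝ} (hε1 : ε ≤ 1)
    (hN : (3 * (N : ℝ) + 2) ^ (1 - ε) ≤ N) (hX0 : 0 ≤ X) (hX : X ≤ (3 * (N : ℝ) + 2) ^ i) :
    X ^ (1 - ε) ≤ (N : ℝ) ^ i := by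
  have hL : (0 : ℝ) ≤ 3 * (N : ℝ) + 2 := by positivity
  calc X ^ (1 - ε) ≤ ((3 * (N : ℝ) + 2) ^ i) ^ (1 - ε) :=
        Real.rpow_le_rpow hX0 hX (by linarith)
    _ = ((3 * (N : ℝ) + 2) ^ (1 - ε)) ^ i := by
        rw [← Real.rpow_natCast, ← Real.rpow_natCast, ← Real.rpow_mul hL, ← Real.rpow_mul hL]
        congr 1
        ring
    _ ≤ (N : ℝ) ^ i := pow_le_pow_left₀ (Real.rpow_nonneg hL _) hN i

/-- the same, in the form needed: `1 / N^i ≤ L Y (1/Y)^ε` when `1/(L Y) ≤ L^i`, `L = 3N+2`. -/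
theorem inv_pow_upper {N i : ℕ} {ε Y : ℝ} (hN1 : 1 ≤ N) (hε0 : 0 ≤ ε) (hε1 : ε ≤ 1)
    (hN : (3 * (N : ℝ) + 2) ^ (1 - ε) ≤ N) (hY : 0 < Y)
    (hX : 1 / ((3 * (N : ℝ) + 2) * Y) ≤ (3 * (N : ℝ) + 2) ^ i) :
    1 / (N : ℝ) ^ i ≤ (3 * (N : ℝ) + 2) * (Y * (1 / Y) ^ ε) := by
  have hL : (0 : ℝ) < 3 * (N : ℝ) + 2 := by positivity
  have hL1 : (1 : ℝ) ≤ 3 * (N : ℝ) + 2 := by
    have : (0 : ℝ) ≤ N := by positivity
    linarith
  have hNi : (0 : ℝ) < (N : ℝ) ^ i := by
    have : (0 : ℝ) < N := by exact_mod_cast hN1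
    positivity
  have h1 := pow_lower (N := N) (i := i) hε1 hN (by positivity) hX
  have hLY : 0 < (3 * (N : ℝ) + 2) * Y := by positivity
  have h2 : (1 / ((3 * (N : ℝ) + 2) * Y)) ^ (1 - ε)
      = 1 / ((3 * (N : ℝ) + 2) * Y) ^ (1 - ε) := by
    rw [Real.div_rpow zero_le_one hLY.le, Real.one_rpow]
  rw [h2] at h1
  have hpos : 0 < ((3 * (N : ℝ) + 2) * Y) ^ (1 - ε) := Real.rpow_pos_of_pos hLY _
  have h3 : 1 / (N : ℝ) ^ i ≤ ((3 * (N : ℝ) + 2) * Y) ^ (1 - ε) := by
    rw [div_le_iff₀ hNi]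
    rw [div_le_iff₀ hpos] at h1
    linarith
  refine h3.trans ?_
  rw [Real.mul_rpow hL.le hY.le]
  have h4 : (3 * (N : ℝ) + 2) ^ (1 - ε) ≤ 3 * (N : ℝ) + 2 := by
    calc (3 * (N : ℝ) + 2) ^ (1 - ε) ≤ (3 * (N : ℝ) + 2) ^ (1 : ℝ) :=
          Real.rpow_le_rpow_of_exponent_le hL1 (by linarith)
      _ = _ := Real.rpow_one _
  have h5 : Y ^ (1 - ε) = Y * (1 / Y) ^ ε := by
    rw [Real.rpow_sub hY, Real.rpow_one, Real.div_rpow zero_le_one hY.le, Real.one_rpow]
    ring
  rw [h5]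
  exact mul_le_mul_of_nonneg_right h4 (by positivity)

/-! ### regularity of the cluster measure at two radii -/

theorem cover_level {Λ : Type*} {κ : Type*} [Fintype Λ] [Fintype κ] [DecidableEq κ]
    {C : Λ → Finset GaussianInt} {a : Λ → κ} {pos : κ → GaussianInt} {T : ℝ} {n : ℕ}
    (h : Level C a pos T n) :
    ∃ Z : Finset GaussianInt, Z.card ≤ Fintype.card κ ∧
      ∀ v ∈ supp C, ∃ z ∈ Z, ab (v - z) ≤ T := by
  classical
  refine ⟨Finset.univ.image pos, ?_, ?_⟩
  · exact Finset.card_image_le.trans (by rw [Finset.card_univ])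
  · intro v hv
    obtain ⟨lam, hlam⟩ := mem_supp.1 hv
    exact ⟨pos (a lam), Finset.mem_image_of_mem _ (Finset.mem_univ _), h.near lam v hlam⟩

theorem clusters_disjoint {E : Set GaussianInt} {N : ℕ} {T : ℕ → ℝ} {J : ℕ} {x : GaussianInt}
    {node : List (Fin N) → GaussianInt} (h : IsTree E N T J x node) {r : ℝ} (hr : r < T 0)
    {C : (Fin J → Fin N) → Finset GaussianInt}
    (hnear : ∀ f, ∀ v ∈ C f, ab (v - leaf node f) ≤ r) :
    ∀ f g, f ≠ g → ∀ v, v ∈ C f → v ∉ C g := by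
  intro f g hfg v hvf hvg
  have h1 := hnear f v hvf
  have h2 := hnear g v hvg
  have h3 := h.leaf_sep hfg
  have h4 : leaf node f - leaf node g = (v - leaf node g) - (v - leaf node f) := by ring
  rw [h4] at h3
  have h5 := Gcd62.ab_sub_le (v - leaf node g) (v - leaf node f)
  have h3' : 2 * T 0 ≤ ab (v - leaf node g - (v - leaf node f)) := h3
  linarith

/-- **Regularity of the cluster measure** at two radii `ρ ≤ R1`: with `M` = number of pieces of
radius `ρ`. -/
theorem reg_tree {E : Set GaussianInt} {N : ℕ} {T0 : ℝ} {J : ℕ} {x : GaussianInt}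
    {node : List (Fin N) → GaussianInt} (h : IsTree E N (TT N T0) J x node)
    (hN1 : 1 ≤ N) (hT0 : 1 ≤ T0) {l : ℕ} (hl : 1 ≤ l) {r : ℝ} (hr : r < T0)
    {C : (Fin J → Fin N) → Finset GaussianInt} {cl : (Fin J → Fin N) → GaussianInt → ℝ}
    (hnear : ∀ f, ∀ v ∈ C f, ab (v - leaf node f) ≤ r)
    (h0 : ∀ f, ∀ v ∈ C f, 0 ≤ cl f v) (h1 : ∀ f, ∑ v ∈ C f, cl f v = 1)
    (hsm : ∀ f, ∀ v ∈ C f, cl f v ≤ 1 / (l : ℝ))
    {ε : ℝ} (hε0 : 0 ≤ ε) (hε1 : ε ≤ 1) (hN : (3 * (N : ℝ) + 2) ^ (1 - ε) ≤ N)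
    {ρ R1 : ℝ} (hρ : T0 ≤ ρ) (hρR : ρ ≤ R1) (hRJ : R1 < TT N T0 J) :
    ∃ M : ℝ, 0 < M ∧
      (∀ v, mu C cl v ≤ (3 * N + 2) * (T0 / l) * ρ ^ ε / (M * ρ)) ∧
      (∃ Z : Finset GaussianInt, (Z.card : ℝ) ≤ M ∧ ∀ v ∈ supp C, ∃ z ∈ Z, ab (v - z) ≤ ρ) ∧
      (∀ y : ℂ, ∀ B : Finset GaussianInt, (∀ v ∈ B, ‖(v : ℂ) - y‖ ≤ ρ) →
        ∑ v ∈ B, mu C cl v ≤ 25 * N / M) ∧
      (∃ Z1 : Finset GaussianInt, (Z1.card : ℝ) ≤ M * ((3 * N + 2) * (ρ / R1 * (R1 / ρ) ^ ε)) ∧
        ∀ v ∈ supp C, ∃ z ∈ Z1, ab (v - z) ≤ R1) := by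
  classical
  have hT0' : (0 : ℝ) < T0 := by linarith
  have hTpos : ∀ i, 0 < TT N T0 i := fun i => TT_pos N hT0' i
  have hρ0 : 0 < ρ := by linarith
  have hR0 : 0 < R1 := by linarith
  have hNr : (0 : ℝ) < N := by exact_mod_cast hN1
  have hL : (0 : ℝ) < 3 * (N : ℝ) + 2 := by positivity
  have hcl0 : ∀ f, ∀ v ∈ C f, ab (v - leaf node f) ≤ TT N T0 0 := by
    intro f v hv
    rw [TT_zero]
    exact (hnear f v hv).trans hr.le
  obtain ⟨i, hiJ, hi1, hi2⟩ := exists_level (T := TT N T0) (J := J) (ρ := ρ)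
    (by rw [TT_zero]; exact hρ) (lt_of_le_of_lt hρR hRJ)
  obtain ⟨j, hjJ, hj1, hj2⟩ := exists_level (T := TT N T0) (J := J) (ρ := R1)
    (by rw [TT_zero]; linarith) hRJ
  have hij : i ≤ j := by
    by_contra hcon
    push Not at hcon
    have := TT_mono N hT0' (i := j + 1) (j := i) hcon
    linarith
  have hcard : (Fintype.card (Fin J → Fin N) : ℝ) = (N : ℝ) ^ J := by
    simp
  set M : ℝ := (N : ℝ) ^ (J - i) with hM
  have hM0 : 0 < M := by positivity
  have hMi : (N : ℝ) ^ J = M * (N : ℝ) ^ i := by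
    rw [hM, ← pow_add]; congr 1; omega
  have lev := level_of_tree h C hcl0 (i := i) (by omega) (hTpos i)
  have lev1 := level_of_tree h C hcl0 (i := i + 1) (by omega) (hTpos (i + 1))
  have levj := level_of_tree h C hcl0 (i := j) (by omega) (hTpos j)
  refine ⟨M, hM0, ?_, ?_, ?_, ?_⟩
  · -- pointwise
    intro v
    have hd := clusters_disjoint h (r := r) (by rw [TT_zero]; exact hr) hnear
    have e1 := mu_le (C := C) (cl := cl) (s := 1 / (l : ℝ)) (by positivity) hsm hd v
    refine e1.trans ?_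
    rw [hcard, hMi]
    have hY : 0 < T0 / ρ := by positivity
    have hX : 1 / ((3 * (N : ℝ) + 2) * (T0 / ρ)) ≤ (3 * (N : ℝ) + 2) ^ i := by
      have e2 : ρ < (3 * (N : ℝ) + 2) * ((3 * (N : ℝ) + 2) ^ i * T0) := by
        have := hi2
        rw [TT_succ] at this
        exact this
      rw [div_le_iff₀ (by positivity)]
      have e3 : (3 * (N : ℝ) + 2) ^ i * ((3 * (N : ℝ) + 2) * (T0 / ρ))
          = ((3 * (N : ℝ) + 2) * ((3 * (N : ℝ) + 2) ^ i * T0)) / ρ := by ring
      rw [e3, le_div_iff₀ hρ0]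
      linarith
    have e4 := inv_pow_upper (i := i) hN1 hε0 hε1 hN hY hX
    have e5 : (T0 / ρ) * (1 / (T0 / ρ)) ^ ε ≤ T0 * (ρ ^ ε / ρ) := by
      have : (1 / (T0 / ρ)) ^ ε ≤ ρ ^ ε := by
        refine Real.rpow_le_rpow (by positivity) ?_ hε0
        rw [one_div_div, div_le_iff₀ hT0']
        nlinarith
      calc (T0 / ρ) * (1 / (T0 / ρ)) ^ ε ≤ (T0 / ρ) * ρ ^ ε :=
            mul_le_mul_of_nonneg_left this hY.le
        _ = T0 * (ρ ^ ε / ρ) := by ring
    have hNi : (0 : ℝ) < (N : ℝ) ^ i := by positivity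
    have hlr : (0 : ℝ) < l := by exact_mod_cast hl
    calc 1 / (l : ℝ) / (M * (N : ℝ) ^ i) = (1 / ((l : ℝ) * M)) * (1 / (N : ℝ) ^ i) := by
          field_simp
      _ ≤ (1 / ((l : ℝ) * M)) * ((3 * (N : ℝ) + 2) * (T0 * (ρ ^ ε / ρ))) := by
          refine mul_le_mul_of_nonneg_left (e4.trans ?_) (by positivity)
          exact mul_le_mul_of_nonneg_left e5 hL.le
      _ = (3 * N + 2) * (T0 / l) * ρ ^ ε / (M * ρ) := by
          field_simp
  · obtain ⟨Z, hZ1, hZ2⟩ := cover_level lev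
    refine ⟨Z, ?_, ?_⟩
    · rw [card_anc] at hZ1
      rw [hM]
      exact_mod_cast hZ1
    · intro v hv
      obtain ⟨z, hz, hvz⟩ := hZ2 v hv
      exact ⟨z, hz, hvz.trans hi1⟩
  · intro y B hB
    have e1 := lev1.mass h0 h1 y B (fun v hv => (hB v hv).trans hi2.le)
    refine e1.trans (le_of_eq ?_)
    rw [hcard, hMi]
    push_cast
    have hNi : (0 : ℝ) < (N : ℝ) ^ i := by positivity
    rw [pow_succ]
    field_simp
  · obtain ⟨Z, hZ1, hZ2⟩ := cover_level levj
    refine ⟨Z, ?_, ?_⟩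
    · rw [card_anc] at hZ1
      have e1 : (Z.card : ℝ) ≤ (N : ℝ) ^ (J - j) := by exact_mod_cast hZ1
      have hY : 0 < ρ / R1 := by positivity
      have hX : 1 / ((3 * (N : ℝ) + 2) * (ρ / R1)) ≤ (3 * (N : ℝ) + 2) ^ (j - i) := by
        have e2 : R1 < (3 * (N : ℝ) + 2) * ((3 * (N : ℝ) + 2) ^ j * T0) := by
          have := hj2
          rw [TT_succ] at this
          exact this
        have e3 : (3 * (N : ℝ) + 2) ^ i * T0 ≤ ρ := hi1
        rw [div_le_iff₀ (by positivity)]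
        have e4 : (3 * (N : ℝ) + 2) ^ (j - i) * ((3 * (N : ℝ) + 2) * (ρ / R1))
          = ((3 * (N : ℝ) + 2) * ((3 * (N : ℝ) + 2) ^ (j - i) * ρ)) / R1 := by ring
        rw [e4, le_div_iff₀ hR0, one_mul]
        have e5 : (3 * (N : ℝ) + 2) ^ j * T0
            = (3 * (N : ℝ) + 2) ^ (j - i) * ((3 * (N : ℝ) + 2) ^ i * T0) := by
          rw [← mul_assoc, ← pow_add]; congr 2; omega
        rw [e5] at e2
        refine e2.le.trans ?_
        refine mul_le_mul_of_nonneg_left ?_ hL.le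
        exact mul_le_mul_of_nonneg_left e3 (by positivity)
      have e4 := inv_pow_upper (i := j - i) hN1 hε0 hε1 hN hY hX
      have e6 : (N : ℝ) ^ (J - j) = M * (1 / (N : ℝ) ^ (j - i)) := by
        rw [hM, mul_one_div, eq_div_iff (by positivity), ← pow_add]
        congr 1
        omega
      rw [one_div_div] at e4
      refine e1.trans ?_
      rw [e6]
      exact mul_le_mul_of_nonneg_left e4 hM0.le
    · intro v hv
      obtain ⟨z, hz, hvz⟩ := hZ2 v hv
      exact ⟨z, hz, hvz.trans hj1⟩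

/-! ### node measures and the three scales -/

/-- Averages over words: first `b`, then `c` letters = over `b + c` letters. -/
theorem avg_append {N b c : ℕ} (F : (Fin (b + c) → Fin N) → GaussianInt → ℝ) (z : GaussianInt) :
    avg (fun j : Fin b → Fin N => avg fun g : Fin c → Fin N => F (Fin.append j g)) z = avg F z := by
  classical
  unfold avg
  have e1 : (Fintype.card (Fin (b + c) → Fin N) : ℝ)⁻¹
      = (Fintype.card (Fin b → Fin N) : ℝ)⁻¹ * (Fintype.card (Fin c → Fin N) : ℝ)⁻¹ := by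
    simp only [Fintype.card_pi, Fintype.card_fin, Finset.prod_const, Finset.card_univ]
    push_cast
    rw [pow_add, mul_inv]
  rw [e1, ← Finset.mul_sum, ← mul_assoc]
  congr 1
  rw [← Finset.sum_product', Finset.univ_product_univ]
  exact Fintype.sum_equiv (Fin.appendEquiv b c) _ _ (fun p => rfl)

theorem mu_eq_avg {Λ : Type} [Fintype Λ] {C : Λ → Finset GaussianInt}
    {cl : Λ → GaussianInt → ℝ} (hz : ∀ f, ∀ v, v ∉ C f → cl f v = 0) (v : GaussianInt) :
    mu C cl v = avg cl v := by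
  unfold mu avg
  congr 1
  refine Finset.sum_congr rfl fun f _ => ?_
  split_ifs with h
  · rfl
  · exact (hz f v h).symm

/-- the subtree below the word `i` -/
theorem subtree {E : Set GaussianInt} {N : ℕ} {T : ℕ → ℝ} {a c : ℕ} {x : GaussianInt}
    {node : List (Fin N) → GaussianInt} (h : IsTree E N T (a + c) x node) (i : Fin a → Fin N) :
    IsTree E N T c (node (List.ofFn i)) (fun v => node (List.ofFn i ++ v)) := by
  have := h.sub (List.ofFn i) (by simp)
  have e : a + c - (List.ofFn i).length = c := by simp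
  rwa [e] at this

theorem leaf_append {N a c : ℕ} (node : List (Fin N) → GaussianInt) (i : Fin a → Fin N)
    (g : Fin c → Fin N) :
    leaf (fun v => node (List.ofFn i ++ v)) g = leaf node (Fin.append i g) := by
  unfold leaf
  rw [List.ofFn_fin_append]

/-- Ball masses in a tree with `k + c` levels, `k ≥ 1`: a ball of radius `R ≤ T (c+1)`. -/
theorem ball_mass {E : Set GaussianInt} {N : ℕ} {T : ℕ → ℝ} {k c : ℕ} {x : GaussianInt}
    {node : List (Fin N) → GaussianInt} (h : IsTree E N T (k + c) x node) (hk : 1 ≤ k)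
    (hN1 : 1 ≤ N) (hT : 0 < T (c + 1))
    {C : (Fin (k + c) → Fin N) → Finset GaussianInt} {cl : (Fin (k + c) → Fin N) → GaussianInt → ℝ}
    (hnear : ∀ f, ∀ v ∈ C f, ab (v - leaf node f) ≤ T 0)
    (h0 : ∀ f, ∀ v ∈ C f, 0 ≤ cl f v) (h1 : ∀ f, ∑ v ∈ C f, cl f v = 1)
    {R : ℝ} (hR : R ≤ T (c + 1)) (y : GaussianInt) (B : Finset GaussianInt)
    (hB : ∀ z ∈ B, ab (z - y) ≤ R) :
    ∑ v ∈ B, mu C cl v ≤ 25 * N / (N : ℝ) ^ k := by
  have lev := level_of_tree h C hnear (i := c + 1) (by omega) hT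
  have e1 := lev.mass h0 h1 (y : ℂ) B (fun v hv => by
    have := hB v hv
    rw [ab, GaussianInt.toComplex_sub] at this
    exact this.trans hR)
  refine e1.trans (le_of_eq ?_)
  have hNr : (0 : ℝ) < N := by exact_mod_cast hN1
  have hcard : (Fintype.card (Fin (k + c) → Fin N) : ℝ) = (N : ℝ) ^ (k + c) := by simp
  rw [hcard]
  push_cast
  rw [pow_succ, pow_add]
  have h2 : (0 : ℝ) < (N : ℝ) ^ c := by positivity
  have h3 : (0 : ℝ) < (N : ℝ) ^ k := by positivity
  field_simp

set_option maxHeartbeats 1000000 in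
/-- **Three nested scales in the tree**: application of `three_scales` (helper330) to the node
measures of helper763's tree with `J = a + (b + c)` levels. -/
theorem tree_three_scales (ε : ℝ) (hε : 0 < ε) (hε1 : ε ≤ 1 / 40000) :
    ∃ U0 : ℝ, ∀ U w : ℝ, U0 ≤ U → 0 < w → Real.log U ≤ ε * Real.log w →
      Real.log w ≤ ε ^ 2 * U →
    ∀ (G : Finset GaussianInt), (∀ p ∈ G, Prime p) →
    (∀ p ∈ G, ∀ q ∈ G, Associated p q → p = q) →
    (∀ p ∈ G, w ≤ ab p) → (∀ p ∈ G, ab p ≤ 2 * w) →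
    Real.exp ((2 - ε / 4) * Real.log w) ≤ G.card →
    ∀ (bb : GaussianInt → GaussianInt), (∀ p ∈ G, ¬ p ∣ bb p) →
    ∀ (E : Set GaussianInt) (N : ℕ) (T : ℕ → ℝ) (a b c : ℕ) (x : GaussianInt)
      (node : List (Fin N) → GaussianInt),
    IsTree E N T (a + (b + c)) x node → 1 ≤ N → 1 ≤ a → 1 ≤ b → (∀ i, 0 < T i) →
    T c ≤ Real.exp U → Real.exp U ≤ T (c + 1) →
    T (b + c) ≤ Real.exp (3 / 2 * U) → Real.exp (3 / 2 * U) ≤ T (b + c + 1) →
    T (a + (b + c)) ≤ Real.exp (2 * U) →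
    ∀ (l : ℕ) (r : ℝ) (C : (Fin (a + (b + c)) → Fin N) → Finset GaussianInt)
      (cl : (Fin (a + (b + c)) → Fin N) → GaussianInt → ℝ), r < T 0 → 1 ≤ l →
    (∀ f, ∀ v ∈ C f, ab (v - leaf node f) ≤ r) → (∀ f v, 0 ≤ cl f v) →
    (∀ f, ∀ v, v ∉ C f → cl f v = 0) → (∀ f, ∑ v ∈ C f, cl f v = 1) →
    (∀ f v, cl f v ≤ 1 / (l : ℝ)) →
    1 / ((l : ℝ) * (N : ℝ) ^ c) ≤ Real.exp (-((1 - ε) * U)) →
    25 * N / (N : ℝ) ^ b ≤ Real.exp (-((1 / 2 - ε) * U)) →
    25 * N / (N : ℝ) ^ a ≤ Real.exp (-((1 / 2 - ε) * U)) →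
    (∀ p ∈ G, Real.exp (-(ε / 16 * Real.log w)) ≤
      ‖E717.mhat (supp C) (mu C cl) (GaussianInt.toComplex (bb p) / GaussianInt.toComplex p)‖) →
    False := by
  classical
  obtain ⟨U0, hS⟩ := B3.three_scales ε hε hε1
  refine ⟨U0, ?_⟩
  intro U w hU hw0 hwlow hwup G hG hass hwl hwu hn bb hbb E N T a b c x node h hN1 ha hb hT
    hTc hTc1 hTbc hTbc1 hTJ l r C cl hr hl hnear h0 hz h1 hsm hP1 hP2 hP3 hbias
  have hnear0 : ∀ f, ∀ v ∈ C f, ab (v - leaf node f) ≤ T 0 := fun f v hv =>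
    (hnear f v hv).trans hr.le
  have hNr : (0 : ℝ) < N := by exact_mod_cast hN1
  have hFN : Nonempty (Fin N) := ⟨⟨0, hN1⟩⟩
  set m : (Fin a → Fin N) → (Fin b → Fin N) → GaussianInt → ℝ := fun i j =>
    avg fun g : Fin c → Fin N => cl (Fin.append i (Fin.append j g)) with hm
  -- the average over `j`
  have hmi : ∀ i, ∀ z, avg (m i) z = avg (fun f : Fin (b + c) → Fin N => cl (Fin.append i f)) z := by
    intro i z
    exact avg_append (fun f : Fin (b + c) → Fin N => cl (Fin.append i f)) z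
  have hmm : ∀ z, avg (fun i => avg (m i)) z = avg cl z := by
    intro z
    have : (fun i => avg (m i)) = fun i : Fin a → Fin N =>
        avg fun f : Fin (b + c) → Fin N => cl (Fin.append i f) := by
      funext i
      funext z
      exact hmi i z
    rw [this]
    exact avg_append cl z
  -- supports
  have hCi : ∀ (i : Fin a → Fin N) (f : Fin (b + c) → Fin N), ∀ v ∈ C (Fin.append i f),
      ab (v - leaf (fun v => node (List.ofFn i ++ v)) f) ≤ T 0 := by
    intro i f v hv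
    rw [leaf_append]
    exact hnear0 _ v hv
  have hmne : ∀ i j z, m i j z ≠ 0 → ∃ g : Fin c → Fin N, z ∈ C (Fin.append i (Fin.append j g)) := by
    intro i j z hne
    obtain ⟨g, hg⟩ := B3.avg_ne_zero _ z hne
    refine ⟨g, ?_⟩
    by_contra hcon
    exact hg (hz _ z hcon)
  have hsum1 : ∀ f : Fin (a + (b + c)) → Fin N, ∑ v ∈ supp C, cl f v = 1 := by
    intro f
    rw [← h1 f]
    symm
    refine Finset.sum_subset ?_ ?_
    · intro v hv
      exact mem_supp.2 ⟨f, hv⟩
    · intro v _ hv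
      exact hz f v hv
  -- trees
  have hsub : ∀ i : Fin a → Fin N,
      IsTree E N T (b + c) (node (List.ofFn i)) (fun v => node (List.ofFn i ++ v)) :=
    fun i => subtree h i
  have hsub2 : ∀ (i : Fin a → Fin N) (j : Fin b → Fin N),
      IsTree E N T c (node (List.ofFn i ++ List.ofFn j))
        (fun v => node (List.ofFn i ++ (List.ofFn j ++ v))) := fun i j => subtree (hsub i) j
  refine hS U w hU hw0 hwlow hwup G hG hass hwl hwu hn bb hbb (Fin a → Fin N) (Fin b → Fin N)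
    (supp C) m (fun i j => node (List.ofFn i ++ List.ofFn j)) (fun i => node (List.ofFn i)) x
    ?_ ?_ ?_ ?_ ?_ ?_ ?_ ?_
  · intro i j
    exact B3.isProbOn_avg _ _ (fun g => ⟨fun z _ => h0 _ z, hsum1 _⟩)
  · intro i j z _ hne
    obtain ⟨g, hg⟩ := hmne i j z hne
    have e1 := (hsub2 i j).leaf_near g
    have e2 : leaf (fun v => node (List.ofFn i ++ (List.ofFn j ++ v))) g
        = leaf node (Fin.append i (Fin.append j g)) := by
      unfold leaf
      rw [List.ofFn_fin_append, List.ofFn_fin_append]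
    rw [e2] at e1
    have e3 := hnear0 _ z hg
    have e4 : z - node (List.ofFn i ++ List.ofFn j)
        = (z - leaf node (Fin.append i (Fin.append j g)))
          + (leaf node (Fin.append i (Fin.append j g)) - node (List.ofFn i ++ List.ofFn j)) := by
      ring
    rw [e4]
    refine (Gcd62.ab_add_le _ _).trans ?_
    have e1' : ab (leaf node (Fin.append i (Fin.append j g)) - node (List.ofFn i ++ List.ofFn j))
        ≤ T c - T 0 := e1
    linarith
  · intro i j z _ hne
    obtain ⟨g, hg⟩ := hmne i j z hne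
    have e1 := (hsub i).leaf_near (Fin.append j g)
    rw [leaf_append] at e1
    have e3 := hnear0 _ z hg
    have e4 : z - node (List.ofFn i)
        = (z - leaf node (Fin.append i (Fin.append j g)))
          + (leaf node (Fin.append i (Fin.append j g)) - node (List.ofFn i)) := by
      ring
    rw [e4]
    refine (Gcd62.ab_add_le _ _).trans ?_
    have e1' : ab (leaf node (Fin.append i (Fin.append j g)) - node (List.ofFn i))
        ≤ T (b + c) - T 0 := e1
    linarith
  · intro i j z _ hne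
    obtain ⟨g, hg⟩ := hmne i j z hne
    have e1 := h.leaf_near (Fin.append i (Fin.append j g))
    have e3 := hnear0 _ z hg
    have e4 : z - x
        = (z - leaf node (Fin.append i (Fin.append j g)))
          + (leaf node (Fin.append i (Fin.append j g)) - x) := by
      ring
    rw [e4]
    refine (Gcd62.ab_add_le _ _).trans ?_
    have e1' : ab (leaf node (Fin.append i (Fin.append j g)) - x)
        ≤ T (a + (b + c)) - T 0 := e1
    linarith
  · -- pointwise bound of the smallest node measure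
    intro i j z _
    refine le_trans ?_ hP1
    have hC2 : ∀ g : Fin c → Fin N, ∀ v ∈ C (Fin.append i (Fin.append j g)),
        ab (v - leaf (fun v => node (List.ofFn i ++ (List.ofFn j ++ v))) g) ≤ r := by
      intro g v hv
      have e2 : leaf (fun v => node (List.ofFn i ++ (List.ofFn j ++ v))) g
          = leaf node (Fin.append i (Fin.append j g)) := by
        unfold leaf
        rw [List.ofFn_fin_append, List.ofFn_fin_append]
      rw [e2]
      exact hnear _ v hv
    have hd := clusters_disjoint (hsub2 i j) hr hC2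
    have e1 := mu_le (C := fun g : Fin c → Fin N => C (Fin.append i (Fin.append j g)))
      (cl := fun g => cl (Fin.append i (Fin.append j g))) (s := 1 / (l : ℝ)) (by positivity)
      (fun g v _ => hsm _ v) hd z
    rw [mu_eq_avg (C := fun g : Fin c → Fin N => C (Fin.append i (Fin.append j g)))
      (cl := fun g => cl (Fin.append i (Fin.append j g))) (fun g v hv => hz _ v hv) z] at e1
    refine e1.trans (le_of_eq ?_)
    have hcard : (Fintype.card (Fin c → Fin N) : ℝ) = (N : ℝ) ^ c := by simp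
    rw [hcard, div_div]
  · intro i y B _ hBy
    refine le_trans ?_ hP2
    have e1 := ball_mass (hsub i) hb hN1 (hT _)
      (C := fun f => C (Fin.append i f)) (cl := fun f => cl (Fin.append i f)) (hCi i)
      (fun f v _ => h0 _ v) (fun f => h1 _) hTc1 y B hBy
    refine le_trans (le_of_eq ?_) e1
    refine Finset.sum_congr rfl fun z _ => ?_
    rw [hmi i z, mu_eq_avg (C := fun f : Fin (b + c) → Fin N => C (Fin.append i f))
      (cl := fun f => cl (Fin.append i f)) (fun g v hv => hz _ v hv) z]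
  · intro y B _ hBy
    refine le_trans ?_ hP3
    have e1 := ball_mass h ha hN1 (hT _) hnear0
      (fun f v _ => h0 _ v) h1 hTbc1 y B hBy
    refine le_trans (le_of_eq ?_) e1
    refine Finset.sum_congr rfl fun z _ => ?_
    rw [hmm z, mu_eq_avg hz z]
  · intro p hp
    refine (hbias p hp).trans (le_of_eq ?_)
    congr 1
    unfold E717.mhat
    refine Finset.sum_congr rfl fun z _ => ?_
    rw [hmm z, mu_eq_avg hz z]

end

end Crest.Agent.R2.T2
end

-- ▼ part R2/Back549
section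

/-!
# R2 (Gaussian moat): the back of `right_half`

A cluster measure on helper763's tree cannot have a Fourier coefficient `≥ w^{-ε/32}` at `b_p/p`
for `≥ c w / log w` primes of norm in `(w, 4w]`.
-/

set_option autoImplicit false

namespace Crest.Agent.R2.T2

open Finset
open Crest.Agent.R2.Gcd62 (ab)
open Crest.Agent.R2.T1

noncomputable section

/-- `mu` in helper911's form. -/
theorem mu_eq_div {Λ : Type} [Fintype Λ] {C : Λ → Finset GaussianInt}
    {cl : Λ → GaussianInt → ℝ} (hz : ∀ f, ∀ v, v ∉ C f → cl f v = 0) :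
    mu C cl = fun v => (∑ i, cl i v) / (Fintype.card Λ : ℝ) := by
  funext v
  unfold mu
  rw [div_eq_inv_mul]
  congr 1
  refine Finset.sum_congr rfl fun f _ => ?_
  split_ifs with h
  · rfl
  · exact (hz f v h).symm

set_option maxHeartbeats 1000000 in
theorem right_back (ε : ℝ) (hε : 0 < ε) (hε1 : ε ≤ 1 / 40000) (N : ℕ) (hN1 : 1 ≤ N)
    (hN : (3 * (N : ℝ) + 2) ^ (1 - ε / 2) ≤ N) (D : ℝ) (hD : 1 ≤ D) (c : ℝ) (hc : 0 < c)
    (C2 : ℝ) (hC2 : 1 / (2 * ε ^ 2) ≤ C2) (C4 : ℝ) :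
    ∃ X0 : ℝ, ∀ w wmax : ℝ, X0 ≤ w → w ≤ wmax → c * Real.log wmax ≤ Real.log w →
    ∀ l : ℕ, 1 ≤ l → (l : ℝ) ≤ C4 * (Real.log wmax) ^ 2 →
    ∀ J : ℕ, TT N (2 * D * l) J ≤ Real.exp (2 * (C2 * Real.log wmax)) →
      Real.exp (2 * (C2 * Real.log wmax)) < TT N (2 * D * l) (J + 1) →
    ∀ (E : Set GaussianInt) (x : GaussianInt) (node : List (Fin N) → GaussianInt),
      IsTree E N (TT N (2 * D * l)) J x node →
    ∀ (C : (Fin J → Fin N) → Finset GaussianInt) (cl : (Fin J → Fin N) → GaussianInt → ℝ),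
      Clus (leaf node) (D * l) l C cl →
    ∀ G : Finset GaussianInt, (∀ p ∈ G, Prime p) →
      (∀ p ∈ G, w < (p.norm : ℝ)) → (∀ p ∈ G, (p.norm : ℝ) ≤ 4 * w) →
      (∀ p ∈ G, ∀ q ∈ G, Associated p q → p = q) → c * w / Real.log w ≤ (G.card : ℝ) →
    ∀ b : GaussianInt → GaussianInt, (∀ p ∈ G, ¬ p ∣ b p) →
      (∀ p ∈ G, w ^ (-(ε / 32)) ≤
        ‖E717.mhat (Finset.univ.biUnion C)
          (fun v => (∑ i, cl i v) / (Fintype.card (Fin J → Fin N) : ℝ))
          (GaussianInt.toComplex (b p) / GaussianInt.toComplex p)‖) →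
      False := by
  classical
  have hC2pos : 0 < C2 := lt_of_lt_of_le (by positivity) hC2
  obtain ⟨U0, hS⟩ := tree_three_scales ε hε hε1
  obtain ⟨X1, hX1, h1⟩ := N306.loglog_le₂ 1 (half_pos hε) hc C2
  obtain ⟨X2, hX2, h2⟩ := N306.const_le_log (U0 / C2)
  obtain ⟨X3, hX3, h3⟩ := N306.polylog_le_exp 2 (ε := ε / 2 * C2) (by positivity)
    (25 * N * (3 * N + 2) * (2 * D * C4))
  obtain ⟨X4, hX4, h4⟩ := N306.card_ge (ε := ε / 4) hc (by positivity)
  refine ⟨max (max X1 X2) (max X3 X4), ?_⟩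
  intro w wmax hw hww hcw l hl1 hl2 J hJ1 hJ2 E x node htree C cl hcl G hGp hGlo hGhi hGass hGcard
    b hb hbias
  have hwX1 : X1 ≤ w := (le_max_left _ _).trans ((le_max_left _ _).trans hw)
  have hwX2 : X2 ≤ w := (le_max_right _ _).trans ((le_max_left _ _).trans hw)
  have hwX3 : X3 ≤ w := (le_max_left _ _).trans ((le_max_right _ _).trans hw)
  have hwX4 : X4 ≤ w := (le_max_right _ _).trans ((le_max_right _ _).trans hw)
  have hw2 : 2 ≤ w := hX4.trans hwX4
  have hw0 : 0 < w := by linarith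
  have hlw0 : 0 < Real.log w := Real.log_pos (by linarith)
  have hlW : Real.log w ≤ Real.log wmax := Real.log_le_log hw0 hww
  have hlW0 : 0 < Real.log wmax := by linarith
  set U : ℝ := C2 * Real.log wmax with hU
  have hU0 : 0 ≤ U := by positivity
  have hlr : (1 : ℝ) ≤ l := by exact_mod_cast hl1
  have hDl : 1 ≤ D * l := by nlinarith
  have hT0 : 1 ≤ 2 * D * l := by nlinarith
  have hNr : (1 : ℝ) ≤ N := by exact_mod_cast hN1
  -- the levels
  have hbig : 25 * N * (3 * N + 2) * (2 * D * l) ≤ Real.exp (ε / 2 * U) := by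
    have e1 := h3 wmax (hwX3.trans hww)
    have e2 : ε / 2 * C2 * Real.log wmax = ε / 2 * U := by rw [hU]; ring
    rw [e2] at e1
    refine le_trans ?_ e1
    have e3 : 25 * (N : ℝ) * (3 * N + 2) * (2 * D * l)
        ≤ 25 * (N : ℝ) * (3 * N + 2) * (2 * D * (C4 * Real.log wmax ^ 2)) := by
      refine mul_le_mul_of_nonneg_left ?_ (by positivity)
      exact mul_le_mul_of_nonneg_left hl2 (by linarith)
    refine e3.trans (le_of_eq ?_)
    ring
  obtain ⟨a, b', c', hJ, g1, g2, g3, g4, g5, g6, g7⟩ := N306.levels (N := N) (ε := ε)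
    (ε' := ε / 2) (by positivity) (by linarith) (by linarith) hN1 hN hT0 hU0 hbig hJ1 hJ2
  have hJ' : J = a + (b' + c') := by omega
  subst hJ'
  have hexp1 : ∀ s : ℝ, 0 ≤ s → Real.exp (-(s * U)) ≤ 1 := by
    intro s hs
    rw [Real.exp_le_one_iff]
    have : 0 ≤ s * U := mul_nonneg hs hU0
    linarith
  have ha : 1 ≤ a := by
    rcases Nat.eq_zero_or_pos a with h | h
    · exfalso
      rw [h, pow_zero, div_one] at g7
      have := hexp1 (1 / 2 - ε) (by linarith)
      linarith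
    · exact h
  have hb1 : 1 ≤ b' := by
    rcases Nat.eq_zero_or_pos b' with h | h
    · exfalso
      rw [h, pow_zero, div_one] at g6
      have := hexp1 (1 / 2 - ε) (by linarith)
      linarith
    · exact h
  have hwin : ∀ p ∈ G, √w ≤ ab p ∧ ab p ≤ 2 * √w := fun p hp =>
    N306.ab_window hw0.le (hGlo p hp) (hGhi p hp)
  refine hS U (√w) ?_ (Real.sqrt_pos.2 hw0) ?_ ?_ G hGp hGass (fun p hp => (hwin p hp).1)
    (fun p hp => (hwin p hp).2) (h4 w hwX4 _ hGcard) b hb E N (TT N (2 * D * l)) a b' c' x node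
    htree hN1 ha hb1 (fun i => TT_pos N (by linarith) i) g1 g2.le g3 g4.le hJ1 l (D * l) C cl
    ?_ hl1 hcl.near hcl.nonneg (fun f v hv => hcl.supp f v hv) hcl.sum_one hcl.small ?_ g6 g7 ?_
  · have e1 := h2 w hwX2
    rw [div_le_iff₀ hC2pos] at e1
    rw [hU]
    calc U0 ≤ Real.log w * C2 := e1
      _ ≤ Real.log wmax * C2 := mul_le_mul_of_nonneg_right hlW hC2pos.le
      _ = C2 * Real.log wmax := by ring
  · have e1 := h1 w wmax hwX1 hww hcw
    rw [pow_one] at e1
    rw [N306.log_sqrt' hw0.le, hU]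
    linarith
  · rw [N306.log_sqrt' hw0.le, hU]
    have e1 : 1 / 2 ≤ ε ^ 2 * C2 := by
      rw [div_le_iff₀ (by positivity)] at hC2
      linarith
    calc Real.log w / 2 = 1 / 2 * Real.log w := by ring
      _ ≤ 1 / 2 * Real.log wmax := by linarith
      _ ≤ ε ^ 2 * C2 * Real.log wmax := mul_le_mul_of_nonneg_right e1 hlW0.le
      _ = ε ^ 2 * (C2 * Real.log wmax) := by ring
  · rw [TT_zero]
    linarith
  · refine le_trans ?_ g5
    have hNc : (0 : ℝ) < (N : ℝ) ^ c' := by positivity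
    rw [div_le_div_iff₀ (by positivity) hNc]
    nlinarith
  · intro p hp
    have e1 := hbias p hp
    have e2 : Real.exp (-(ε / 16 * Real.log (√w))) = w ^ (-(ε / 32)) := by
      rw [← neg_mul, N306.exp_mul_log_sqrt hw0]
      congr 1
      ring
    rw [e2, mu_eq_div (fun f v hv => hcl.supp f v hv)]
    exact e1

end

end Crest.Agent.R2.T2
end

-- ▼ part R2/Right653

/-!
# R2 (Gaussian moat), right half: no tree measure with light classes
-/

set_option autoImplicit false

namespace Crest.Agent.R2.B653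

open Finset Crest.Agent.R2 Crest.Agent.R2.T1 Crest.Agent.R2.B717 Crest.Agent.R2.T2
open Crest.Agent.R2.Gcd62 (ab)
open Crest.Agent.R2.E717 (mhat)

set_option maxHeartbeats 1000000 in
/-- **RIGHT HALF** of the reduction. -/
theorem right_half :
    ∃ ε2 : ℝ, 0 < ε2 ∧ ε2 ≤ 1 / 800 ∧ ∃ N : ℕ, 1 ≤ N ∧ ∃ C2 : ℝ, 0 < C2 ∧
    ∀ D : ℝ, 1 ≤ D → ∀ c : ℝ, 0 < c → ∀ C4 : ℝ,
    ∃ X0 : ℝ, ∀ w wmax : ℝ, X0 ≤ w → w ≤ wmax → c * Real.log wmax ≤ Real.log w →
    ∀ l : ℕ, 1 ≤ l → (l : ℝ) ≤ C4 * (Real.log wmax) ^ 2 →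
    ∀ J : ℕ, TT N (2 * D * l) J ≤ Real.exp (2 * (C2 * Real.log wmax)) →
      Real.exp (2 * (C2 * Real.log wmax)) < TT N (2 * D * l) (J + 1) →
    ∀ (E : Set GaussianInt) (x : GaussianInt) (node : List (Fin N) → GaussianInt),
      IsTree E N (TT N (2 * D * l)) J x node →
    ∀ (C : (Fin J → Fin N) → Finset GaussianInt) (cl : (Fin J → Fin N) → GaussianInt → ℝ),
      Clus (leaf node) (D * l) l C cl →
    ∀ G : Finset GaussianInt, PrimeSet G w → c * w / Real.log w ≤ (G.card : ℝ) →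
      (∀ p ∈ G, LightAt (Finset.univ.biUnion C)
        (fun v => (∑ i, cl i v) / (Fintype.card (Fin J → Fin N) : ℝ)) p
          ((p.norm : ℝ) ^ (1 - ε2))) →
      False := by
  classical
  obtain ⟨εS, hεS⟩ : ∃ x : ℝ, x = 1 / 40000 := ⟨_, rfl⟩
  obtain ⟨ε, hεdef⟩ : ∃ x : ℝ, x = εS / 128 := ⟨_, rfl⟩
  have hε : 0 < ε := by rw [hεdef, hεS]; norm_num
  have hε10 : ε ≤ 1 / 10 := by rw [hεdef, hεS]; norm_num
  obtain ⟨N, hN01, hN0⟩ := N306.exists_N (ε := ε / 16) (by positivity)
  have hN1 : 1 ≤ N := hN01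
  have hNr : (1 : ℝ) ≤ N := by exact_mod_cast hN1
  have hNε : (3 * (N : ℝ) + 2) ^ (1 - ε / 16) ≤ N := hN0 N le_rfl
  have hNS : (3 * (N : ℝ) + 2) ^ (1 - εS / 2) ≤ N := by
    refine le_trans (Real.rpow_le_rpow_of_exponent_le (by linarith) ?_) hNε
    rw [hεdef, hεS]; norm_num
  obtain ⟨C2, hC2⟩ : ∃ x : ℝ, x = 1 / (2 * εS ^ 2) := ⟨_, rfl⟩
  have hC2big : 2 ≤ C2 := by rw [hC2, hεS]; norm_num
  refine ⟨ε, hε, by rw [hεdef, hεS]; norm_num, N, hN1, C2, by linarith, ?_⟩
  intro D hD c hc C4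
  obtain ⟨K, hK1, hKa, hKb, hKc⟩ : ∃ K : ℝ, 1 ≤ K ∧ (3 * (N : ℝ) + 2) * (2 * D) ≤ K ∧
      25 * (N : ℝ) ≤ K ∧ 3 * (N : ℝ) + 2 ≤ K := by
    refine ⟨(3 * (N : ℝ) + 2) * (2 * D) + 25 * N + (3 * (N : ℝ) + 2) + 1, ?_, ?_, ?_, ?_⟩
    · have : 0 ≤ (3 * (N : ℝ) + 2) * (2 * D) := by positivity
      linarith
    · linarith
    · have : 0 ≤ (3 * (N : ℝ) + 2) * (2 * D) := by positivity
      linarith
    · have : 0 ≤ (3 * (N : ℝ) + 2) * (2 * D) := by positivity
      linarith
  obtain ⟨W0, hW01, hbias⟩ := bias_reg ε K hε hε10 hK1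
  obtain ⟨X1, hback⟩ := right_back εS (by rw [hεS]; norm_num) hεS.le N hN1 hNS D hD (c / 2)
    (by positivity) C2 hC2.ge C4
  obtain ⟨X2, hX2, h2⟩ := N306.polylog_le₂ 2 (ε := 1 - 2 * ε) (by linarith) hc (4 * D * C4)
  obtain ⟨X3, hX3, h3⟩ := N306.polylog_le 1 (ε := ε / 8) (by positivity) (1 / c)
  obtain ⟨X4, hX4, h4⟩ := N306.const_le (ε := 1) one_pos (15 * (3 * (N : ℝ) + 2))
  obtain ⟨X5, hX5, h5⟩ := N306.const_le (ε := 1 - 2 * ε) (by linarith) 2
  refine ⟨max (max (max W0 X1) (max X2 X3)) (max (max X4 X5) 2), ?_⟩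
  intro w wmax hw hww hcw l hl1 hl2 J hJ1 hJ2 E x node htree C cl hcl G hG hGcard hlight
  have hwW0 : W0 ≤ w := le_trans (by simp) hw
  have hwX1 : X1 ≤ w := le_trans (by simp) hw
  have hwX2 : X2 ≤ w := le_trans (by simp) hw
  have hwX3 : X3 ≤ w := le_trans (by simp) hw
  have hwX4 : X4 ≤ w := le_trans (by simp) hw
  have hwX5 : X5 ≤ w := le_trans (by simp) hw
  have hw2 : 2 ≤ w := le_trans (by simp) hw
  have hw0 : 0 < w := by linarith
  have hw1 : 1 ≤ w := by linarith
  have hlw0 : 0 < Real.log w := Real.log_pos (by linarith)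
  have hlW : Real.log w ≤ Real.log wmax := Real.log_le_log hw0 hww
  have hlW0 : 0 < Real.log wmax := by linarith
  have hlr : (1 : ℝ) ≤ l := by exact_mod_cast hl1
  have hDl : 1 ≤ D * l := by nlinarith
  have hT0 : 1 ≤ 2 * D * l := by nlinarith
  set A : Finset GaussianInt := Finset.univ.biUnion C with hA
  set m : GaussianInt → ℝ := fun v => (∑ i, cl i v) / (Fintype.card (Fin J → Fin N) : ℝ) with hm
  have hmu : mu C cl = m := mu_eq_div hcl.supp
  have hsupp : supp C = A := rfl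
  -- ρ
  set y : ℝ := w ^ (1 - 2 * ε) with hy
  have hy2 : 2 ≤ y := h5 w hwX5
  set ρ : ℕ := ⌊y⌋₊ with hρ
  have hρ1 : (ρ : ℝ) ≤ y := Nat.floor_le (by linarith)
  have hρ2 : y / 2 ≤ (ρ : ℝ) := by
    have := Nat.lt_floor_add_one y
    rw [← hρ] at this
    linarith
  have hTρ : 2 * D * l ≤ (ρ : ℝ) := by
    have e1 := h2 w wmax hwX2 hww hcw
    have e2 : 2 * D * (l : ℝ) ≤ 2 * D * (C4 * Real.log wmax ^ 2) :=
      mul_le_mul_of_nonneg_left hl2 (by linarith)
    have e3 : 4 * D * C4 * Real.log wmax ^ 2 = 2 * (2 * D * (C4 * Real.log wmax ^ 2)) := by ring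
    rw [e3] at e1
    linarith
  have hyw : y ≤ w := by
    calc y ≤ w ^ (1 : ℝ) := Real.rpow_le_rpow_of_exponent_le hw1 (by linarith)
      _ = w := Real.rpow_one w
  have hρR : (ρ : ℝ) ≤ 15 * w ^ 2 := by nlinarith
  have hRJ : 15 * w ^ 2 < TT N (2 * D * l) J := by
    have e1 : Real.exp (2 * (C2 * Real.log wmax)) < (3 * (N : ℝ) + 2) * TT N (2 * D * l) J := by
      rw [← TT_succ]; exact hJ2
    have e2 : w ^ (3 : ℕ) ≤ Real.exp (2 * (C2 * Real.log wmax)) := by
      have : w ^ (3 : ℕ) = Real.exp (3 * Real.log w) := by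
        rw [mul_comm, Real.exp_mul, Real.exp_log hw0]
        norm_cast
      rw [this]
      apply Real.exp_le_exp.2
      nlinarith
    have e3 : 15 * (3 * (N : ℝ) + 2) ≤ w := by
      have := h4 w hwX4
      rwa [Real.rpow_one] at this
    have e4 : 0 < 3 * (N : ℝ) + 2 := by positivity
    have e5 : (3 * (N : ℝ) + 2) * (15 * w ^ 2) ≤ w ^ 3 := by
      calc (3 * (N : ℝ) + 2) * (15 * w ^ 2) = (15 * (3 * (N : ℝ) + 2)) * w ^ 2 := by ring
        _ ≤ w * w ^ 2 := mul_le_mul_of_nonneg_right e3 (by positivity)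
        _ = w ^ 3 := by ring
    have e6 : (3 * (N : ℝ) + 2) * (15 * w ^ 2) < (3 * (N : ℝ) + 2) * TT N (2 * D * l) J := by
      linarith
    exact lt_of_mul_lt_mul_left e6 e4.le
  obtain ⟨M, hM0, r1, r2, r3, r4⟩ := reg_tree (ρ := (ρ : ℝ)) (R1 := 15 * w ^ 2) htree hN1 hT0 hl1
    (r := D * l) (by linarith) (C := C) (cl := cl) hcl.near (fun f v _ => hcl.nonneg f v)
    hcl.sum_one (fun f v _ => hcl.small f v) (ε := ε / 16) (by positivity) (by linarith) hNε
    hTρ hρR hRJ
  rw [hmu] at r1 r3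
  rw [hsupp] at r2 r4
  have hρ0 : 0 < (ρ : ℝ) := by linarith
  have hm0 : ∀ z, 0 ≤ m z := fun z => div_nonneg (Finset.sum_nonneg fun i _ => hcl.nonneg i z)
    (Nat.cast_nonneg _)
  have hmsum : ∑ z ∈ A, m z = 1 := by
    have hne : Nonempty (Fin J → Fin N) := ⟨fun _ => ⟨0, hN1⟩⟩
    have := sum_mu_supp (C := C) (cl := cl) hcl.sum_one
    rw [hmu, hsupp] at this
    exact this
  have hcardε : w ^ (1 - ε / 8) ≤ (G.card : ℝ) := by
    refine le_trans ?_ hGcard
    have e1 := h3 w hwX3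
    rw [pow_one, one_div, inv_mul_le_iff₀ hc] at e1
    rw [le_div_iff₀ hlw0]
    calc w ^ (1 - ε / 8) * Real.log w ≤ w ^ (1 - ε / 8) * (c * w ^ (ε / 8)) :=
          mul_le_mul_of_nonneg_left e1 (by positivity)
      _ = c * (w ^ (1 - ε / 8) * w ^ (ε / 8)) := by ring
      _ = c * w := by
          rw [← Real.rpow_add hw0]
          have : 1 - ε / 8 + ε / 8 = 1 := by ring
          rw [this, Real.rpow_one]
  obtain ⟨G3, hG3, hhalf, b, hb, hbig⟩ := hbias w hwW0 G hG hcardε A m hm0 hmsum ρ hρ2 hρ1 M hM0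
    (by
      intro v _
      refine (r1 v).trans ?_
      have e1 : (3 * (N : ℝ) + 2) * (2 * D * l / l) = (3 * (N : ℝ) + 2) * (2 * D) := by
        rw [mul_div_assoc, div_self (by positivity), mul_one]
      rw [e1]
      exact div_le_div_of_nonneg_right (mul_le_mul_of_nonneg_right hKa (by positivity))
        (by positivity))
    r2
    (by
      intro y' B hB
      exact (r3 y' B hB).trans (div_le_div_of_nonneg_right hKb hM0.le))
    (by
      obtain ⟨Z1, hZ1, hZ2⟩ := r4
      refine ⟨Z1, hZ1.trans ?_, hZ2⟩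
      exact mul_le_mul_of_nonneg_left (mul_le_mul_of_nonneg_right hKc (by positivity)) hM0.le)
    hlight
  refine hback w wmax hwX1 hww ?_ l hl1 hl2 J hJ1 hJ2 E x node htree C cl hcl G3
    (fun p hp => hG.prime p (hG3 hp)) (fun p hp => hG.lower p (hG3 hp))
    (fun p hp => hG.upper p (hG3 hp)) (fun p hp q hq => hG.ass p (hG3 hp) q (hG3 hq)) ?_ b hb ?_
  · have : c / 2 * Real.log wmax ≤ c * Real.log wmax :=
      mul_le_mul_of_nonneg_right (by linarith) hlW0.le
    linarith
  · have e1 : (G.card : ℝ) ≤ 2 * (G3.card : ℝ) := by exact_mod_cast hhalf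
    have e2 : c / 2 * w / Real.log w = (c * w / Real.log w) / 2 := by ring
    rw [e2]
    linarith
  · intro p hp
    refine le_trans ?_ (hbig p hp)
    apply Real.rpow_le_rpow_of_exponent_le hw1
    rw [hεdef, hεS]
    norm_num

/-- `RightStmt` of helper911's composition. -/
theorem rightStmt : End911.RightStmt := by
  obtain ⟨ε2, h1, _, N, hN, C2, hC2, h⟩ := right_half
  refine ⟨ε2, h1, N, hN, C2, hC2, ?_⟩
  intro D hD c hc C4
  obtain ⟨X0, h⟩ := h D hD c hc C4
  refine ⟨X0, ?_⟩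
  intro w wmax hw hww hcw l hl1 hl2 J hJ1 hJ2 E x node htree C c' hcl G hG hGc hlight
  exact h w wmax hw hww hcw l hl1 hl2 J hJ1 hJ2 E x node htree C c' hcl G
    ⟨hG.prime, hG.assoc, hG.rat, hG.lo, hG.hi⟩ hGc hlight

end Crest.Agent.R2.B653
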