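import Mathlib
import Crest.Agent.Lib.Mertens

-- ▼ part R2/Split306a
section

/-!
# R2 (Gaussian moat), block Z1: supply of split primes (a): Mertens for primes = 1 mod 4
-/

set_option autoImplicit false

namespace Crest.Agent.R2.Z306

open Finset Crest.Agent.Lib

/-- the nontrivial character mod 4, real valued -/
noncomputable def chi (n : ℕ) : ℝ := if n % 4 = 1 then 1 else if n % 4 = 3 then -1 else 0

/-- its summatory function -/
noncomputable def cs (n : ℕ) : ℝ := if n % 4 = 2 ∨ n % 4 = 3 then 1 else 0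

lemma cs_succ (n : ℕ) : cs (n + 1) - cs n = chi n := by
  unfold cs chi
  have h : n % 4 = 0 ∨ n % 4 = 1 ∨ n % 4 = 2 ∨ n % 4 = 3 := by omega
  rcases h with h | h | h | h <;>
    (have h1 : (n + 1) % 4 = (n % 4 + 1) % 4 := by omega) <;>
    simp [h, h1]

lemma cs_mem (n : ℕ) : cs n = 0 ∨ cs n = 1 := by
  unfold cs
  split_ifs <;> simp

lemma chi_mul (m n : ℕ) : chi (m * n) = chi m * chi n := by
  unfold chi
  have h : m % 4 = 0 ∨ m % 4 = 1 ∨ m % 4 = 2 ∨ m % 4 = 3 := by omega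
  have h' : n % 4 = 0 ∨ n % 4 = 1 ∨ n % 4 = 2 ∨ n % 4 = 3 := by omega
  rcases h with h | h | h | h <;> rcases h' with h' | h' | h' | h' <;>
    simp [Nat.mul_mod, h, h']

lemma abs_chi_le (n : ℕ) : |chi n| ≤ 1 := by
  unfold chi
  split_ifs <;> simp

/-- alternating sum bound -/
lemma alt_bound (f : ℕ → ℝ) (a b : ℕ) (hab : a ≤ b) (hf : ∀ k, a ≤ k → f (k + 1) ≤ f k)
    (h0 : ∀ k, a ≤ k → 0 ≤ f k) : |∑ k ∈ Ico a b, chi k * f k| ≤ f a := by
  have key : ∑ k ∈ Ico a b, chi k * f k = f b * (cs b - cs a) +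
      ∑ j ∈ Ico a b, (cs (j + 1) - cs a) * (f j - f (j + 1)) := by
    induction b, hab using Nat.le_induction with
    | base => simp
    | succ n hn ih =>
      rw [sum_Ico_succ_top hn, sum_Ico_succ_top hn, ih, ← cs_succ n]
      ring
  rw [key]
  have hc : ∀ n, |cs n - cs a| ≤ 1 := by
    intro n
    rcases cs_mem n with h | h <;> rcases cs_mem a with h' | h' <;> rw [h, h'] <;> norm_num
  have h1 : |f b * (cs b - cs a)| ≤ f b := by
    rw [abs_mul, abs_of_nonneg (h0 b hab)]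
    calc f b * |cs b - cs a| ≤ f b * 1 := mul_le_mul_of_nonneg_left (hc b) (h0 b hab)
      _ = f b := mul_one _
  have h2 : |∑ j ∈ Ico a b, (cs (j + 1) - cs a) * (f j - f (j + 1))| ≤
      ∑ j ∈ Ico a b, (f j - f (j + 1)) := by
    refine (abs_sum_le_sum_abs _ _).trans (sum_le_sum fun j hj => ?_)
    have hj' := (mem_Ico.1 hj).1
    have h3 : 0 ≤ f j - f (j + 1) := sub_nonneg.2 (hf j hj')
    rw [abs_mul, abs_of_nonneg h3]
    calc |cs (j + 1) - cs a| * (f j - f (j + 1)) ≤ 1 * (f j - f (j + 1)) :=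
          mul_le_mul_of_nonneg_right (hc _) h3
      _ = f j - f (j + 1) := one_mul _
  have h3 : ∑ j ∈ Ico a b, (f j - f (j + 1)) = f a - f b := by
    have h4 : ∀ c, a ≤ c → ∑ j ∈ Ico a c, (f j - f (j + 1)) = f a - f c := by
      intro c hc'
      induction c, hc' using Nat.le_induction with
      | base => simp
      | succ n hn ih => rw [sum_Ico_succ_top hn, ih]; ring
    exact h4 b hab
  calc |f b * (cs b - cs a) + ∑ j ∈ Ico a b, (cs (j + 1) - cs a) * (f j - f (j + 1))|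
      ≤ |f b * (cs b - cs a)| + |∑ j ∈ Ico a b, (cs (j + 1) - cs a) * (f j - f (j + 1))| :=
        abs_add_le _ _
    _ ≤ f b + (f a - f b) := by rw [← h3]; exact add_le_add h1 h2
    _ = f a := by ring

/-- `∑_{m ≤ n} χ(m)/m` -/
noncomputable def Ac (n : ℕ) : ℝ := ∑ m ∈ Ioc 0 n, chi m / m

lemma Ac_sub (m n : ℕ) (hmn : m ≤ n) : |Ac n - Ac m| ≤ 1 / ((m : ℝ) + 1) := by
  have h1 : Ac n - Ac m = ∑ k ∈ Ico (m + 1) (n + 1), chi k * (1 / (k : ℝ)) := by
    unfold Ac
    have h2 : Ioc 0 n = Ioc 0 m ∪ Ico (m + 1) (n + 1) := by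
      ext k; simp only [mem_Ioc, mem_union, mem_Ico]; omega
    have h3 : Disjoint (Ioc 0 m) (Ico (m + 1) (n + 1)) := by
      rw [disjoint_left]; intro k hk hk'
      simp only [mem_Ioc, mem_Ico] at hk hk'; omega
    rw [h2, sum_union h3, add_sub_cancel_left]
    exact sum_congr rfl fun k _ => by ring
  rw [h1]
  have h := alt_bound (fun k : ℕ => 1 / (k : ℝ)) (m + 1) (n + 1) (by omega) ?_ ?_
  · simpa using h
  · intro k hk
    have hk0 : (0 : ℝ) < k := by exact_mod_cast (by omega : 0 < k)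
    apply one_div_le_one_div_of_le hk0
    push_cast; linarith
  · intro k _; positivity

lemma Ac_ge (n : ℕ) (hn : 1 ≤ n) : 2 / 3 ≤ Ac n := by
  have h1 : Ac 1 = 1 := by
    unfold Ac chi; simp
  have h2 : Ac 2 = 1 := by
    unfold Ac chi
    rw [show Ioc 0 2 = {1, 2} by ext k; simp only [mem_Ioc, mem_insert, mem_singleton]; omega]
    simp
  rcases Nat.lt_or_ge n 2 with h | h
  · have : n = 1 := by omega
    rw [this, h1]; norm_num
  · have := Ac_sub 2 n h
    rw [h2, abs_le] at this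
    have h3 := this.1
    norm_num at h3
    linarith

/-- `∑_{n ≤ N} χ(n) log n / n` is bounded -/
noncomputable def Bc (n : ℕ) : ℝ := ∑ m ∈ Ioc 0 n, chi m * (Real.log m / m)

lemma Bc_le (n : ℕ) : |Bc n| ≤ 1 := by
  have hlog3 : Real.log 3 / 3 ≤ 1 := by
    have := Real.log_le_sub_one_of_pos (show (0 : ℝ) < 3 by norm_num)
    linarith
  rcases Nat.lt_or_ge n 3 with h | h
  · have h3 : n = 0 ∨ n = 1 ∨ n = 2 := by omega
    rcases h3 with h3 | h3 | h3
    · rw [h3]; unfold Bc; simp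
    · rw [h3]; unfold Bc; simp
    · rw [h3]; unfold Bc chi
      rw [show Ioc 0 2 = {1, 2} by ext k; simp only [mem_Ioc, mem_insert, mem_singleton]; omega]
      simp
  · have h1 : Bc n = ∑ k ∈ Ico 3 (n + 1), chi k * (Real.log k / k) := by
      unfold Bc
      have h2 : Ioc 0 n = {1, 2} ∪ Ico 3 (n + 1) := by
        ext k; simp only [mem_Ioc, mem_union, mem_Ico, mem_insert, mem_singleton]; omega
      have h3 : Disjoint ({1, 2} : Finset ℕ) (Ico 3 (n + 1)) := by
        rw [disjoint_left]; intro k hk hk'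
        simp only [mem_insert, mem_singleton, mem_Ico] at hk hk'; omega
      rw [h2, sum_union h3]
      simp [chi]
    rw [h1]
    have h := alt_bound (fun k : ℕ => Real.log k / (k : ℝ)) 3 (n + 1) (by omega) ?_ ?_
    · refine h.trans ?_
      simpa using hlog3
    · intro k hk
      have he : Real.exp 1 ≤ 3 := by
        have := Real.exp_one_lt_d9; linarith
      have hk3 : (3 : ℝ) ≤ k := by exact_mod_cast hk
      have := Real.log_div_self_antitoneOn (a := (k : ℝ)) (b := ((k + 1 : ℕ) : ℝ))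
        (by show Real.exp 1 ≤ (k : ℝ); linarith)
        (by show Real.exp 1 ≤ ((k + 1 : ℕ) : ℝ); push_cast; linarith) (by push_cast; linarith)
      exact this
    · intro k _
      exact div_nonneg (Real.log_natCast_nonneg k) (Nat.cast_nonneg k)

end Crest.Agent.R2.Z306
end

-- ▼ part R2/Split306b
section

/-!
# R2 (Gaussian moat), block Z1: supply of split primes (b): Mertens for primes = 1 mod 4
-/

set_option autoImplicit false

namespace Crest.Agent.R2.Z306

open Finset Crest.Agent.Lib ArithmeticFunction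

/-- `χ(m)/m` as an arithmetic function -/
noncomputable def gf : ArithmeticFunction ℝ := ⟨fun m => chi m / m, by simp [chi]⟩

/-- `χ(d) Λ(d)/d` as an arithmetic function -/
noncomputable def ff : ArithmeticFunction ℝ :=
  ⟨fun d => chi d * vonMangoldt d / d, by simp [chi]⟩

lemma gf_apply (m : ℕ) : gf m = chi m / m := rfl
lemma ff_apply (m : ℕ) : ff m = chi m * vonMangoldt m / m := rfl

lemma ff_mul_gf (n : ℕ) : (ff * gf) n = chi n * (Real.log n / n) := by
  rw [mul_apply]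
  have h1 : ∀ x ∈ n.divisorsAntidiagonal,
      ff x.1 * gf x.2 = vonMangoldt x.1 * (chi n / n) := by
    intro x hx
    have h2 := Nat.mem_divisorsAntidiagonal.1 hx
    have hx1 : (x.1 : ℝ) ≠ 0 := by
      have : x.1 ≠ 0 := by rintro h; apply h2.2; rw [← h2.1, h]; simp
      exact_mod_cast this
    have hx2 : (x.2 : ℝ) ≠ 0 := by
      have : x.2 ≠ 0 := by rintro h; apply h2.2; rw [← h2.1, h]; simp
      exact_mod_cast this
    rw [ff_apply, gf_apply, ← h2.1, chi_mul]
    push_cast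
    field_simp
  rw [sum_congr rfl h1, ← sum_mul]
  have h3 : ∑ x ∈ n.divisorsAntidiagonal, vonMangoldt x.1 = Real.log n := by
    rw [← vonMangoldt_sum (n := n)]
    exact Nat.sum_divisorsAntidiagonal (fun i _ => (vonMangoldt i : ℝ))
  rw [h3]
  ring

/-- `∑_{m ≤ N} χ(m)Λ(m)/m` -/
noncomputable def Sc (n : ℕ) : ℝ := ∑ m ∈ Ioc 0 n, chi m * vonMangoldt m / m

lemma psi_nat (N : ℕ) : ∑ m ∈ Ioc 0 N, vonMangoldt m ≤ (Real.log 4 + 4) * N := by
  have h := Chebyshev.psi_le_const_mul_self (x := (N : ℝ)) (Nat.cast_nonneg N)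
  unfold Chebyshev.psi at h
  simpa using h

lemma log4_le : Real.log 4 ≤ 1.5 := by
  have h : Real.log 4 = 2 * Real.log 2 := by
    rw [show (4 : ℝ) = 2 ^ 2 by norm_num, Real.log_pow]; norm_num
  rw [h]
  have := Real.log_two_lt_d9
  linarith

lemma Sc_le (N : ℕ) : |Sc N| ≤ 10 := by
  rcases Nat.eq_zero_or_pos N with h0 | hN
  · rw [h0]; unfold Sc; simp
  have h1 : Bc N = ∑ d ∈ Ioc 0 N, chi d * vonMangoldt d / d * Ac (N / d) := by
    have h2 := sum_Ioc_mul_eq_sum_sum ff gf N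
    have h3 : ∑ n ∈ Ioc 0 N, (ff * gf) n = Bc N := by
      unfold Bc; exact sum_congr rfl fun n _ => ff_mul_gf n
    rw [h3] at h2
    rw [h2]
    rfl
  have h2 : Bc N - Ac N * Sc N =
      ∑ d ∈ Ioc 0 N, chi d * vonMangoldt d / d * (Ac (N / d) - Ac N) := by
    rw [h1]; unfold Sc
    rw [mul_sum, ← sum_sub_distrib]
    exact sum_congr rfl fun d _ => by ring
  have hNr : (0 : ℝ) < N := by exact_mod_cast hN
  have h3 : |Bc N - Ac N * Sc N| ≤ Real.log 4 + 4 := by
    rw [h2]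
    calc |∑ d ∈ Ioc 0 N, chi d * vonMangoldt d / d * (Ac (N / d) - Ac N)|
        ≤ ∑ d ∈ Ioc 0 N, |chi d * vonMangoldt d / d * (Ac (N / d) - Ac N)| :=
          abs_sum_le_sum_abs _ _
      _ ≤ ∑ d ∈ Ioc 0 N, vonMangoldt d / N := by
          refine sum_le_sum fun d hd => ?_
          have hd1 := (mem_Ioc.1 hd).1
          have hd2 := (mem_Ioc.1 hd).2
          have hdr : (0 : ℝ) < d := by exact_mod_cast hd1
          have hL : (0 : ℝ) ≤ vonMangoldt d := vonMangoldt_nonneg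
          have h4 : |Ac (N / d) - Ac N| ≤ 1 / (((N / d : ℕ) : ℝ) + 1) := by
            rw [abs_sub_comm]
            exact Ac_sub _ _ (Nat.div_le_self _ _)
          have h5 : 1 / (((N / d : ℕ) : ℝ) + 1) ≤ d / N := by
            rw [div_le_div_iff₀ (by positivity) hNr]
            have h6 : N < (N / d + 1) * d := by
              have := Nat.lt_div_mul_add (a := N) hd1
              nlinarith
            have h7 : (N : ℝ) < (((N / d : ℕ) : ℝ) + 1) * d := by exact_mod_cast h6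
            linarith [mul_comm (((N / d : ℕ) : ℝ) + 1) (d : ℝ)]
          rw [abs_mul, abs_div, abs_mul, abs_of_nonneg hL, abs_of_pos hdr]
          calc |chi d| * vonMangoldt d / d * |Ac (N / d) - Ac N|
              ≤ 1 * vonMangoldt d / d * (d / N) := by
                apply mul_le_mul
                · apply div_le_div_of_nonneg_right _ hdr.le
                  exact mul_le_mul_of_nonneg_right (abs_chi_le d) hL
                · exact h4.trans h5
                · exact abs_nonneg _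
                · positivity
            _ = vonMangoldt d / N := by field_simp
      _ = (∑ d ∈ Ioc 0 N, vonMangoldt d) / N := by rw [sum_div]
      _ ≤ Real.log 4 + 4 := by
          rw [div_le_iff₀ hNr]; exact psi_nat N
  have h4 := Bc_le N
  have h5 := Ac_ge N hN
  have h6 := log4_le
  have h7 : |Ac N * Sc N| ≤ 6.5 := by
    have : Ac N * Sc N = Bc N - (Bc N - Ac N * Sc N) := by ring
    rw [this]
    refine (abs_sub _ _).trans ?_
    linarith
  rw [abs_mul, abs_of_pos (by linarith)] at h7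
  nlinarith [abs_nonneg (Sc N)]

/-- `∑_{m ≤ N} Λ(m)/m ≤ log N + C` -/
lemma sum_mangoldt_div_le (N : ℕ) (hN : 1 ≤ N) :
    ∑ m ∈ Ioc 0 N, vonMangoldt m / m ≤ Real.log N + 5.5 := by
  have hNr : (0 : ℝ) < N := by exact_mod_cast hN
  have h1 := sum_Ioc_mul_zeta_eq_sum (R := ℝ) vonMangoldt N
  have h2 : ∑ n ∈ Ioc 0 N, ((vonMangoldt * (zeta : ArithmeticFunction ℝ)) n : ℝ) =
      ∑ n ∈ Ioc 0 N, Real.log n := by
    refine sum_congr rfl fun n _ => ?_
    rw [vonMangoldt_mul_zeta]; rfl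
  rw [h2] at h1
  have h3 : ∑ n ∈ Ioc 0 N, Real.log n ≤ N * Real.log N := by
    calc ∑ n ∈ Ioc 0 N, Real.log n ≤ ∑ n ∈ Ioc 0 N, Real.log N := by
          refine sum_le_sum fun n hn => ?_
          have hn1 := (mem_Ioc.1 hn).1
          have hn2 := (mem_Ioc.1 hn).2
          exact Real.log_le_log (by exact_mod_cast hn1) (by exact_mod_cast hn2)
      _ = N * Real.log N := by simp
  have h4 : ∑ m ∈ Ioc 0 N, vonMangoldt m * ((N : ℝ) / m - 1) ≤
      ∑ m ∈ Ioc 0 N, vonMangoldt m * ((N / m : ℕ) : ℝ) := by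
    refine sum_le_sum fun m hm => ?_
    have hm1 := (mem_Ioc.1 hm).1
    have hmr : (0 : ℝ) < m := by exact_mod_cast hm1
    refine mul_le_mul_of_nonneg_left ?_ vonMangoldt_nonneg
    have h6 : N < (N / m + 1) * m := by
      have := Nat.lt_div_mul_add (a := N) hm1
      nlinarith
    have h7 : (N : ℝ) < (((N / m : ℕ) : ℝ) + 1) * m := by exact_mod_cast h6
    have h8 : (N : ℝ) / m ≤ ((N / m : ℕ) : ℝ) + 1 := by
      rw [div_le_iff₀ hmr]; exact h7.le
    linarith
  have h5 : ∑ m ∈ Ioc 0 N, vonMangoldt m * ((N : ℝ) / m - 1) =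
      N * (∑ m ∈ Ioc 0 N, vonMangoldt m / m) - ∑ m ∈ Ioc 0 N, vonMangoldt m := by
    rw [mul_sum, ← sum_sub_distrib]
    exact sum_congr rfl fun m _ => by ring
  rw [h5] at h4
  have h6 := psi_nat N
  have h7 := log4_le
  have h8 : (N : ℝ) * (∑ m ∈ Ioc 0 N, vonMangoldt m / m) ≤ N * (Real.log N + 5.5) := by
    nlinarith
  exact le_of_mul_le_mul_left h8 hNr

/-- prime part of `S` -/
noncomputable def Sp (N : ℕ) : ℝ := ∑ p ∈ Nat.primesLE N, chi p * (Real.log p / p)

lemma Sp_le (N : ℕ) (hN : 1 ≤ N) : |Sp N| ≤ 19 := by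
  have hsub : Nat.primesLE N = (Ioc 0 N).filter Nat.Prime := by
    rw [Nat.primesLE_eq_filter_Ioc_zero]
  have h1 : Sc N = Sp N + ∑ m ∈ (Ioc 0 N).filter (fun m => ¬ m.Prime),
      chi m * vonMangoldt m / m := by
    unfold Sc Sp
    rw [hsub, ← sum_filter_add_sum_filter_not (Ioc 0 N) Nat.Prime]
    congr 1
    refine sum_congr rfl fun p hp => ?_
    rw [vonMangoldt_apply_prime (mem_filter.1 hp).2]
    ring
  have h2 : ∑ m ∈ Ioc 0 N, vonMangoldt m / m = Mertens.A N +
      ∑ m ∈ (Ioc 0 N).filter (fun m => ¬ m.Prime), vonMangoldt m / (m : ℝ) := by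
    unfold Mertens.A
    rw [hsub, ← sum_filter_add_sum_filter_not (Ioc 0 N) Nat.Prime]
    congr 1
    refine sum_congr rfl fun p hp => ?_
    rw [vonMangoldt_apply_prime (mem_filter.1 hp).2]
  have h3 : |∑ m ∈ (Ioc 0 N).filter (fun m => ¬ m.Prime), chi m * vonMangoldt m / m| ≤
      ∑ m ∈ (Ioc 0 N).filter (fun m => ¬ m.Prime), vonMangoldt m / (m : ℝ) := by
    refine (abs_sum_le_sum_abs _ _).trans (sum_le_sum fun m _ => ?_)
    have hL : (0 : ℝ) ≤ vonMangoldt m := vonMangoldt_nonneg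
    rw [abs_div, abs_mul, abs_of_nonneg hL, abs_of_nonneg (Nat.cast_nonneg (α := ℝ) m)]
    apply div_le_div_of_nonneg_right _ (Nat.cast_nonneg m)
    calc |chi m| * vonMangoldt m ≤ 1 * vonMangoldt m :=
          mul_le_mul_of_nonneg_right (abs_chi_le m) hL
      _ = vonMangoldt m := one_mul _
  have h4 := sum_mangoldt_div_le N hN
  have h5 := Mertens.mertens_one N hN
  have h6 := Sc_le N
  rw [abs_le] at h3 h5 h6 ⊢
  constructor <;> linarith [h3.1, h3.2, h5.1, h5.2, h6.1, h6.2]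

/-- `∑_{p ≤ N, p = 1 mod 4} log p / p` -/
noncomputable def P1 (N : ℕ) : ℝ :=
  ∑ p ∈ (Nat.primesLE N).filter (fun p => p % 4 = 1), Real.log p / p

theorem mertens_nat (N : ℕ) (hN : 1 ≤ N) : |P1 N - Real.log N / 2| ≤ 12 := by
  have h1 : 2 * P1 N = Mertens.A N + Sp N -
      ∑ p ∈ (Nat.primesLE N).filter (fun p => p = 2), Real.log p / p := by
    unfold P1 Mertens.A Sp
    rw [sum_filter, sum_filter, mul_sum, ← sum_add_distrib, ← sum_sub_distrib]
    refine sum_congr rfl fun p hp => ?_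
    have hp' : p.Prime := (Nat.mem_primesLE.1 hp).2
    by_cases h2 : p = 2
    · subst h2; simp [chi]
    · have hodd : p % 2 = 1 := by
        rcases hp'.eq_two_or_odd with h | h
        · exact absurd h h2
        · exact h
      have h4 : p % 4 = 1 ∨ p % 4 = 3 := by omega
      rcases h4 with h4 | h4 <;> simp [chi, h4, h2]
      ring
  have h2 : 0 ≤ ∑ p ∈ (Nat.primesLE N).filter (fun p => p = 2), Real.log p / (p : ℝ) :=
    sum_nonneg fun p _ => div_nonneg (Real.log_natCast_nonneg p) (Nat.cast_nonneg p)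
  have h3 : ∑ p ∈ (Nat.primesLE N).filter (fun p => p = 2), Real.log p / (p : ℝ) ≤ 1 := by
    calc ∑ p ∈ (Nat.primesLE N).filter (fun p => p = 2), Real.log p / (p : ℝ)
        ≤ ∑ p ∈ ({2} : Finset ℕ), Real.log p / (p : ℝ) := by
          refine sum_le_sum_of_subset_of_nonneg ?_ fun p _ _ =>
            div_nonneg (Real.log_natCast_nonneg p) (Nat.cast_nonneg p)
          intro p hp
          rw [mem_singleton]
          exact (mem_filter.1 hp).2
      _ ≤ 1 := by
          simp only [sum_singleton, Nat.cast_ofNat]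
          have := Real.log_two_lt_d9
          linarith
  have h5 := Mertens.mertens_one N hN
  have h6 := Sp_le N hN
  rw [abs_le] at h5 h6 ⊢
  constructor <;> linarith [h5.1, h5.2, h6.1, h6.2]

end Crest.Agent.R2.Z306
end

-- ▼ part R2/Split306c
section

/-!
# R2 (Gaussian moat), block Z1: supply of split primes (c): windows
-/

set_option autoImplicit false

namespace Crest.Agent.R2.Z306

open Finset Crest.Agent.Lib

/-- primes `= 1 mod 4` in `(a, b]` (real ends) -/
noncomputable def win (a b : ℝ) : Finset ℕ :=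
  (Ioc ⌊a⌋₊ ⌊b⌋₊).filter (fun p => p.Prime ∧ p % 4 = 1)

lemma mem_win {a b : ℝ} {p : ℕ} (ha : 0 ≤ a) (hb : 0 ≤ b) :
    p ∈ win a b ↔ (a < p ∧ (p : ℝ) ≤ b) ∧ p.Prime ∧ p % 4 = 1 := by
  unfold win
  rw [mem_filter, mem_Ioc, Nat.floor_lt ha, Nat.le_floor_iff hb]

/-- weighted sum over a window -/
noncomputable def ws (a b : ℝ) : ℝ := ∑ p ∈ win a b, Real.log p / p

lemma P1_sub (M N : ℕ) (h : M ≤ N) : P1 N - P1 M =
    ∑ p ∈ (Ioc M N).filter (fun p => p.Prime ∧ p % 4 = 1), Real.log p / (p : ℝ) := by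
  unfold P1
  rw [Nat.primesLE_eq_filter_Ioc_zero, Nat.primesLE_eq_filter_Ioc_zero, filter_filter, filter_filter]
  have h2 : (Ioc 0 N).filter (fun p => p.Prime ∧ p % 4 = 1) =
      (Ioc 0 M).filter (fun p => p.Prime ∧ p % 4 = 1) ∪
      (Ioc M N).filter (fun p => p.Prime ∧ p % 4 = 1) := by
    rw [← filter_union]
    congr 1
    ext k; simp only [mem_Ioc, mem_union]; omega
  have h3 : Disjoint ((Ioc 0 M).filter (fun p => p.Prime ∧ p % 4 = 1))
      ((Ioc M N).filter (fun p => p.Prime ∧ p % 4 = 1)) := by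
    rw [disjoint_left]; intro k hk hk'
    simp only [mem_filter, mem_Ioc] at hk hk'; omega
  rw [h2, sum_union h3, add_sub_cancel_left]

lemma ws_eq {a b : ℝ} (ha : 0 ≤ a) (hab : a ≤ b) : ws a b = P1 ⌊b⌋₊ - P1 ⌊a⌋₊ := by
  rw [P1_sub _ _ (Nat.floor_le_floor hab)]
  rfl

lemma ws_add {a b c : ℝ} (ha : 0 ≤ a) (hab : a ≤ b) (hbc : b ≤ c) : ws a c = ws a b + ws b c := by
  rw [ws_eq ha (hab.trans hbc), ws_eq ha hab, ws_eq (ha.trans hab) hbc]; ring

lemma log_floor_ge {x : ℝ} (hx : 1 ≤ x) : Real.log x - 1 ≤ Real.log (⌊x⌋₊ : ℝ) := by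
  have hn : 1 ≤ ⌊x⌋₊ := Nat.le_floor (by exact_mod_cast hx)
  have hn0 : (0 : ℝ) < (⌊x⌋₊ : ℝ) := by exact_mod_cast hn
  have h1 : x ≤ 2 * (⌊x⌋₊ : ℝ) := by
    have := (Nat.lt_floor_add_one x).le
    have h2 : (1 : ℝ) ≤ (⌊x⌋₊ : ℝ) := by exact_mod_cast hn
    linarith
  have h2 : Real.log x ≤ Real.log 2 + Real.log (⌊x⌋₊ : ℝ) := by
    rw [← Real.log_mul (by norm_num) hn0.ne']
    exact Real.log_le_log (by linarith) h1
  have := Real.log_two_lt_d9
  linarith

/-- (Z1a) Mertens' first theorem for primes `= 1 mod 4` -/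
theorem mertens {x : ℝ} (hx : 1 ≤ x) : |P1 ⌊x⌋₊ - Real.log x / 2| ≤ 13 := by
  have hn : 1 ≤ ⌊x⌋₊ := Nat.le_floor (by exact_mod_cast hx)
  have hn0 : (0 : ℝ) < (⌊x⌋₊ : ℝ) := by exact_mod_cast hn
  have h1 := mertens_nat ⌊x⌋₊ hn
  have h2 := log_floor_ge hx
  have h3 : Real.log (⌊x⌋₊ : ℝ) ≤ Real.log x :=
    Real.log_le_log hn0 (Nat.floor_le (by linarith))
  rw [abs_le] at h1 ⊢
  constructor <;> linarith [h1.1, h1.2]

lemma ws_big {X : ℝ} (hX : 1 ≤ X) : 1 ≤ ws X (2 ^ 80 * X) := by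
  have h80 : X ≤ 2 ^ 80 * X := by nlinarith [show (1 : ℝ) ≤ 2 ^ 80 by norm_num]
  rw [ws_eq (by linarith) h80]
  have h1 := mertens hX
  have h2 := mertens (hX.trans h80)
  have h3 : Real.log (2 ^ 80 * X) = 80 * Real.log 2 + Real.log X := by
    rw [Real.log_mul (by positivity) (by linarith), Real.log_pow]; norm_num
  rw [h3] at h2
  have h5 := Real.log_two_gt_d9
  rw [abs_le] at h1 h2
  have h6 := h1.2
  have h7 := h2.1
  generalize P1 ⌊2 ^ 80 * X⌋₊ = A at *
  generalize P1 ⌊X⌋₊ = B at *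
  generalize Real.log X = C at *
  generalize Real.log 2 = D at *
  linarith

lemma ws_pow {X : ℝ} (hX : 1 ≤ X) (n : ℕ) :
    ws X (2 ^ n * X) = ∑ i ∈ range n, ws (2 ^ i * X) (2 ^ (i + 1) * X) := by
  induction n with
  | zero => simp [ws, win]
  | succ n ih =>
    rw [sum_range_succ, ← ih]
    have h1 : X ≤ 2 ^ n * X := by nlinarith [one_le_pow₀ (M₀ := ℝ) (a := 2) (by norm_num) (n := n)]
    exact ws_add (by linarith) h1 (by rw [pow_succ]; nlinarith)

lemma ws_le_card {w : ℝ} (hw : 1 ≤ w) :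
    ws w (2 * w) ≤ (win w (2 * w)).card * (Real.log (2 * w) / w) := by
  unfold ws
  rw [← nsmul_eq_mul]
  refine sum_le_card_nsmul _ _ _ fun p hp => ?_
  have hp' := (mem_win (by linarith) (by linarith)).1 hp
  apply div_le_div₀ (Real.log_nonneg (by linarith)) _ (by linarith) hp'.1.1.le
  exact Real.log_le_log (by linarith [hp'.1.1]) hp'.1.2

/-- (Z1b) windows with many primes `= 1 mod 4` -/
theorem windows {X : ℝ} (hX : 2 ≤ X) : ∃ w : ℝ, X ≤ w ∧ w ≤ 2 ^ 80 * X ∧
    w / (160 * Real.log w) ≤ (win w (2 * w)).card := by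
  have h1 := ws_big (X := X) (by linarith)
  rw [ws_pow (by linarith)] at h1
  obtain ⟨i, hi, h2⟩ : ∃ i ∈ range 80, (1 : ℝ) / 80 ≤ ws (2 ^ i * X) (2 ^ (i + 1) * X) := by
    by_contra hcon
    push Not at hcon
    have h3 : ∑ i ∈ range 80, ws (2 ^ i * X) (2 ^ (i + 1) * X) < ∑ i ∈ range 80, (1 : ℝ) / 80 :=
      sum_lt_sum_of_nonempty ⟨0, by simp⟩ hcon
    rw [sum_const, card_range] at h3
    norm_num at h3
    linarith
  have hi' : i < 80 := mem_range.1 hi
  have hpow : (1 : ℝ) ≤ 2 ^ i := one_le_pow₀ (by norm_num)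
  have hw : X ≤ 2 ^ i * X := by nlinarith
  refine ⟨2 ^ i * X, hw, ?_, ?_⟩
  · apply mul_le_mul_of_nonneg_right _ (by linarith)
    exact pow_le_pow_right₀ (by norm_num) (by omega)
  · have h3 : 2 ^ (i + 1) * X = 2 * (2 ^ i * X) := by ring
    rw [h3] at h2
    generalize 2 ^ i * X = w at *
    have hw2 : 2 ≤ w := hX.trans hw
    have h4 := h2.trans (ws_le_card (w := w) (by linarith))
    have hlw : 0 < Real.log w := Real.log_pos (by linarith)
    have h5 : Real.log (2 * w) ≤ 2 * Real.log w := by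
      rw [Real.log_mul (by norm_num) (by linarith)]
      have := Real.log_le_log (by norm_num) hw2
      linarith
    have h6 : (1 : ℝ) / 80 ≤ (win w (2 * w)).card * (2 * Real.log w / w) := by
      refine h4.trans (mul_le_mul_of_nonneg_left ?_ (Nat.cast_nonneg _))
      exact div_le_div_of_nonneg_right h5 (by linarith)
    rw [div_le_iff₀ (by positivity)]
    have h7 : ((win w (2 * w)).card : ℝ) * (2 * Real.log w / w) * w =
        (win w (2 * w)).card * (2 * Real.log w) := by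
      field_simp
    have h8 : (1 : ℝ) / 80 * w ≤ (win w (2 * w)).card * (2 * Real.log w) := by
      rw [← h7]
      exact mul_le_mul_of_nonneg_right h6 (by linarith)
    linarith

end Crest.Agent.R2.Z306
end

-- ▼ part R2/Split306d

/-!
# R2 (Gaussian moat), block Z1: supply of split primes (d): Gaussian primes
-/

set_option autoImplicit false

namespace Crest.Agent.R2.Z306

open Finset Crest.Agent.Lib

lemma gauss_norm (a b : ℤ) : (⟨a, b⟩ : GaussianInt).norm = a ^ 2 + b ^ 2 := by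
  rw [Zsqrtd.norm_def]; ring

lemma exists_gp (p : ℕ) (hp : p.Prime) (h4 : p % 4 = 1) :
    ∃ z : GaussianInt, z.norm = p := by
  haveI : Fact p.Prime := ⟨hp⟩
  obtain ⟨a, b, hab⟩ := Nat.Prime.sq_add_sq (p := p) (by omega)
  refine ⟨⟨a, b⟩, ?_⟩
  rw [gauss_norm, ← hab]; push_cast; ring

open Classical in
/-- a chosen Gaussian prime above `p = 1 mod 4` -/
noncomputable def gp (p : ℕ) : GaussianInt :=
  if h : p.Prime ∧ p % 4 = 1 then (exists_gp p h.1 h.2).choose else 0

lemma norm_gp {p : ℕ} (hp : p.Prime) (h4 : p % 4 = 1) : (gp p).norm = p := by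
  unfold gp
  rw [dif_pos ⟨hp, h4⟩]
  exact (exists_gp p hp h4).choose_spec

lemma prime_of_norm {z : GaussianInt} {p : ℕ} (hp : p.Prime) (hz : z.norm = p) : Prime z := by
  have hirr : Irreducible z := by
    constructor
    · intro hu
      have := (Zsqrtd.norm_eq_one_iff (x := z)).2 hu
      rw [hz] at this
      simp only [Int.natAbs_natCast] at this
      exact hp.one_lt.ne' this
    · intro a b hab
      have h1 : a.norm.natAbs * b.norm.natAbs = p := by
        rw [← Int.natAbs_mul, ← Zsqrtd.norm_mul, ← hab, hz, Int.natAbs_natCast]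
      rcases (Nat.prime_mul_iff.1 (h1 ▸ hp)) with h | h
      · right; exact Zsqrtd.norm_eq_one_iff.1 h.2
      · left; exact Zsqrtd.norm_eq_one_iff.1 h.2
  exact hirr.prime

lemma norm_eq_of_assoc {z w : GaussianInt} (h : Associated z w) : z.norm = w.norm := by
  obtain ⟨u, rfl⟩ := h
  have h1 : (u : GaussianInt).norm.natAbs = 1 := Zsqrtd.norm_eq_one_iff.2 u.isUnit
  have h2 : 0 ≤ (u : GaussianInt).norm := GaussianInt.norm_nonneg _
  have h3 : (u : GaussianInt).norm = 1 := by omega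
  rw [Zsqrtd.norm_mul, h3, mul_one]

lemma norm_star (z : GaussianInt) : (star z).norm = z.norm := by
  rw [Zsqrtd.norm_def, Zsqrtd.norm_def]
  simp

/-- a prime above `p = 1 mod 4` is not associated with its conjugate -/
lemma not_assoc_star {z : GaussianInt} {p : ℕ} (hp : p.Prime) (h4 : p % 4 = 1)
    (hz : z.norm = p) : ¬ Associated z (star z) := by
  intro h
  have hzp : Prime z := prime_of_norm hp hz
  -- `z ∣ z + star z = 2 re z` and `z ∣ z - star z = 2 i im z`
  have h1 : z ∣ star z := h.dvd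
  have h2 : z ∣ ((2 * z.re : ℤ) : GaussianInt) := by
    have : ((2 * z.re : ℤ) : GaussianInt) = z + star z := by
      ext <;> simp [two_mul]
    rw [this]; exact dvd_add dvd_rfl h1
  have h3 : (z.norm : ℤ) ∣ (2 * z.re) ^ 2 := by
    obtain ⟨c, hc⟩ := h2
    have h5 := congrArg Zsqrtd.norm hc
    rw [Zsqrtd.norm_mul, Zsqrtd.norm_intCast] at h5
    exact ⟨c.norm, by rw [← h5]; ring⟩
  rw [hz] at h3
  have hpZ : Prime (p : ℤ) := Nat.prime_iff_prime_int.1 hp
  have h6 : (p : ℤ) ∣ 2 * z.re := hpZ.dvd_of_dvd_pow h3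
  have h7 : ¬ (p : ℤ) ∣ 2 := by
    intro h
    have : p ∣ 2 := by exact_mod_cast h
    have := Nat.le_of_dvd (by norm_num) this
    have := hp.two_le
    omega
  have h8 : (p : ℤ) ∣ z.re := (hpZ.dvd_or_dvd h6).resolve_left h7
  have h9 : z.re ^ 2 + z.im ^ 2 = p := by
    rw [← hz, Zsqrtd.norm_def]; ring
  obtain ⟨c, hc⟩ := h8
  have hp2 : (2 : ℤ) ≤ p := by exact_mod_cast hp.two_le
  by_cases hc0 : c = 0
  · rw [hc0, mul_zero] at hc
    rw [hc] at h9
    -- p is a square
    have h10 : z.im ^ 2 = p := by linarith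
    have h11 : (p : ℤ) ∣ z.im := hpZ.dvd_of_dvd_pow (n := 2) (by rw [h10])
    obtain ⟨e, he⟩ := h11
    rw [he] at h10
    have h12 : (p : ℤ) * (p * e ^ 2 - 1) = 0 := by linear_combination h10
    rcases mul_eq_zero.1 h12 with h13 | h13
    · omega
    · have h14 : (p : ℤ) * e ^ 2 = 1 := by linarith
      have h15 : (p : ℤ) ∣ 1 := ⟨e ^ 2, h14.symm⟩
      have := Int.le_of_dvd one_pos h15
      omega
  · have h10 : 1 ≤ c ^ 2 := by
      have := sq_nonneg c
      have h11 : c ^ 2 ≠ 0 := pow_ne_zero 2 hc0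
      omega
    rw [hc] at h9
    nlinarith [sq_nonneg z.im, mul_pos (show (0 : ℤ) < p by linarith) (show (0 : ℤ) < p by linarith)]

/-- properties of a good set of Gaussian primes in the window `(w, 2w]` of norms -/
structure Good (w : ℝ) (G : Finset GaussianInt) : Prop where
  prime : ∀ p ∈ G, Prime p
  lo : ∀ p ∈ G, w < (p.norm : ℝ)
  hi : ∀ p ∈ G, (p.norm : ℝ) ≤ 2 * w
  rat : ∀ p ∈ G, (p.norm.natAbs).Prime ∧ p.norm.natAbs % 4 = 1
  inj : ∀ p ∈ G, ∀ q ∈ G, p.norm = q.norm → p = q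

lemma Good.assoc {w : ℝ} {G : Finset GaussianInt} (h : Good w G) {p q : GaussianInt}
    (hp : p ∈ G) (hq : q ∈ G) (hpq : Associated p q) : p = q :=
  h.inj p hp q hq (norm_eq_of_assoc hpq)

lemma Good.not_star {w : ℝ} {G : Finset GaussianInt} (h : Good w G) {p q : GaussianInt}
    (hp : p ∈ G) (hq : q ∈ G) : ¬ Associated p (star q) := by
  intro hpq
  have h1 := norm_eq_of_assoc hpq
  rw [norm_star] at h1
  have h2 := h.inj p hp q hq h1
  subst h2
  have h3 : p.norm = (p.norm.natAbs : ℤ) := by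
    rw [Int.natCast_natAbs, abs_of_nonneg (GaussianInt.norm_nonneg p)]
  exact not_assoc_star (h.rat p hp).1 (h.rat p hp).2 h3 hpq


/-- the Gaussian primes chosen above the window `(w, 2w]` -/
noncomputable def gw (w : ℝ) : Finset GaussianInt := (win w (2 * w)).image gp

lemma good_gw {w : ℝ} (hw : 0 ≤ w) : Good w (gw w) := by
  have key : ∀ p ∈ gw w, ∃ n : ℕ, n.Prime ∧ n % 4 = 1 ∧ w < n ∧ (n : ℝ) ≤ 2 * w ∧
      p = gp n ∧ p.norm = n := by
    intro p hp
    obtain ⟨n, hn, rfl⟩ := mem_image.1 hp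
    have h1 := (mem_win hw (by linarith)).1 hn
    exact ⟨n, h1.2.1, h1.2.2, h1.1.1, h1.1.2, rfl, norm_gp h1.2.1 h1.2.2⟩
  refine ⟨?_, ?_, ?_, ?_, ?_⟩
  · intro p hp
    obtain ⟨n, h1, _, _, _, _, h6⟩ := key p hp
    exact prime_of_norm h1 h6
  · intro p hp
    obtain ⟨n, _, _, h3, _, _, h6⟩ := key p hp
    rw [h6]; exact_mod_cast h3
  · intro p hp
    obtain ⟨n, _, _, _, h4, _, h6⟩ := key p hp
    rw [h6]; exact_mod_cast h4
  · intro p hp
    obtain ⟨n, h1, h2, _, _, _, h6⟩ := key p hp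
    rw [h6, Int.natAbs_natCast]; exact ⟨h1, h2⟩
  · intro p hp q hq hpq
    obtain ⟨n, _, _, _, _, h5, h6⟩ := key p hp
    obtain ⟨n', _, _, _, _, h5', h6'⟩ := key q hq
    rw [h6, h6'] at hpq
    have : n = n' := by exact_mod_cast hpq
    rw [h5, h5', this]

lemma card_gw {w : ℝ} (hw : 0 ≤ w) : (gw w).card = (win w (2 * w)).card := by
  unfold gw
  refine card_image_of_injOn ?_
  intro a ha b hb hab
  have h1 := (mem_win hw (by linarith)).1 (mem_coe.1 ha)
  have h2 := (mem_win hw (by linarith)).1 (mem_coe.1 hb)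
  have h3 := congrArg Zsqrtd.norm hab
  simp only [norm_gp h1.2.1 h1.2.2, norm_gp h2.2.1 h2.2.2] at h3
  exact_mod_cast h3

/-- (Z1c) supply of Gaussian primes -/
theorem supply {X : ℝ} (hX : 2 ≤ X) : ∃ (w : ℝ) (G : Finset GaussianInt),
    X ≤ w ∧ w ≤ 2 ^ 80 * X ∧ Good w G ∧ w / (160 * Real.log w) ≤ G.card := by
  obtain ⟨w, h1, h2, h3⟩ := windows hX
  exact ⟨w, gw w, h1, h2, good_gw (by linarith), by rw [card_gw (by linarith)]; exact h3⟩




end Crest.Agent.R2.Z306
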